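import Vale.Agent.P192.H626.Shunkov

/-!
# Infinite periodic groups with bounded finite subgroups: a section without involutions
-/

namespace Vale.Agent.P192.H626

open Subgroup

theorem two_extend {G : Type*} [Group G] (ht : ∀ g : G, IsOfFinOrder g) (B : ℕ)
    (hB : ∀ P : Subgroup G, Finite P → Nat.card P ≤ B) (S : Subgroup G) (hS : Finite S)
    (hS2 : IsPGroup 2 S) (hN : Infinite (normalizer (S : Set G))) (x : G)
    (hx : x ∈ normalizer (S : Set G)) (hxx : x * x ∈ S) (hxS : x ∉ S) :
    ∃ S' : Subgroup G, Finite S' ∧ IsPGroup 2 S' ∧ Infinite (normalizer (S' : Set G)) ∧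
      S ≤ S' ∧ Nat.card S < Nat.card S' := by
  set N : Subgroup G := normalizer (S : Set G) with hNdef
  have hSN : S ≤ N := le_normalizer
  have hnor : (S.subgroupOf N).Normal := normal_in_normalizer
  let π : N →* N ⧸ S.subgroupOf N := QuotientGroup.mk' _
  have hπs : Function.Surjective π := QuotientGroup.mk'_surjective _
  have hπ : ∀ y : N, π y = 1 ↔ (y : G) ∈ S := by
    intro y
    rw [← MonoidHom.mem_ker, QuotientGroup.ker_mk', mem_subgroupOf]
  have hcardS : Nat.card (S.subgroupOf N) = Nat.card S :=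
    Nat.card_congr (subgroupOfEquivOfLe hSN).toEquiv
  have hSf : Finite (S.subgroupOf N) := Finite.of_equiv S (subgroupOfEquivOfLe hSN).symm.toEquiv
  have hpre : ∀ Q : Subgroup (N ⧸ S.subgroupOf N),
      Nat.card (Q.comap π) = Nat.card S * Nat.card Q := by
    intro Q
    rw [← hcardS]
    exact QuotientGroup.card_preimage_mk _ (Q : Set (N ⧸ S.subgroupOf N))
  have hmap : ∀ K : Subgroup N, Nat.card (K.map N.subtype) = Nat.card K := fun K =>
    (Nat.card_congr (K.equivMapOfInjective _ N.subtype_injective).toEquiv).symm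
  have htQ : ∀ q : N ⧸ S.subgroupOf N, IsOfFinOrder q := by
    intro q
    obtain ⟨y, rfl⟩ := hπs q
    exact MonoidHom.isOfFinOrder π
      ((Submonoid.isOfFinOrder_coe (H := N.toSubmonoid) (x := y)).1 (ht y))
  have hfinpre : ∀ Q : Subgroup (N ⧸ S.subgroupOf N), Finite Q →
      Finite ((Q.comap π).map N.subtype) := by
    intro Q hQ
    refine (Nat.card_pos_iff.1 ?_).2
    rw [hmap, hpre]
    exact Nat.mul_pos Nat.card_pos Nat.card_pos
  have hBQ : ∀ Q : Subgroup (N ⧸ S.subgroupOf N), Finite Q → Nat.card Q ≤ B := by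
    intro Q hQ
    have h1 := hB _ (hfinpre Q hQ)
    rw [hmap, hpre] at h1
    exact (Nat.le_mul_of_pos_left _ Nat.card_pos).trans h1
  have hinfQ : Infinite (N ⧸ S.subgroupOf N) := by
    by_contra h
    rw [not_infinite_iff_finite] at h
    exact (not_finite_iff_infinite.2 hN) (Finite.of_subgroup_quotient (S.subgroupOf N))
  let x' : N := ⟨x, hx⟩
  have hsq : π x' * π x' = 1 := by
    rw [← map_mul, hπ]
    exact hxx
  have hne : π x' ≠ 1 := fun h => hxS ((hπ x').1 h)
  have hcinf : Infinite (centralizer {π x'} : Subgroup (N ⧸ S.subgroupOf N)) := by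
    by_contra h
    rw [not_infinite_iff_finite] at h
    exact (not_finite_iff_infinite.2 hinfQ)
      (finite_of_centralizer B _ htQ hBQ (π x') hsq h)
  let T : Subgroup (N ⧸ S.subgroupOf N) := zpowers (π x')
  have hTfin : Finite T := (finite_zpowers.2 (htQ (π x'))).to_subtype
  have hTcard : Nat.card T = 2 := by
    rw [Nat.card_zpowers]
    exact orderOf_eq_prime (by rw [pow_two]; exact hsq) hne
  let S' : Subgroup G := (T.comap π).map N.subtype
  have hS'card : Nat.card S' = Nat.card S * 2 := by rw [hmap, hpre, hTcard]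
  refine ⟨S', hfinpre T hTfin, ?_, ?_, ?_, ?_⟩
  · have : Fact (Nat.Prime 2) := ⟨Nat.prime_two⟩
    obtain ⟨a, ha⟩ := IsPGroup.iff_card.1 hS2
    exact IsPGroup.of_card (n := a + 1) (by rw [hS'card, ha, pow_succ])
  · let E : Subgroup N := (centralizer {π x'} : Subgroup (N ⧸ S.subgroupOf N)).comap π
    have hEinf : Infinite E := by
      have : Function.Surjective (fun e : E =>
          (⟨π e, e.2⟩ : (centralizer {π x'} : Subgroup (N ⧸ S.subgroupOf N)))) := by
        rintro ⟨q, hq⟩
        obtain ⟨y, rfl⟩ := hπs q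
        exact ⟨⟨y, hq⟩, rfl⟩
      exact Infinite.of_surjective _ this
    have hconj : ∀ e ∈ E, ∀ y : N, π y ∈ T → π (e * y * e⁻¹) = π y := by
      intro e he y hy
      obtain ⟨n, hn⟩ := hy
      have h1 : π e * π x' = π x' * π e := mem_centralizer_singleton_iff.1 he
      have h2 : Commute (π e) (π y) := by
        rw [← hn]
        exact Commute.zpow_right h1 n
      rw [map_mul, map_mul, map_inv, h2.eq, mul_inv_cancel_right]
    have hle : ∀ e : E, ((e : N) : G) ∈ normalizer (S' : Set G) := by
      intro e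
      rw [mem_normalizer_iff]
      have key : ∀ e : E, ∀ h ∈ S', ((e : N) : G) * h * ((e : N) : G)⁻¹ ∈ S' := by
        rintro e _ ⟨y, hy, rfl⟩
        refine ⟨(e : N) * y * (e : N)⁻¹, ?_, rfl⟩
        show π _ ∈ T
        rw [hconj e e.2 y hy]
        exact hy
      intro h
      refine ⟨key e h, fun h3 => ?_⟩
      have h4 := key e⁻¹ _ h3
      have h5 : (((e⁻¹ : E) : N) : G) * (((e : N) : G) * h * ((e : N) : G)⁻¹) *
          (((e⁻¹ : E) : N) : G)⁻¹ = h := by
        have : (((e⁻¹ : E) : N) : G) = ((e : N) : G)⁻¹ := rfl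
        rw [this]
        group
      rwa [h5] at h4
    refine Infinite.of_injective (fun e : E => (⟨_, hle e⟩ : normalizer (S' : Set G))) ?_
    intro a b hab
    have h6 : ((a : N) : G) = ((b : N) : G) :=
      congrArg (fun z : normalizer (S' : Set G) => (z : G)) hab
    exact Subtype.ext (Subtype.ext h6)
  · intro y hy
    refine ⟨⟨y, hSN hy⟩, ?_, rfl⟩
    show π _ ∈ T
    rw [(hπ ⟨y, hSN hy⟩).2 hy]
    exact T.one_mem
  · rw [hS'card]
    have : 0 < Nat.card S := Nat.card_pos
    omega

/-- The normaliser of the trivial subgroup. -/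
theorem infinite_normalizer_bot {G : Type*} [Group G] [Infinite G] :
    Infinite (normalizer ((⊥ : Subgroup G) : Set G)) := by
  have h1 : normalizer ((⊥ : Subgroup G) : Set G) = ⊤ := by
    rw [eq_top_iff]
    intro g _
    rw [mem_normalizer_iff]
    intro h
    rw [mem_bot, mem_bot, conj_eq_one_iff]
  rw [h1]
  exact Infinite.of_injective (fun g : G => (⟨g, trivial⟩ : (⊤ : Subgroup G)))
    fun a b hab => congrArg Subtype.val hab

/-- In an infinite periodic group whose finite subgroups have bounded order each element `x` with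
`x ^ 2 = 1` generates a subgroup with infinite normaliser. -/
theorem infinite_normalizer_zpowers {G : Type*} [Group G] [Infinite G]
    (ht : ∀ g : G, IsOfFinOrder g) (B : ℕ)
    (hB : ∀ P : Subgroup G, Finite P → Nat.card P ≤ B) (x : G) (hx : x * x = 1) :
    Infinite (normalizer ((zpowers x : Subgroup G) : Set G)) := by
  have hcinf : Infinite (centralizer {x} : Subgroup G) := by
    by_contra h
    rw [not_infinite_iff_finite] at h
    exact (not_finite_iff_infinite.2 ‹Infinite G›) (finite_of_centralizer B _ ht hB x hx h)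
  have hle : ∀ g : (centralizer {x} : Subgroup G),
      (g : G) ∈ normalizer ((zpowers x : Subgroup G) : Set G) := by
    intro g
    have h1 : Commute (g : G) x := mem_centralizer_singleton_iff.1 g.2
    rw [mem_normalizer_iff]
    intro h
    constructor
    · rintro ⟨n, rfl⟩
      refine ⟨n, ?_⟩
      have h2 : Commute (g : G) (x ^ n) := h1.zpow_right n
      show x ^ n = (g : G) * x ^ n * (g : G)⁻¹
      rw [h2.eq, mul_inv_cancel_right]
    · rintro ⟨n, hn⟩
      refine ⟨n, ?_⟩
      have h2 : Commute (g : G) (x ^ n) := h1.zpow_right n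
      have h3 : x ^ n = (g : G) * h * (g : G)⁻¹ := hn
      have h4 : h = (g : G)⁻¹ * x ^ n * (g : G) := by
        rw [h3]
        group
      show x ^ n = h
      rw [h4, mul_assoc, ← h2.eq, inv_mul_cancel_left]
  exact Infinite.of_injective
    (fun g : (centralizer {x} : Subgroup G) =>
      (⟨(g : G), hle g⟩ : normalizer ((zpowers x : Subgroup G) : Set G)))
    fun a b hab => Subtype.ext
      (congrArg (fun z : normalizer ((zpowers x : Subgroup G) : Set G) => (z : G)) hab)

/-- A finite `2`-subgroup with infinite normaliser, in a periodic group whose finite subgroups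
have bounded order, is contained in a finite `2`-subgroup `S` such that `N(S)/S` is infinite
without involutions. -/
theorem exists_two_subgroup {G : Type*} [Group G] (ht : ∀ g : G, IsOfFinOrder g)
    (B : ℕ) (hB : ∀ P : Subgroup G, Finite P → Nat.card P ≤ B) (S0 : Subgroup G)
    (hS0 : Finite S0) (hS02 : IsPGroup 2 S0) (hS0N : Infinite (normalizer (S0 : Set G))) :
    ∃ S : Subgroup G, S0 ≤ S ∧ Finite S ∧ IsPGroup 2 S ∧ Infinite (normalizer (S : Set G)) ∧
      ∀ x ∈ normalizer (S : Set G), x * x ∈ S → x ∈ S := by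
  by_contra hcon
  push Not at hcon
  have key : ∀ n : ℕ, ∃ S : Subgroup G, S0 ≤ S ∧ Finite S ∧ IsPGroup 2 S ∧
      Infinite (normalizer (S : Set G)) ∧ n < Nat.card S := by
    intro n
    induction n with
    | zero => exact ⟨S0, le_rfl, hS0, hS02, hS0N, Nat.card_pos⟩
    | succ n ih =>
      obtain ⟨S, h0, h1, h2, h3, h4⟩ := ih
      obtain ⟨x, hx, hxx, hxS⟩ := hcon S h0 h1 h2 h3
      obtain ⟨S', h5, h6, h7, h8, h9⟩ := two_extend ht B hB S h1 h2 h3 x hx hxx hxS
      exact ⟨S', h0.trans h8, h5, h6, h7, by omega⟩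
  obtain ⟨S, -, h1, -, -, h4⟩ := key B
  have := hB S h1
  omega

end Vale.Agent.P192.H626
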