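import Vale.Agent.P192.H626.Red
import Vale.Agent.P192.H626.Struct

/-!
# Images of finitely presented periodic groups on acyclic two-complexes: involutions
-/

namespace Vale.Agent.P192.H626

open Module Subgroup Vale.Agent.P192.H260

theorem smul_mem_Fx_normalizer {G V : Type*} [Group G] [MulAction G V] (S : Subgroup G) (g : G)
    (hg : g ∈ normalizer (S : Set G)) (ω : V) (h : ω ∈ Fx V S) : g • ω ∈ Fx V S := by
  intro s hs
  have h1 : g⁻¹ * s * g ∈ S := by
    rw [mem_normalizer_iff] at hg
    rw [hg]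
    have : g * (g⁻¹ * s * g) * g⁻¹ = s := by group
    rwa [this]
  have h2 := h _ h1
  have h3 : s * g = g * (g⁻¹ * s * g) := by group
  rw [← mul_smul, h3, mul_smul, h2]

/-- The action of the normaliser on the fixed points. -/
def fxAct {G : Type*} [Group G] (V : Type*) [MulAction G V] (S : Subgroup G)
    (K : Subgroup (normalizer (S : Set G))) : MulAction K (Fx V S) where
  smul g v := ⟨((g : normalizer (S : Set G)) : G) • (v : V),
    smul_mem_Fx_normalizer S _ (g : normalizer (S : Set G)).2 _ v.2⟩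
  one_smul v := Subtype.ext (one_smul G (v : V))
  mul_smul a b v := Subtype.ext (mul_smul ((a : normalizer (S : Set G)) : G)
    ((b : normalizer (S : Set G)) : G) (v : V))

theorem card_support_Pm {V : Type*} (τ : Equiv.Perm V) (c : Ch V) :
    (Pm τ c).support.card = c.support.card := by
  classical
  have h : (Pm τ c).support = c.support.image τ :=
    Finsupp.mapDomain_support_of_injective τ.injective c
  rw [h, Finset.card_image_of_injective _ τ.injective]

theorem normalizer_finite {G : Type*} [Group G] {V : ℕ → Type*} [∀ i, MulAction G (V i)]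
    {n : ℕ} (X : Cx G V n) (hX : Acy X.d X.ε fun _ => Set.univ)
    (ends : ∀ e : V 1, ∃ v w : V 0,
      X.d 0 (Finsupp.single e 1) = Finsupp.single v 1 + Finsupp.single w 1)
    (haug : ∀ v : V 0, X.ε (Finsupp.single v 1) = 1) (S : Subgroup G) (hS : Finite S)
    (hS2 : IsPGroup 2 S) (hF : ∀ ω : V 2, ω ∉ Fx (V 2) S) (ht : ∀ g : G, IsOfFinOrder g)
    (hst : ∀ v : V 0, Finite (MulAction.stabilizer G v)) (B : ℕ)
    (hB : ∀ P : Subgroup G, Finite P → Nat.card P ≤ B) :
    Finite (normalizer (S : Set G)) := by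
  have : Fact (Nat.Prime 2) := ⟨Nat.prime_two⟩
  obtain ⟨m, hm⟩ := IsPGroup.iff_card.1 hS2
  have hA := smith_group X hX m S hm
  have hsing : ∀ v ∈ Fx (V 0) S, Supp (Fx (V 0) S) (Finsupp.single v (1 : ZMod 2)) := by
    classical
    intro v hv ω hω
    rw [Finsupp.single_apply] at hω
    by_cases h : v = ω
    · rw [← h]
      exact hv
    · rw [if_neg h] at hω
      exact absurd rfl hω
  have T : TreeData (X.d 0) (Fx (V 0) S) (Fx (V 1) S) :=
    { ends := ends
      sub := X.supp S 0
      conn := fun v hv w hw => hA.ex0 _ ((hsing v hv).add (hsing w hw)) (by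
        rw [map_add, haug, haug]
        exact CharTwo.add_self_eq_zero _)
      inj := fun e he hde => by
        obtain ⟨c, hc, rfl⟩ := hA.ex 0 e he hde
        have hc0 : c = 0 := by
          ext ω
          exact hc.eq_zero (hF ω)
        rw [hc0, map_zero] }
  have hne : Nonempty (Fx (V 0) S) := by
    obtain ⟨v, hv, hv1⟩ := hA.pt
    by_contra hcon
    have hv0 : v = 0 := by
      ext ω
      exact hv.eq_zero fun h => hcon ⟨⟨ω, h⟩⟩
    rw [hv0, map_zero] at hv1
    exact zero_ne_one hv1
  refine finite_of_fg_subgroups B (fun K hK => ?_) fun K hK => ?_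
  · let _ : MulAction K (Fx (V 0) S) := fxAct (V 0) S K
    refine finite_of_tree T.isTree ?_ ?_ ?_
    · intro g u v
      have h1 : T.path (g • u) (g • v) =
          Pm (MulAction.toPerm ((g : normalizer (S : Set G)) : G)) (T.path u v) := by
        refine T.path_unique _ _ _ ?_ ?_
        · intro ω hω
          rw [Pm_apply] at hω
          have h2 := T.path_supp u v _ hω
          have h3 := smul_mem_Fx_normalizer S _ (g : normalizer (S : Set G)).2 _ h2
          have h4 : ((g : normalizer (S : Set G)) : G) •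
              ((MulAction.toPerm ((g : normalizer (S : Set G)) : G) :
                Equiv.Perm (V 1)).symm ω) = ω :=
            Equiv.apply_symm_apply (MulAction.toPerm ((g : normalizer (S : Set G)) : G)) ω
          rwa [h4] at h3
        · rw [X.cd, T.path_bd, map_add, Pm_single, Pm_single]
          rfl
      rw [TreeData.dst, TreeData.dst, h1, card_support_Pm]
    · intro g
      have h1 : IsOfFinOrder (g : normalizer (S : Set G)) :=
        (Submonoid.isOfFinOrder_coe (H := (normalizer (S : Set G)).toSubmonoid)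
          (x := (g : normalizer (S : Set G)))).1 (ht _)
      exact (Submonoid.isOfFinOrder_coe (H := K.toSubmonoid) (x := g)).1 h1
    · intro v
      have h1 := hst (v : V 0)
      refine Finite.of_injective (fun g : MulAction.stabilizer K v =>
        (⟨(((g : K) : normalizer (S : Set G)) : G), by
          have h2 : (g : K) • v = v := g.2
          exact congrArg Subtype.val h2⟩ : MulAction.stabilizer G (v : V 0))) ?_
      intro a b hab
      have h2 : (((a : K) : normalizer (S : Set G)) : G) =
          (((b : K) : normalizer (S : Set G)) : G) :=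
        congrArg (fun z : MulAction.stabilizer G (v : V 0) => (z : G)) hab
      exact Subtype.ext (Subtype.ext (Subtype.ext h2))
  · have h1 : Nat.card K = Nat.card (K.map (normalizer (S : Set G)).subtype) :=
      Nat.card_congr (K.equivMapOfInjective _ (subtype_injective _)).toEquiv
    have h2 : Finite (K.map (normalizer (S : Set G)).subtype) :=
      Finite.of_equiv K (K.equivMapOfInjective _ (subtype_injective _)).toEquiv
    rw [h1]
    exact hB _ h2

/-- The relative normaliser. -/
theorem mem_normalizer_map {G : Type*} [Group G] (H : Subgroup G) (S : Subgroup H) (x : H) :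
    x ∈ normalizer (S : Set H) ↔
      (x : G) ∈ normalizer ((S.map H.subtype : Subgroup G) : Set G) := by
  rw [mem_normalizer_iff, mem_normalizer_iff]
  constructor
  · intro h y
    constructor
    · rintro ⟨s, hs, rfl⟩
      exact ⟨x * s * x⁻¹, (h s).1 hs, rfl⟩
    · rintro ⟨s, hs, hsy⟩
      have h1 : y = ((x⁻¹ * s * x : H) : G) := by
        have h2 : (s : G) = (x : G) * y * (x : G)⁻¹ := hsy
        show y = (x : G)⁻¹ * (s : G) * (x : G)
        rw [h2]
        group
      refine ⟨x⁻¹ * s * x, (h _).2 ?_, h1.symm⟩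
      have h3 : x * (x⁻¹ * s * x) * x⁻¹ = s := by group
      rwa [h3]
  · intro h s
    constructor
    · intro hs
      obtain ⟨s', hs', h1⟩ := (h (s : G)).1 ⟨s, hs, rfl⟩
      have h2 : s' = x * s * x⁻¹ := Subtype.ext h1
      rwa [← h2]
    · intro hs
      obtain ⟨s', hs', h1⟩ := (h (s : G)).2 ⟨x * s * x⁻¹, hs, rfl⟩
      have h2 : s' = s := Subtype.ext h1
      rwa [← h2]

/-- Let the periodic group `H` act on an acyclic complex of finite dimension with finite
stabilisers, its finite subgroups having bounded order. Each finite `2`-subgroup with infinite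
normaliser lies in a finite `2`-subgroup `S` fixing a face, with infinite normaliser, such that
the normaliser modulo `S` has no involution. -/
theorem exists_face_aux {G : Type} [Group G] {n : ℕ} (X : AcyclicComplex G n) (hX : X.Regular)
    (H : Subgroup G) (hper : ∀ x ∈ H, IsOfFinOrder x)
    (hst : ∀ v : X.cell 0, Finite (H ⊓ MulAction.stabilizer G v : Subgroup G)) (B : ℕ)
    (hB : ∀ P : Subgroup G, Finite P → P ≤ H → Nat.card P ≤ B) :
    (∀ g : H, IsOfFinOrder g) ∧ (∀ P : Subgroup H, Finite P → Nat.card P ≤ B) ∧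
    ∀ S0 : Subgroup H, Finite S0 → IsPGroup 2 S0 → Infinite (normalizer (S0 : Set H)) →
    ∃ S : Subgroup H, S0 ≤ S ∧ Finite S ∧ IsPGroup 2 S ∧ Infinite (normalizer (S : Set H)) ∧
      (∀ x ∈ normalizer (S : Set H), x * x ∈ S → x ∈ S) ∧
      ∃ ω : X.cell 2, ∀ s ∈ S, (s : G) • ω = ω := by
  have ht : ∀ g : H, IsOfFinOrder g := by
    rintro ⟨x, hx⟩
    exact (Submonoid.isOfFinOrder_coe (H := H.toSubmonoid) (x := ⟨x, hx⟩)).1 (hper x hx)
  have hmap : ∀ K : Subgroup H, Nat.card (K.map H.subtype) = Nat.card K := fun K =>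
    (Nat.card_congr (K.equivMapOfInjective _ H.subtype_injective).toEquiv).symm
  have hmaple : ∀ K : Subgroup H, K.map H.subtype ≤ H := by
    rintro K _ ⟨x, -, rfl⟩
    exact x.2
  have hmapfin : ∀ K : Subgroup H, Finite K → Finite (K.map H.subtype) :=
    fun K _ => Finite.of_equiv K (K.equivMapOfInjective _ H.subtype_injective).toEquiv
  have hB' : ∀ P : Subgroup H, Finite P → Nat.card P ≤ B := by
    intro P hP
    rw [← hmap]
    exact hB _ (hmapfin P hP) (hmaple P)
  refine ⟨ht, hB', fun S0 h1 h2 h3 => ?_⟩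
  obtain ⟨S, hS0, hS1, hS2, hS3, hS4⟩ := exists_two_subgroup ht B hB' S0 h1 h2 h3
  refine ⟨S, hS0, hS1, hS2, hS3, hS4, ?_⟩
  by_contra hcon
  push Not at hcon
  have hF : ∀ ω : X.cell 2, ω ∉ Fx (X.cell 2) S := by
    intro ω hω
    obtain ⟨s, hs, hs2⟩ := hcon ω
    exact hs2 (hω s hs)
  have hfinal : Finite (normalizer (S : Set H)) := by
    refine normalizer_finite (X.cx hX H) X.acy ?_ ?_ S hS1 hS2 hF ht ?_ B hB'
    · intro e
      obtain ⟨v, w, hvw⟩ := hX.2.1 e
      refine ⟨v, w, ?_⟩
      show X.bd2 0 (Finsupp.single e 1) = _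
      rw [AcyclicComplex.bd2, lft_single]
      show rho (X.basis 0) (X.bd 0 (X.basis 1 e)) = _
      rw [hvw, map_sub, rho_basis, rho_basis]
      apply ch_eq_of_add
      have : Finsupp.single w (1 : ZMod 2) - Finsupp.single v 1 +
          (Finsupp.single v 1 + Finsupp.single w 1) =
          Finsupp.single w 1 + Finsupp.single w 1 := by abel
      rw [this, ch_add_self]
    · intro v
      show X.aug2 (Finsupp.single v 1) = 1
      rw [AcyclicComplex.aug2, lft_single]
      show ((X.aug (X.basis 0 v) : ℤ) : ZMod 2) = 1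
      rw [hX.1, Int.cast_one]
    · intro v
      have h1 := hst v
      refine Finite.of_injective (fun g : MulAction.stabilizer H v =>
        (⟨((g : H) : G), (g : H).2, g.2⟩ :
          (H ⊓ MulAction.stabilizer G v : Subgroup G))) ?_
      intro a b hab
      have h2 : ((a : H) : G) = ((b : H) : G) := congrArg (fun z :
        (H ⊓ MulAction.stabilizer G v : Subgroup G) => (z : G)) hab
      exact Subtype.ext (Subtype.ext h2)
  exact (not_finite_iff_infinite.2 hS3) hfinal

/-- The same in terms of subgroups of `G`. -/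
theorem exists_face {G : Type} [Group G] {n : ℕ} (X : AcyclicComplex G n) (hX : X.Regular)
    (H : Subgroup G) (hper : ∀ x ∈ H, IsOfFinOrder x)
    (hst : ∀ v : X.cell 0, Finite (H ⊓ MulAction.stabilizer G v : Subgroup G)) (B : ℕ)
    (hB : ∀ P : Subgroup G, Finite P → P ≤ H → Nat.card P ≤ B) (S0 : Subgroup G) (hS0 : S0 ≤ H)
    (hS0f : Finite S0) (hS02 : IsPGroup 2 S0)
    (hS0N : Infinite (H ⊓ normalizer (S0 : Set G) : Subgroup G)) :
    ∃ S : Subgroup G, S0 ≤ S ∧ S ≤ H ∧ Finite S ∧ IsPGroup 2 S ∧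
      Infinite (H ⊓ normalizer (S : Set G) : Subgroup G) ∧
      (∀ x ∈ H ⊓ normalizer (S : Set G), x * x ∈ S → x ∈ S) ∧
      ∃ ω : X.cell 2, S ≤ MulAction.stabilizer G ω := by
  obtain ⟨-, -, key⟩ := exists_face_aux X hX H hper hst B hB
  have hmap0 : (S0.subgroupOf H).map H.subtype = S0 := by
    rw [Subgroup.subgroupOf_map_subtype]
    exact inf_eq_left.2 hS0
  have e0 := subgroupOfEquivOfLe hS0
  obtain ⟨S, h0, h1, h2, h3, h4, ω, hω⟩ := key (S0.subgroupOf H)
    (Finite.of_equiv S0 e0.symm.toEquiv) (hS02.of_equiv e0.symm) (by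
      refine Infinite.of_injective
        (fun x : (H ⊓ normalizer (S0 : Set G) : Subgroup G) =>
          (⟨⟨(x : G), x.2.1⟩, (mem_normalizer_map H _ _).2 (by rw [hmap0]; exact x.2.2)⟩ :
            normalizer ((S0.subgroupOf H : Subgroup H) : Set H))) ?_
      intro a b hab
      have h5 : ((⟨(a : G), a.2.1⟩ : H) : G) = ((⟨(b : G), b.2.1⟩ : H) : G) :=
        congrArg (fun z : normalizer ((S0.subgroupOf H : Subgroup H) : Set H) =>
          ((z : H) : G)) hab
      exact Subtype.ext h5)
  refine ⟨S.map H.subtype, ?_, ?_, Finite.of_equiv S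
    (S.equivMapOfInjective _ H.subtype_injective).toEquiv,
    h2.of_equiv (S.equivMapOfInjective _ H.subtype_injective), ?_, ?_, ω, ?_⟩
  · intro x hx
    exact ⟨⟨x, hS0 hx⟩, h0 hx, rfl⟩
  · rintro _ ⟨x, -, rfl⟩
    exact x.2
  · refine Infinite.of_injective (fun x : normalizer (S : Set H) =>
      (⟨((x : H) : G), (x : H).2, (mem_normalizer_map H S x).1 x.2⟩ :
        (H ⊓ normalizer ((S.map H.subtype : Subgroup G) : Set G) : Subgroup G))) ?_
    intro a b hab
    have h1 : ((a : H) : G) = ((b : H) : G) := congrArg (fun z :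
      (H ⊓ normalizer ((S.map H.subtype : Subgroup G) : Set G) : Subgroup G) =>
        (z : G)) hab
    exact Subtype.ext (Subtype.ext h1)
  · rintro x ⟨hx1, hx2⟩ ⟨s, hs, hsx⟩
    have h1 := (mem_normalizer_map H S ⟨x, hx1⟩).2 hx2
    have h2 : (⟨x, hx1⟩ : H) * ⟨x, hx1⟩ = s := Subtype.ext hsx.symm
    exact ⟨⟨x, hx1⟩, h4 _ h1 (by rw [h2]; exact hs), rfl⟩
  · rintro _ ⟨s, hs, rfl⟩
    exact hω s hs

/-- If `H` is infinite then every involution fixes a face. -/
theorem involution_fixes {G : Type} [Group G] {n : ℕ} (X : AcyclicComplex G n) (hX : X.Regular)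
    (H : Subgroup G) (hper : ∀ x ∈ H, IsOfFinOrder x)
    (hst : ∀ v : X.cell 0, Finite (H ⊓ MulAction.stabilizer G v : Subgroup G)) (B : ℕ)
    (hB : ∀ P : Subgroup G, Finite P → P ≤ H → Nat.card P ≤ B) (hinf : Infinite H)
    (x : G) (hx : x ∈ H) (hxx : x * x = 1) : ∃ ω : X.cell 2, x • ω = ω := by
  obtain ⟨ht, hB', key⟩ := exists_face_aux X hX H hper hst B hB
  have h1 : (⟨x, hx⟩ : H) * ⟨x, hx⟩ = 1 := Subtype.ext hxx
  have h2 := infinite_normalizer_zpowers ht B hB' ⟨x, hx⟩ h1
  obtain ⟨S, h0, -, -, -, -, ω, hω⟩ := key (zpowers (⟨x, hx⟩ : H))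
    (finite_zpowers.2 (ht _)).to_subtype (by
      rintro ⟨_, n, rfl⟩
      refine ⟨1, Subtype.ext ?_⟩
      show ((⟨x, hx⟩ : H) ^ n) ^ 2 ^ 1 = 1
      rw [pow_one, ← zpow_natCast, ← zpow_mul, mul_comm, zpow_mul, zpow_natCast, pow_two, h1,
        one_zpow]) h2
  exact ⟨ω, hω _ (h0 (mem_zpowers _))⟩

end Vale.Agent.P192.H626
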