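import Vale.Agent.P192.H626.ResFin
import Vale.Agent.P192.H626.Invol

/-!
# Assembly
-/

namespace Vale.Agent.P192.H626

open Module

/-- The prime version: if the orders of the finite `p`-subgroups of each cell stabiliser are
bounded, then so are the orders of all finite `p`-subgroups. -/
theorem bounded_p {Γ G : Type} [Group Γ] [Group G] (X : AcyclicComplex G 2)
    (hfp : Group.IsFinitelyPresented Γ) (hper : ∀ x : Γ, IsOfFinOrder x) (f : Γ →* G) (p : ℕ)
    (hM : ∀ i (ω : X.cell i), ∃ B : ℕ, ∀ P : Subgroup G, Finite P → IsPGroup p P →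
      P ≤ f.range → P ≤ MulAction.stabilizer G ω → Nat.card P ≤ B) :
    ∃ B : ℕ, ∀ P : Subgroup G, Finite P → IsPGroup p P → P ≤ f.range → Nat.card P ≤ B := by
  obtain ⟨T, hT⟩ := exists_cells X hfp hper f
  choose B hB using hM
  have hpos : 0 < ∏ c ∈ T, (B c.1 c.2).factorial :=
    Finset.prod_pos fun t _ => Nat.factorial_pos _
  refine ⟨(∏ c ∈ T, (B c.1 c.2).factorial) ^ 3, fun P hP hPp hPf =>
    Nat.le_of_dvd (pow_pos hpos 3) (hT P hP hPf _ fun c hc g hg => ?_)⟩
  obtain ⟨Q, hQ1, hQ2, hQ3, hQ4, hQ5, -⟩ := conj_inf f.range P hP hPf g hg c.2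
  rw [← hQ4]
  exact (Nat.dvd_factorial Nat.card_pos (hB c.1 c.2 Q hQ1 (hQ5 p hPp) hQ2 hQ3)).trans
    (Finset.dvd_prod_of_mem (fun c : Σ i, X.cell i => (B c.1 c.2).factorial) hc)

/-- If some element `x` with `x ^ 2 = 1` fixes no face then the image is finite. -/
theorem finite_of_involution {Γ G : Type} [Group Γ] [Group G] (X : AcyclicComplex G 2)
    (hX : X.Regular) (hfp : Group.IsFinitelyPresented Γ) (hper : ∀ x : Γ, IsOfFinOrder x)
    (f : Γ →* G) (hst : ∀ i (ω : X.cell i), Finite (f.range ⊓ MulAction.stabilizer G ω : Subgroup G))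
    (hx : ∃ x ∈ f.range, x * x = 1 ∧ ∀ ω : X.cell 2, x • ω ≠ ω) : Finite f.range := by
  by_contra hinf
  rw [not_finite_iff_infinite] at hinf
  obtain ⟨B, hB⟩ := bounded_of_acyclic X hfp hper f (fun i ω =>
    ⟨Nat.card (f.range ⊓ MulAction.stabilizer G ω : Subgroup G), fun P _ h1 h3 => by
      have := hst i ω
      exact Nat.le_of_dvd Nat.card_pos (Subgroup.card_dvd_of_le (le_inf h1 h3))⟩)
  have hper' : ∀ x ∈ f.range, IsOfFinOrder x := by
    rintro _ ⟨y, rfl⟩
    exact MonoidHom.isOfFinOrder f (hper y)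
  obtain ⟨x, hx1, hx2, hx3⟩ := hx
  obtain ⟨ω, hω⟩ :=
    involution_fixes X hX f.range hper' (fun v => hst 0 v) B hB hinf x hx1 hx2
  exact hx3 ω hω

/-- If the orders of the finite `2`-subgroups of each cell stabiliser are bounded, then all
`2`-subgroups are finite, of bounded order. -/
theorem two_subgroups {Γ G : Type} [Group Γ] [Group G] (X : AcyclicComplex G 2)
    (hfp : Group.IsFinitelyPresented Γ) (hper : ∀ x : Γ, IsOfFinOrder x) (f : Γ →* G)
    (hM : ∀ i (ω : X.cell i), ∃ B : ℕ, ∀ P : Subgroup G, Finite P → IsPGroup 2 P →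
      P ≤ f.range → P ≤ MulAction.stabilizer G ω → Nat.card P ≤ B) :
    ∃ B : ℕ, ∀ P : Subgroup G, IsPGroup 2 P → P ≤ f.range → Finite P ∧ Nat.card P ≤ B := by
  obtain ⟨B, hB⟩ := bounded_p X hfp hper f 2 hM
  refine ⟨B, fun P hP hPf => ?_⟩
  have hfin : Finite P := by
    refine finite_of_two_group hP B fun Q hQ => ?_
    have h4 : Nat.card Q = Nat.card (Q.map P.subtype) :=
      Nat.card_congr (Q.equivMapOfInjective _ P.subtype_injective).toEquiv
    have h5 : Q.map P.subtype ≤ f.range := by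
      rintro _ ⟨x, -, rfl⟩
      exact hPf x.2
    have h6 : Finite (Q.map P.subtype) :=
      Finite.of_equiv Q (Q.equivMapOfInjective _ P.subtype_injective).toEquiv
    have h7 : IsPGroup 2 (Q.map P.subtype) :=
      (hP.to_subgroup Q).of_equiv (Q.equivMapOfInjective _ P.subtype_injective)
    rw [h4]
    exact hB _ h6 h7 h5
  exact ⟨hfin, hB P hfin hP hPf⟩

end Vale.Agent.P192.H626
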