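import Vale.Agent.P192.H626.Sign

/-!
# Two-cocycles in a cocompact part of an acyclic two-complex

`G` is a quotient of a finitely presented group by a torsion normal subgroup.
-/

namespace Vale.Agent.P192.H626

open Module

variable {n : ℕ} {G : Type*} [Group G] {C1 : Type*} [AddCommGroup C1] [DistribMulAction G C1]

/-- The affine action of the free group attached to a crossed homomorphism. -/
def aff (π : FreeGroup (Fin n) →* G) (p : Fin n → C1) : FreeGroup (Fin n) →* Equiv.Perm C1 :=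
  FreeGroup.lift fun s => Equiv.addRight (p s) * MulAction.toPerm (π (FreeGroup.of s))

/-- The crossed homomorphism with given values on the generators. -/
def cr (π : FreeGroup (Fin n) →* G) (p : Fin n → C1) (w : FreeGroup (Fin n)) : C1 := aff π p w 0

variable (π : FreeGroup (Fin n) →* G) (p : Fin n → C1)

theorem aff_of (s : Fin n) (x : C1) : aff π p (FreeGroup.of s) x = π (FreeGroup.of s) • x + p s := by
  simp [aff]

theorem aff_apply (w : FreeGroup (Fin n)) (x : C1) : aff π p w x = π w • x + cr π p w := by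
  suffices h : ∀ x, aff π p w x = π w • x + aff π p w 0 from h x
  induction w using FreeGroup.induction_on with
  | C1 => intro x; simp
  | of s => intro x; rw [aff_of, aff_of, smul_zero, zero_add]
  | inv_of s hs =>
    intro x
    have key : ∀ y, aff π p (FreeGroup.of s)⁻¹ y = (π (FreeGroup.of s))⁻¹ • (y - p s) := by
      intro y
      rw [map_inv, Equiv.Perm.inv_eq_iff_eq, aff_of, smul_inv_smul, sub_add_cancel]
    rw [key, key, map_inv, smul_sub, smul_sub, smul_zero]
    abel
  | mul u v hu hv =>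
    intro x
    rw [map_mul, Equiv.Perm.mul_apply, Equiv.Perm.mul_apply, hu (aff π p v x), hv x,
      hu (aff π p v 0), map_mul, mul_smul, smul_add]
    abel

theorem cr_mul (u v : FreeGroup (Fin n)) : cr π p (u * v) = π u • cr π p v + cr π p u := by
  have : cr π p (u * v) = aff π p u (aff π p v 0) := by
    simp [cr]
  rw [this, aff_apply]
  rfl

theorem cr_one : cr π p 1 = 0 := by simp [cr]

theorem cr_of (s : Fin n) : cr π p (FreeGroup.of s) = p s := by
  rw [cr, aff_of, smul_zero, zero_add]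

theorem cr_inv (u : FreeGroup (Fin n)) : cr π p u⁻¹ = -((π u)⁻¹ • cr π p u) := by
  have h := cr_mul π p u⁻¹ u
  rw [inv_mul_cancel, cr_one, map_inv] at h
  exact (neg_eq_of_add_eq_zero_right h.symm).symm

theorem cr_pow (u : FreeGroup (Fin n)) (hu : π u = 1) (k : ℕ) :
    cr π p (u ^ k) = k • cr π p u := by
  induction k with
  | zero => simp [cr_one]
  | succ k ih => rw [pow_succ', cr_mul, hu, one_smul, ih, succ_nsmul]

theorem d_cr {C0 : Type*} [AddCommGroup C0] [DistribMulAction G C0] (d1 : C1 →+ C0)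
    (e1 : ∀ (k : G) x, d1 (k • x) = k • d1 x) (v0 : C0)
    (hp : ∀ s, d1 (p s) = π (FreeGroup.of s) • v0 - v0) (w : FreeGroup (Fin n)) :
    d1 (cr π p w) = π w • v0 - v0 := by
  induction w using FreeGroup.induction_on with
  | C1 => simp [cr_one]
  | of s => rw [cr_of, hp]
  | inv_of s hs =>
    rw [cr_inv, map_neg, e1, cr_of, hp, smul_sub, inv_smul_smul, map_inv]
    abel
  | mul u v hu hv =>
    rw [cr_mul, map_add, e1, hv, hu, map_mul, mul_smul, smul_sub]
    abel

/-- The crossed homomorphism is trivial modulo `d₂` of the orbits of fillings of the relators. -/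
theorem cr_ker {C2 Ω2 : Type*} [AddCommGroup C2] [DistribMulAction G C2] [MulAction G Ω2]
    (b2 : Basis Ω2 ℤ C2) (hb2 : SignPerm G b2) (d2 : C2 →+ C1)
    (e2 : ∀ (k : G) x, d2 (k • x) = k • d2 x) (inj : Function.Injective d2)
    (A : Set Ω2) (hA : ∀ (g : G) ω, ω ∈ A → g • ω ∈ A)
    (R : Set (FreeGroup (Fin n))) (hR1 : ∀ r ∈ R, π r = 1)
    (hR : ∀ r ∈ R, ∃ c ∈ Sp b2 A, d2 c = cr π p r)
    (hex : ∀ w, π w = 1 → ∃ c, d2 c = cr π p w)
    (htor : ∀ w, π w = 1 → ∃ k : ℕ, 0 < k ∧ w ^ k ∈ Subgroup.normalClosure R)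
    (w : FreeGroup (Fin n)) (hw : π w = 1) : ∃ c ∈ Sp b2 A, d2 c = cr π p w := by
  let K : Subgroup (FreeGroup (Fin n)) :=
    { carrier := {w | π w = 1 ∧ ∃ c ∈ Sp b2 A, d2 c = cr π p w}
      one_mem' := ⟨map_one _, 0, (Sp b2 A).zero_mem, by rw [map_zero, cr_one]⟩
      mul_mem' := by
        rintro u v ⟨hu, c, hc, hcu⟩ ⟨hv, c', hc', hcv⟩
        refine ⟨by rw [map_mul, hu, hv, mul_one], c' + c, (Sp b2 A).add_mem hc' hc, ?_⟩
        rw [map_add, cr_mul, hu, one_smul, hcu, hcv]
      inv_mem' := by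
        rintro u ⟨hu, c, hc, hcu⟩
        refine ⟨by rw [map_inv, hu, inv_one], -c, (Sp b2 A).neg_mem hc, ?_⟩
        rw [map_neg, cr_inv, hu, inv_one, one_smul, hcu] }
  have hKn : K.Normal := by
    refine ⟨fun u hu v => ?_⟩
    obtain ⟨hu, c, hc, hcu⟩ := hu
    refine ⟨by rw [map_mul, map_mul, hu, mul_one, map_inv, mul_inv_cancel], π v • c,
      smul_mem_Sp b2 hb2 A hA _ _ hc, ?_⟩
    rw [e2, hcu, cr_mul, cr_mul, cr_inv, map_mul, hu, mul_one, smul_neg, smul_inv_smul]
    abel
  have hle : Subgroup.normalClosure R ≤ K :=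
    Subgroup.normalClosure_le_normal fun r hr => ⟨hR1 r hr, hR r hr⟩
  obtain ⟨k, hk, hkw⟩ := htor w hw
  obtain ⟨-, c', hc', hcc⟩ := hle hkw
  obtain ⟨c, hc⟩ := hex w hw
  refine ⟨c, ?_, hc⟩
  have h1 : k • c = c' := by
    apply inj
    rw [map_nsmul, hc, hcc, cr_pow π p w hw]
  rw [mem_Sp] at hc' ⊢
  intro ω hω
  refine hc' ω ?_
  rw [← h1, map_nsmul, Finsupp.smul_apply, nsmul_eq_mul]
  exact mul_ne_zero (by exact_mod_cast hk.ne') hω

end Vale.Agent.P192.H626
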