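import Vale.Agent.P192.H626.Step

/-!
# Finite groups acting on acyclic complexes of dimension `n`
-/

namespace Vale.Agent.P192.H626

open Module

/-- The cycles. -/
def Zk {C : ℕ → Type*} [∀ i, AddCommGroup (C i)] (d : ∀ i, C (i + 1) →+ C i) (ε : C 0 →+ ℤ) :
    ∀ i, AddSubgroup (C i)
  | 0 => ε.ker
  | i + 1 => (d i).ker

theorem exists_section {Ω B C : Type*} [AddCommGroup B] [AddCommGroup C] (b : Basis Ω ℤ C)
    (d : B →+ C) (Z : AddSubgroup C) (ex : ∀ x ∈ Z, ∃ y, d y = x) (p : C →+ C)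
    (hp : ∀ x, p x ∈ Z) (hp' : ∀ x ∈ Z, p x = x) : ∃ h : C →+ B, ∀ x ∈ Z, d (h x) = x := by
  choose y hy using fun ω => ex (p (b ω)) (hp (b ω))
  let h : C →ₗ[ℤ] B := b.constr ℤ y
  have h1 : d.toIntLinearMap ∘ₗ h = p.toIntLinearMap := by
    refine b.ext fun ω => ?_
    rw [LinearMap.comp_apply, Basis.constr_basis]
    exact hy ω
  refine ⟨h.toAddMonoidHom, fun x hx => ?_⟩
  have h2 := LinearMap.congr_fun h1 x
  exact h2.trans (hp' x hx)

theorem exists_sections {Ω : ℕ → Type*} {C : ℕ → Type*} [∀ i, AddCommGroup (C i)]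
    (b : ∀ i, Basis (Ω i) ℤ (C i)) (d : ∀ i, C (i + 1) →+ C i) (ε : C 0 →+ ℤ)
    (x0 : ∀ x, ε x = 0 ↔ ∃ y, d 0 y = x) (x1 : ∀ i x, d i x = 0 ↔ ∃ y, d (i + 1) y = x)
    (v0 : C 0) (hv0 : ε v0 = 1) (i : ℕ) : ∃ h : C i →+ C (i + 1), ∀ x ∈ Zk d ε i, d i (h x) = x := by
  induction i with
  | zero =>
    refine exists_section (b 0) (d 0) (Zk d ε 0) (fun x hx => (x0 x).1 hx)
      (AddMonoidHom.id _ - ((zmultiplesHom (C 0)) v0).comp ε) (fun x => ?_) fun x hx => ?_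
    · show ε _ = 0
      rw [AddMonoidHom.sub_apply, AddMonoidHom.id_apply, map_sub, AddMonoidHom.comp_apply,
        zmultiplesHom_apply, map_zsmul, hv0, smul_eq_mul, mul_one, sub_self]
    · have : ε x = 0 := hx
      rw [AddMonoidHom.sub_apply, AddMonoidHom.id_apply, AddMonoidHom.comp_apply, this, map_zero,
        sub_zero]
  | succ i ih =>
    obtain ⟨h, hh⟩ := ih
    have hz : ∀ x, d i x ∈ Zk d ε i := by
      intro x
      cases i with
      | zero => exact (x0 _).2 ⟨x, rfl⟩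
      | succ i => exact (x1 _ _).2 ⟨x, rfl⟩
    refine exists_section (b (i + 1)) (d (i + 1)) (Zk d ε (i + 1)) (fun x hx => (x1 i x).1 hx)
      (AddMonoidHom.id _ - h.comp (d i)) (fun x => ?_) fun x hx => ?_
    · show d i _ = 0
      rw [AddMonoidHom.sub_apply, AddMonoidHom.id_apply, map_sub, AddMonoidHom.comp_apply,
        hh _ (hz x), sub_self]
    · have : d i x = 0 := hx
      rw [AddMonoidHom.sub_apply, AddMonoidHom.id_apply, AddMonoidHom.comp_apply, this, map_zero,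
        sub_zero]

theorem trace_all {P : Type*} [Group P] [Fintype P] {Ω : ℕ → Type*} [∀ i, MulAction P (Ω i)]
    {C : ℕ → Type*} [∀ i, AddCommGroup (C i)] [∀ i, DistribMulAction P (C i)]
    (b : ∀ i, Basis (Ω i) ℤ (C i)) (s : ∀ i, SignPerm P (b i)) (d : ∀ i, C (i + 1) →+ C i)
    (ε : C 0 →+ ℤ) (e : ∀ i (k : P) x, d i (k • x) = k • d i x)
    (e0 : ∀ (k : P) x, ε (k • x) = ε x)
    (x0 : ∀ x, ε x = 0 ↔ ∃ y, d 0 y = x) (x1 : ∀ i x, d i x = 0 ↔ ∃ y, d (i + 1) y = x)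
    (v0 : C 0) (hv0 : ε v0 = 1) (n : ℕ) (hn : ∀ i, n < i → IsEmpty (Ω i)) (M : ℤ)
    (hM : ∀ i (ω : Ω i), (Nat.card (MulAction.stabilizer P ω) : ℤ) ∣ M) (j : ℕ) :
    ∀ i, i + j = n → ∃ θ : C i →+ C i, (∀ x ∈ Zk d ε i, θ x ∈ Zk d ε i) ∧
      ∀ x ∈ Zk d ε i, ∑ k : P, k • θ (k⁻¹ • x) = (M ^ j) • x := by
  have hz : ∀ i x, d i x ∈ Zk d ε i := by
    intro i x
    cases i with
    | zero => exact (x0 _).2 ⟨x, rfl⟩
    | succ i => exact (x1 _ _).2 ⟨x, rfl⟩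
  have hinv : ∀ i (k : P) x, x ∈ Zk d ε i → k • x ∈ Zk d ε i := by
    intro i k x hx
    cases i with
    | zero =>
      show ε _ = 0
      rw [e0]
      exact hx
    | succ i =>
      have : d i x = 0 := hx
      show d i _ = 0
      rw [e, this, smul_zero]
  induction j with
  | zero =>
    intro i hi
    obtain ⟨h, hh⟩ := exists_sections b d ε x0 x1 v0 hv0 i
    have hem := hn (i + 1) (by omega)
    have h0 : ∀ x ∈ Zk d ε i, x = 0 := by
      intro x hx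
      rw [← hh x hx]
      have : h x = 0 := by
        rw [← (b (i + 1)).repr.map_eq_zero_iff]
        ext ω
        exact hem.elim ω
      rw [this, map_zero]
    refine ⟨AddMonoidHom.id _, fun x hx => hx, fun x hx => ?_⟩
    rw [h0 x hx]
    simp
  | succ j ih =>
    intro i hi
    obtain ⟨θA, mA, tA⟩ := ih (i + 1) (by omega)
    obtain ⟨h, hh⟩ := exists_sections b d ε x0 x1 v0 hv0 i
    obtain ⟨θB, tB, -⟩ := exists_theta (b (i + 1)) (s (i + 1)) Set.univ M fun ω _ => hM _ ω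
    have htop : ∀ x, x ∈ Sp (b (i + 1)) Set.univ := fun x =>
      (mem_Sp _ _ _).2 fun ω _ => Set.mem_univ ω
    obtain ⟨θ, hθ1, hθ2⟩ := trace_step (d i) (e i) (Zk d ε i) (hinv i) (hz i) h hh M (M ^ j) θB
      (fun x => tB x (htop x)) θA (fun x hx => mA x hx) (fun x hx => tA x hx)
    refine ⟨θ, hθ1, fun x hx => ?_⟩
    rw [hθ2 x hx, pow_succ']

/-- If the order of each cell stabiliser divides `M` then the order of the group divides
`M ^ (n + 1)`. -/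
theorem card_dvd_pow {P : Type*} [Group P] [Fintype P] {Ω : ℕ → Type*} [∀ i, MulAction P (Ω i)]
    {C : ℕ → Type*} [∀ i, AddCommGroup (C i)] [∀ i, DistribMulAction P (C i)]
    (b : ∀ i, Basis (Ω i) ℤ (C i)) (s : ∀ i, SignPerm P (b i)) (d : ∀ i, C (i + 1) →+ C i)
    (ε : C 0 →+ ℤ) (e : ∀ i (k : P) x, d i (k • x) = k • d i x)
    (e0 : ∀ (k : P) x, ε (k • x) = ε x)
    (x0 : ∀ x, ε x = 0 ↔ ∃ y, d 0 y = x) (x1 : ∀ i x, d i x = 0 ↔ ∃ y, d (i + 1) y = x)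
    (v0 : C 0) (hv0 : ε v0 = 1) (n : ℕ) (hn : ∀ i, n < i → IsEmpty (Ω i)) (M : ℤ)
    (hM : ∀ i (ω : Ω i), (Nat.card (MulAction.stabilizer P ω) : ℤ) ∣ M) :
    (Nat.card P : ℤ) ∣ M ^ (n + 1) := by
  obtain ⟨θA, mA, tA⟩ := trace_all b s d ε e e0 x0 x1 v0 hv0 n hn M hM n 0 (by omega)
  obtain ⟨θB, tB, -⟩ := exists_theta (b 0) (s 0) Set.univ M fun ω _ => hM _ ω
  have htop : ∀ x, x ∈ Sp (b 0) Set.univ := fun x => (mem_Sp _ _ _).2 fun ω _ => Set.mem_univ ω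
  let _ : DistribMulAction P ℤ :=
    { smul := fun _ x => x
      one_smul := fun _ => rfl
      mul_smul := fun _ _ _ => rfl
      smul_zero := fun _ => rfl
      smul_add := fun _ _ _ => rfl }
  have htriv : ∀ (k : P) (x : ℤ), k • x = x := fun _ _ => rfl
  obtain ⟨θ, -, hθ⟩ := trace_step (B := C 0) (C := ℤ) ε (fun k x => by rw [e0, htriv]) ⊤
    (fun _ _ _ => trivial) (fun _ => trivial) ((zmultiplesHom (C 0)) v0)
    (fun x _ => by rw [zmultiplesHom_apply, map_zsmul, hv0, smul_eq_mul, mul_one]) M (M ^ n) θB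
    (fun x => tB x (htop x)) θA (fun x hx => mA x hx) (fun x hx => tA x hx)
  have h1 := hθ 1 trivial
  simp only [htriv] at h1
  rw [Finset.sum_const, Finset.card_univ, nsmul_eq_mul, smul_eq_mul, mul_one, ← pow_succ'] at h1
  rw [Nat.card_eq_fintype_card]
  exact ⟨_, h1.symm⟩

end Vale.Agent.P192.H626
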