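import Vale.Agent.P192.H626.Tree

/-!
# Finitely generated periodic groups acting on trees with finite stabilisers are finite
-/

namespace Vale.Agent.P192.H626

open Vale.Agent.P192.H260

theorem tree_parity {V : Type*} {d : V → V → ℕ} (h : IsTree d) : ∀ (n : ℕ) (u v w : V),
    d u v = n → Even (d u w + d v w + n) := by
  intro n
  induction n with
  | zero =>
    intro u v w huv
    have := (h.eq0 u v).1 huv
    subst this
    exact ⟨d u w, by ring⟩
  | succ n ih =>
    intro u v w huv
    have hne : u ≠ v := by
      rintro rfl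
      rw [d_self h] at huv
      omega
    obtain ⟨u', hu'⟩ := exists_St h hne
    have h1 := ih u' v w (by have := hu'.2; omega)
    have h2 := h.par u u' w hu'.1
    rcases h2 with h2 | h2
    · have e : d u w + d v w + (n + 1) = (d u' w + d v w + n) + 2 := by omega
      rw [e]
      exact h1.add (by decide)
    · have e : d u' w + d v w + n = d u w + d v w + (n + 1) := by omega
      rwa [e] at h1

/-- A finitely generated periodic group acting on a tree with finite stabilisers is finite. -/
theorem finite_of_tree {V : Type*} {d : V → V → ℕ} (h : IsTree d) [Nonempty V] {Γ : Type*}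
    [Group Γ] [Group.FG Γ] [MulAction Γ V] (hiso : ∀ (g : Γ) (u v : V), d (g • u) (g • v) = d u v)
    (hfin : ∀ g : Γ, IsOfFinOrder g) (hst : ∀ v : V, Finite (MulAction.stabilizer Γ v)) :
    Finite Γ := by
  obtain ⟨v0⟩ := ‹Nonempty V›
  have hmul : ∀ g k : Γ, Even (d v0 (g • v0) + d v0 (k • v0) + d v0 ((g * k) • v0)) := by
    intro g k
    have h1 := tree_parity h _ v0 (g • v0) ((g * k) • v0) rfl
    rw [mul_smul, hiso g v0 (k • v0), ← mul_smul] at h1
    have e : d v0 ((g * k) • v0) + d v0 (k • v0) + d v0 (g • v0) =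
      d v0 (g • v0) + d v0 (k • v0) + d v0 ((g * k) • v0) := by ring
    rwa [e] at h1
  -- the parity homomorphism
  let ε : Γ →* ℤˣ :=
    { toFun := fun g => (-1) ^ (d v0 (g • v0))
      map_one' := by rw [one_smul, d_self h, pow_zero]
      map_mul' := by
        intro g k
        have h1 := hmul g k
        rw [← pow_add]
        rcases Nat.even_or_odd (d v0 (g • v0) + d v0 (k • v0)) with h2 | h2
        · have h3 : Even (d v0 ((g * k) • v0)) := (Nat.even_add.1 h1).1 h2
          rw [h2.neg_one_pow, h3.neg_one_pow]
        · have h3 : Odd (d v0 ((g * k) • v0)) := by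
            rw [← Nat.not_even_iff_odd] at h2 ⊢
            exact fun h4 => h2 ((Nat.even_add.1 h1).2 h4)
          rw [h2.neg_one_pow, h3.neg_one_pow] }
  have hε : ∀ g : Γ, ε g = 1 → ∀ v : V, Even (d v (g • v)) := by
    intro g hg v
    have h1 : Even (d v0 (g • v0)) := by
      by_contra h2
      rw [Nat.not_even_iff_odd] at h2
      have h3 : ε g = (-1) ^ (d v0 (g • v0)) := rfl
      rw [h3, h2.neg_one_pow] at hg
      exact absurd hg (by decide)
    have h2 := tree_parity h _ v (g • v) v0 rfl
    have h3 := tree_parity h _ v0 (g • v0) (g • v) rfl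
    rw [hiso g v0 v, h.symm v0 (g • v), h.symm v0 v] at h3
    have h4 : Even (d (g • v) v0 + d v v0) := by
      have := (Nat.even_add.1 h3).2 h1
      exact this
    have h5 : Even (d v v0 + d (g • v) v0) := by rwa [add_comm]
    exact (Nat.even_add.1 h2).1 h5
  have hq : Finite (Γ ⧸ ε.ker) :=
    Finite.of_injective _ (QuotientGroup.kerLift_injective ε)
  have hidx : ε.ker.FiniteIndex := Subgroup.finiteIndex_of_finite_quotient
  have hfg : Group.FG ε.ker := Subgroup.fg_of_index_ne_zero _
  have hne : Nonempty V := ⟨v0⟩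
  obtain ⟨v, hv⟩ := exists_fixed h (Γ := ε.ker) (fun g u v => hiso (g : Γ) u v)
    (fun g => (Submonoid.isOfFinOrder_coe (H := ε.ker.toSubmonoid) (x := g)).1 (hfin g))
    (fun g v => hε g g.2 v)
  have hst' := hst v
  have hkfin : Finite ε.ker :=
    Finite.of_injective (fun g : ε.ker => (⟨(g : Γ), hv g⟩ : MulAction.stabilizer Γ v))
      fun a b hab => Subtype.ext (congrArg (fun z : MulAction.stabilizer Γ v => (z : Γ)) hab)
  exact Finite.of_subgroup_quotient ε.ker

/-- A group all of whose finitely generated subgroups are finite of order at most `B` is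
finite. -/
theorem finite_of_fg_subgroups {N : Type*} [Group N] (B : ℕ)
    (hf : ∀ K : Subgroup N, Group.FG K → Finite K)
    (hB : ∀ K : Subgroup N, Finite K → Nat.card K ≤ B) : Finite N := by
  classical
  by_contra hinf
  rw [not_finite_iff_infinite] at hinf
  have key : ∀ n : ℕ, ∃ K : Subgroup N, Finite K ∧ n < Nat.card K := by
    intro n
    obtain ⟨s, hs⟩ := Infinite.exists_subset_card_eq N (n + 1)
    refine ⟨Subgroup.closure (s : Set N), ?_, ?_⟩
    · exact hf _ ((Group.fg_iff_subgroup_fg _).2 ⟨s, rfl⟩)
    · have h1 : Finite (Subgroup.closure (s : Set N)) :=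
        hf _ ((Group.fg_iff_subgroup_fg _).2 ⟨s, rfl⟩)
      have h2 : Nat.card (s : Set N) ≤ Nat.card (Subgroup.closure (s : Set N)) :=
        Nat.card_le_card_of_injective (Set.inclusion Subgroup.subset_closure)
          (Set.inclusion_injective _)
      rw [Nat.card_coe_set_eq, Set.ncard_coe_finset, hs] at h2
      omega
  obtain ⟨K, hK, hK2⟩ := key B
  have := hB K hK
  omega

end Vale.Agent.P192.H626
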