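import Vale.Agent.P192.H626.Struct
import Vale.Agent.P192.H626.TreeFix

/-!
# Periodic groups with bounded finite subgroups whose elements have orders `2 ^ a` or `3 * 2 ^ a`
-/

namespace Vale.Agent.P192.H626

open Subgroup

universe u

section exp3

variable {G : Type*} [Group G] (h3 : ∀ g : G, g * g * g = 1)

include h3

theorem exp3_inv (x : G) : x⁻¹ = x * x :=
  inv_eq_of_mul_eq_one_left (h3 x)

theorem exp3_aux (x h : G) : x * h * x = h⁻¹ * x⁻¹ * h⁻¹ := by
  have h1 : (x * h * x) * (h * x * h) = 1 := by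
    rw [← h3 (x * h)]
    group
  rw [eq_inv_of_mul_eq_one_left h1]
  group

theorem exp3_aux' (x h : G) : x⁻¹ * h * x⁻¹ = h⁻¹ * x * h⁻¹ := by
  have := exp3_aux h3 x⁻¹ h
  rwa [inv_inv] at this

theorem exp3_aux4 (x h k : G) :
    x * h * x⁻¹ * k * x = (k * h⁻¹ * (k * h * k⁻¹)) * x * (k * h * k⁻¹) := by
  have h1 : x = x⁻¹ * x⁻¹ := by
    rw [exp3_inv h3 x]
    have := h3 x
    calc x = x * (x * x * x) := by rw [this, mul_one]
      _ = x * x * (x * x) := by group
  calc x * h * x⁻¹ * k * x = x * h * (x⁻¹ * k * x⁻¹) * x⁻¹ := by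
        conv_lhs => rw [show x * h * x⁻¹ * k * x = x * h * x⁻¹ * k * (x⁻¹ * x⁻¹) by rw [← h1]]
        group
    _ = x * h * (k⁻¹ * x * k⁻¹) * x⁻¹ := by rw [exp3_aux' h3]
    _ = (x * (h * k⁻¹) * x) * k⁻¹ * x⁻¹ := by group
    _ = ((h * k⁻¹)⁻¹ * x⁻¹ * (h * k⁻¹)⁻¹) * k⁻¹ * x⁻¹ := by rw [exp3_aux h3]
    _ = k * h⁻¹ * (x⁻¹ * (k * h⁻¹ * k⁻¹) * x⁻¹) := by group
    _ = k * h⁻¹ * ((k * h⁻¹ * k⁻¹)⁻¹ * x * (k * h⁻¹ * k⁻¹)⁻¹) := by rw [exp3_aux' h3]
    _ = (k * h⁻¹ * (k * h * k⁻¹)) * x * (k * h * k⁻¹) := by group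

/-- Adjoining an element to a finite subgroup of a group of exponent three. -/
theorem exp3_insert (s : Set G) (hs : ((closure s : Subgroup G) : Set G).Finite) (x : G) :
    ((closure (insert x s) : Subgroup G) : Set G).Finite := by
  set H : Subgroup G := closure s with hH
  let T : Set G := {g | (g ∈ H) ∨ (∃ a ∈ H, ∃ b ∈ H, g = a * x * b) ∨
    (∃ a ∈ H, ∃ b ∈ H, g = a * x⁻¹ * b) ∨
    (∃ a ∈ H, ∃ b ∈ H, ∃ c ∈ H, g = a * x * b * x⁻¹ * c)}
  have hx : ∀ g ∈ T, g * x ∈ T := by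
    rintro g (hg | ⟨a, ha, b, hb, rfl⟩ | ⟨a, ha, b, hb, rfl⟩ | ⟨a, ha, b, hb, c, hc, rfl⟩)
    · exact Or.inr (Or.inl ⟨g, hg, 1, one_mem _, by rw [mul_one]⟩)
    · refine Or.inr (Or.inr (Or.inl ⟨a * b⁻¹, mul_mem ha (inv_mem hb), b⁻¹, inv_mem hb, ?_⟩))
      calc a * x * b * x = a * (x * b * x) := by group
        _ = a * (b⁻¹ * x⁻¹ * b⁻¹) := by rw [exp3_aux h3]
        _ = a * b⁻¹ * x⁻¹ * b⁻¹ := by group
    · refine Or.inr (Or.inr (Or.inr ⟨a, ha, b⁻¹, inv_mem hb, b⁻¹, inv_mem hb, ?_⟩))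
      calc a * x⁻¹ * b * x = a * x * (x * b * x) := by
            rw [exp3_inv h3 x]
            group
        _ = a * x * (b⁻¹ * x⁻¹ * b⁻¹) := by rw [exp3_aux h3]
        _ = a * x * b⁻¹ * x⁻¹ * b⁻¹ := by group
    · refine Or.inr (Or.inl ⟨a * (c * b⁻¹ * (c * b * c⁻¹)), ?_, c * b * c⁻¹, ?_, ?_⟩)
      · exact mul_mem ha (mul_mem (mul_mem hc (inv_mem hb)) (mul_mem (mul_mem hc hb) (inv_mem hc)))
      · exact mul_mem (mul_mem hc hb) (inv_mem hc)
      · calc a * x * b * x⁻¹ * c * x = a * (x * b * x⁻¹ * c * x) := by group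
          _ = a * ((c * b⁻¹ * (c * b * c⁻¹)) * x * (c * b * c⁻¹)) := by rw [exp3_aux4 h3]
          _ = a * (c * b⁻¹ * (c * b * c⁻¹)) * x * (c * b * c⁻¹) := by group
  have hh : ∀ g ∈ T, ∀ h ∈ H, g * h ∈ T := by
    rintro g (hg | ⟨a, ha, b, hb, rfl⟩ | ⟨a, ha, b, hb, rfl⟩ | ⟨a, ha, b, hb, c, hc, rfl⟩) h hh
    · exact Or.inl (mul_mem hg hh)
    · exact Or.inr (Or.inl ⟨a, ha, b * h, mul_mem hb hh, by rw [mul_assoc _ b h]⟩)
    · exact Or.inr (Or.inr (Or.inl ⟨a, ha, b * h, mul_mem hb hh, by rw [mul_assoc _ b h]⟩))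
    · exact Or.inr (Or.inr (Or.inr ⟨a, ha, b, hb, c * h, mul_mem hc hh, by
        rw [mul_assoc _ c h]⟩))
  have hcl : ∀ g ∈ closure (insert x s), ∀ t ∈ T, t * g ∈ T := by
    intro g hg
    induction hg using closure_induction with
    | mem y hy =>
      rcases hy with rfl | hy
      · exact hx
      · exact fun t ht => hh t ht y (subset_closure hy)
    | one =>
      intro t ht
      rwa [mul_one]
    | mul y z _ _ h1 h2 =>
      intro t ht
      rw [← mul_assoc]
      exact h2 _ (h1 t ht)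
    | inv y _ h1 =>
      intro t ht
      rw [exp3_inv h3 y, ← mul_assoc]
      exact h1 _ (h1 t ht)
  have hT : T.Finite := by
    have f2 : ∀ z : G, {g | ∃ a ∈ H, ∃ b ∈ H, g = a * z * b}.Finite := by
      intro z
      refine ((hs.prod hs).image fun p : G × G => p.1 * z * p.2).subset ?_
      rintro g ⟨a, ha, b, hb, rfl⟩
      exact ⟨(a, b), ⟨ha, hb⟩, rfl⟩
    have f3 : {g | ∃ a ∈ H, ∃ b ∈ H, ∃ c ∈ H, g = a * x * b * x⁻¹ * c}.Finite := by
      refine ((hs.prod (hs.prod hs)).image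
        fun p : G × G × G => p.1 * x * p.2.1 * x⁻¹ * p.2.2).subset ?_
      rintro g ⟨a, ha, b, hb, c, hc, rfl⟩
      exact ⟨(a, b, c), ⟨ha, hb, hc⟩, rfl⟩
    exact (hs.union ((f2 x).union ((f2 x⁻¹).union f3)))
  refine hT.subset fun g hg => ?_
  have := hcl g hg 1 (Or.inl (one_mem _))
  rwa [one_mul] at this

/-- Finitely generated groups of exponent three are finite (Burnside). -/
theorem exp3_finite (s : Finset G) : ((closure (s : Set G) : Subgroup G) : Set G).Finite := by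
  classical
  induction s using Finset.induction_on with
  | empty =>
    rw [Finset.coe_empty, Subgroup.closure_empty]
    exact Set.finite_singleton 1
  | insert a s _ ih =>
    rw [Finset.coe_insert]
    exact exp3_insert h3 _ ih a

end exp3

/-- A periodic group whose finite subgroups have bounded order and whose elements have orders
dividing `3 * 2 ^ k` (`k` depending on the element) is finite. -/
theorem finite_of_exponent {G : Type*} [Group G] (B : ℕ)
    (hB : ∀ P : Subgroup G, Finite P → Nat.card P ≤ B)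
    (h23 : ∀ g : G, ∃ k : ℕ, g ^ (3 * 2 ^ k) = 1) : Finite G := by
  have ht : ∀ g : G, IsOfFinOrder g := by
    intro g
    obtain ⟨k, hk⟩ := h23 g
    exact isOfFinOrder_iff_pow_eq_one.2 ⟨3 * 2 ^ k, by positivity, hk⟩
  by_contra hcon
  rw [not_finite_iff_infinite] at hcon
  obtain ⟨S, -, hS, -, hN, hno⟩ := exists_two_subgroup ht B hB ⊥ inferInstance
    IsPGroup.of_bot infinite_normalizer_bot
  set N : Subgroup G := normalizer (S : Set G) with hNdef
  have hSN : S ≤ N := le_normalizer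
  have hnor : (S.subgroupOf N).Normal := normal_in_normalizer
  let π : N →* N ⧸ S.subgroupOf N := QuotientGroup.mk' _
  have hπs : Function.Surjective π := QuotientGroup.mk'_surjective _
  have hπ : ∀ y : N, π y = 1 ↔ (y : G) ∈ S := by
    intro y
    rw [← MonoidHom.mem_ker, QuotientGroup.ker_mk', mem_subgroupOf]
  have hSf : Finite (S.subgroupOf N) := Finite.of_equiv S (subgroupOfEquivOfLe hSN).symm.toEquiv
  have hsq : ∀ q : N ⧸ S.subgroupOf N, q * q = 1 → q = 1 := by
    intro q hq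
    obtain ⟨y, rfl⟩ := hπs q
    rw [← map_mul, hπ] at hq
    rw [hπ]
    exact hno y y.2 hq
  have hpow : ∀ (k : ℕ) (q : N ⧸ S.subgroupOf N), q ^ 2 ^ k = 1 → q = 1 := by
    intro k
    induction k with
    | zero =>
      intro q hq
      rwa [pow_zero, pow_one] at hq
    | succ k ih =>
      intro q hq
      refine ih q (hsq _ ?_)
      rw [← pow_add, ← two_mul, mul_comm, ← pow_succ]
      exact hq
  have hexp : ∀ q : N ⧸ S.subgroupOf N, q * q * q = 1 := by
    intro q
    obtain ⟨y, rfl⟩ := hπs q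
    obtain ⟨k, hk⟩ := h23 (y : G)
    have h1 : y ^ (3 * 2 ^ k) = 1 := Subtype.ext hk
    have h2 : (π y ^ 3) ^ 2 ^ k = 1 := by
      rw [← pow_mul, ← map_pow, h1, map_one]
    have h4 := hpow k _ h2
    rwa [pow_succ, pow_two] at h4
  have hcardS : Nat.card (S.subgroupOf N) = Nat.card S :=
    Nat.card_congr (subgroupOfEquivOfLe hSN).toEquiv
  have hfinQ : Finite (N ⧸ S.subgroupOf N) := by
    refine finite_of_fg_subgroups B (fun K hK => ?_) fun K hK => ?_
    · obtain ⟨s, hs⟩ := (Group.fg_iff_subgroup_fg _).1 hK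
      have := exp3_finite hexp s
      rw [hs] at this
      exact this.to_subtype
    · have h1 : Nat.card (K.comap π) = Nat.card (S.subgroupOf N) * Nat.card K :=
        QuotientGroup.card_preimage_mk _ (K : Set (N ⧸ S.subgroupOf N))
      have h2 : Nat.card ((K.comap π).map N.subtype) = Nat.card (K.comap π) :=
        (Nat.card_congr ((K.comap π).equivMapOfInjective _ N.subtype_injective).toEquiv).symm
      have h3 : Finite ((K.comap π).map N.subtype) := by
        refine (Nat.card_pos_iff.1 ?_).2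
        rw [h2, h1]
        exact Nat.mul_pos Nat.card_pos Nat.card_pos
      have h4 := hB _ h3
      rw [h2, h1] at h4
      exact (Nat.le_mul_of_pos_left _ Nat.card_pos).trans h4
  exact (not_finite_iff_infinite.2 hN) (Finite.of_subgroup_quotient (S.subgroupOf N))

end Vale.Agent.P192.H626
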