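import Vale.Agent.P192.H626.Main
import Vale.Agent.P192.H626.DimN

/-!
# Periodic groups acting on acyclic complexes
-/

namespace Vale.Agent.P192.H626

open Module

/-- An action of `G` on an acyclic cellular chain complex of dimension at most `n`: free abelian
groups `chain i` with bases indexed by the `i`-cells, which `G` permutes up to sign, and
equivariant homomorphisms such that
`… → chain 2 → chain 1 → chain 0 → ℤ → 0` is exact (`G` acting trivially on `ℤ`), without
`i`-cells for `i > n`. -/
structure AcyclicComplex (G : Type) [Group G] (n : ℕ) : Type 1 where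
  /-- The `i`-cells. -/
  cell : ℕ → Type
  [cellAct : ∀ i, MulAction G (cell i)]
  /-- The group of `i`-chains. -/
  chain : ℕ → Type
  [chainGrp : ∀ i, AddCommGroup (chain i)]
  [chainAct : ∀ i, DistribMulAction G (chain i)]
  /-- The cells form a basis of the group of chains. -/
  basis : ∀ i, Basis (cell i) ℤ (chain i)
  /-- The group permutes the cells up to sign. -/
  smul_basis : ∀ i (g : G) (ω : cell i),
    g • basis i ω = basis i (g • ω) ∨ g • basis i ω = -basis i (g • ω)
  /-- The boundary map. -/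
  bd : ∀ i, chain (i + 1) →+ chain i
  /-- The augmentation. -/
  aug : chain 0 →+ ℤ
  bd_smul : ∀ i (g : G) (x : chain (i + 1)), bd i (g • x) = g • bd i x
  aug_smul : ∀ (g : G) (x : chain 0), aug (g • x) = aug x
  aug_surj : Function.Surjective aug
  exact_zero : ∀ x : chain 0, aug x = 0 ↔ ∃ y : chain 1, bd 0 y = x
  exact_succ : ∀ i (x : chain (i + 1)), bd i x = 0 ↔ ∃ y : chain (i + 2), bd (i + 1) y = x
  dim_le : ∀ i, n < i → IsEmpty (cell i)

attribute [instance] AcyclicComplex.cellAct AcyclicComplex.chainGrp AcyclicComplex.chainAct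

/-- In dimension `n`: if the orders of the finite subgroups of the cell stabilisers divide `M`,
then the order of each finite subgroup divides `M ^ (n + 1)`. -/
theorem card_dvd_of_acyclic {G : Type} [Group G] {n : ℕ} (X : AcyclicComplex G n)
    (P : Subgroup G) (hP : Finite P) (M : ℕ)
    (hM : ∀ i (ω : X.cell i), Nat.card (P ⊓ MulAction.stabilizer G ω : Subgroup G) ∣ M) :
    Nat.card P ∣ M ^ (n + 1) := by
  have hF : Fintype P := Fintype.ofFinite P
  obtain ⟨v0, hv0⟩ := X.aug_surj 1
  have key := card_dvd_pow (P := P) X.basis (fun i g ω => X.smul_basis i g ω) X.bd X.aug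
    (fun i k x => X.bd_smul i k x) (fun k x => X.aug_smul k x) X.exact_zero X.exact_succ v0 hv0 n
    X.dim_le (M : ℤ) (fun i ω => by
      have h1 : Nat.card (MulAction.stabilizer P ω) ∣
          Nat.card (P ⊓ MulAction.stabilizer G ω : Subgroup G) := by
        let f : MulAction.stabilizer P ω →* (P ⊓ MulAction.stabilizer G ω : Subgroup G) :=
          { toFun := fun x => ⟨((x : P) : G), (x : P).2, x.2⟩
            map_one' := rfl
            map_mul' := fun _ _ => rfl }
        refine Subgroup.card_dvd_of_injective f fun x y hxy => ?_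
        have := congrArg Subtype.val hxy
        exact Subtype.ext (Subtype.ext this)
      exact_mod_cast h1.trans (hM i ω))
  exact_mod_cast key

/-- If `X` is an acyclic complex of finite dimension, and the finite subgroups of the periodic
subgroup `H` which fix a cell have order dividing `2 ^ k`, then `H` is finite. -/
theorem finite_of_acyclic {G : Type} [Group G] {n : ℕ} (X : AcyclicComplex G n) (k : ℕ)
    (H : Subgroup G) (hH : ∀ x ∈ H, IsOfFinOrder x)
    (hk : ∀ P : Subgroup G, Finite P → P ≤ H → ∀ i (ω : X.cell i),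
      P ≤ MulAction.stabilizer G ω → Nat.card P ∣ 2 ^ k) : Finite H := by
  have h1 : ∀ P : Subgroup G, Finite P → P ≤ H → Nat.card P ∣ 2 ^ (k * (n + 1)) := by
    intro P hP hPH
    rw [pow_mul]
    refine card_dvd_of_acyclic X P hP (2 ^ k) fun i ω => ?_
    refine hk _ ?_ (inf_le_left.trans hPH) i ω inf_le_right
    exact Finite.of_injective _ (Subgroup.inclusion_injective (inf_le_left : _ ≤ P))
  have h2 : IsPGroup 2 H := by
    intro x
    have hx : IsOfFinOrder (x : G) := hH _ x.2
    have h3 := h1 (Subgroup.zpowers (x : G)) (finite_zpowers.2 hx).to_subtype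
      ((Subgroup.zpowers_le).2 x.2)
    rw [Nat.card_zpowers] at h3
    refine ⟨k * (n + 1), Subtype.ext ?_⟩
    have := orderOf_dvd_iff_pow_eq_one.1 h3
    rw [Subgroup.coe_pow]
    exact this
  refine finite_of_two_group h2 (2 ^ (k * (n + 1))) fun P hP => ?_
  have h4 : Nat.card P = Nat.card (P.map H.subtype) :=
    Nat.card_congr (P.equivMapOfInjective _ H.subtype_injective).toEquiv
  have h5 : P.map H.subtype ≤ H := by
    rintro _ ⟨x, -, rfl⟩
    exact x.2
  have h6 : Finite (P.map H.subtype) :=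
    Finite.of_equiv P (P.equivMapOfInjective _ H.subtype_injective).toEquiv
  rw [h4]
  exact Nat.le_of_dvd (by positivity) (h1 _ h6 h5)

/-- Images of finitely presented periodic groups acting on acyclic complexes of dimension two:
the orders of the finite subgroups are controlled by the stabilisers of finitely many orbits of
cells. -/
theorem exists_cells {Γ G : Type} [Group Γ] [Group G] (X : AcyclicComplex G 2)
    (hfp : Group.IsFinitelyPresented Γ) (hper : ∀ x : Γ, IsOfFinOrder x) (f : Γ →* G) :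
    ∃ T : Finset (Σ i, X.cell i), ∀ P : Subgroup G, Finite P → P ≤ f.range → ∀ M : ℕ,
      (∀ c ∈ T, ∀ g ∈ f.range,
        Nat.card (P ⊓ MulAction.stabilizer G (g • c.2) : Subgroup G) ∣ M) →
      Nat.card P ∣ M ^ 3 := by
  classical
  obtain ⟨m, φ, hφ, S, hS, hSk⟩ := hfp.out
  let π : FreeGroup (Fin m) →* f.range := f.rangeRestrict.comp φ
  have hπ : Function.Surjective π := f.rangeRestrict_surjective.comp hφ
  have hSk1 : ∀ r ∈ S, φ r = 1 := by
    intro r hr
    have : r ∈ φ.ker := by
      rw [← hSk]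
      exact Subgroup.subset_normalClosure hr
    exact this
  have hR1 : ∀ r ∈ S, π r = 1 := by
    intro r hr
    show f.rangeRestrict (φ r) = 1
    rw [hSk1 r hr, map_one]
  have htor : ∀ w, π w = 1 → ∃ k : ℕ, 0 < k ∧ w ^ k ∈ Subgroup.normalClosure S := by
    intro w _
    obtain ⟨k, hk, hk2⟩ := isOfFinOrder_iff_pow_eq_one.1 (hper (φ w))
    refine ⟨k, hk, ?_⟩
    rw [hSk, MonoidHom.mem_ker, map_pow]
    exact hk2
  obtain ⟨v0, hv0⟩ := X.aug_surj 1
  have inj : Function.Injective (X.bd 1) := by
    rw [injective_iff_map_eq_zero]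
    intro x hx
    obtain ⟨y, rfl⟩ := (X.exact_succ 1 x).1 hx
    have hem := X.dim_le 3 (by norm_num)
    have : y = 0 := by
      rw [← (X.basis 3).repr.map_eq_zero_iff]
      ext ω
      exact hem.elim ω
    rw [this, map_zero]
  obtain ⟨T0, T1, T2, hT⟩ := dvd_two π hπ S hS hR1 htor (X.basis 0) (X.basis 1) (X.basis 2)
    (fun g ω => X.smul_basis 0 g ω) (fun g ω => X.smul_basis 1 g ω)
    (fun g ω => X.smul_basis 2 g ω) (X.bd 0) (X.bd 1) X.aug
    (fun k x => X.bd_smul 0 k x) (fun k x => X.bd_smul 1 k x) (fun k x => X.aug_smul k x)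
    (fun x => (X.exact_succ 0 _).2 ⟨x, rfl⟩) (fun x => (X.exact_zero _).2 ⟨x, rfl⟩) inj
    (fun x => (X.exact_succ 0 x).1) (fun x => (X.exact_zero x).1) v0 hv0
  refine ⟨T0.image (fun c => ⟨0, c⟩) ∪ (T1.image (fun c => ⟨1, c⟩) ∪ T2.image fun c => ⟨2, c⟩),
    fun P hP hPf M hM => ?_⟩
  have h8 : Nat.card P = Nat.card (P.subgroupOf f.range) :=
    Nat.card_congr (Subgroup.subgroupOfEquivOfLe hPf).symm.toEquiv
  have h9 : Finite (P.subgroupOf f.range) :=
    Finite.of_equiv P (Subgroup.subgroupOfEquivOfLe hPf).symm.toEquiv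
  have key : ∀ (i : ℕ) (c : X.cell i), (⟨i, c⟩ : Σ i, X.cell i) ∈
      T0.image (fun c => (⟨0, c⟩ : Σ i, X.cell i)) ∪
        (T1.image (fun c => (⟨1, c⟩ : Σ i, X.cell i)) ∪
          T2.image fun c => (⟨2, c⟩ : Σ i, X.cell i)) → ∀ g : f.range,
      Nat.card (MulAction.stabilizer (P.subgroupOf f.range) (g • c)) ∣ M := by
    intro i c hc g
    have h1 := hM ⟨i, c⟩ hc g g.2
    let F : MulAction.stabilizer (P.subgroupOf f.range) (g • c) →*
        (P ⊓ MulAction.stabilizer G ((g : G) • c) : Subgroup G) :=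
      { toFun := fun x => ⟨((x : P.subgroupOf f.range) : f.range),
          (x : P.subgroupOf f.range).2, x.2⟩
        map_one' := rfl
        map_mul' := fun _ _ => rfl }
    refine (Subgroup.card_dvd_of_injective F fun x y hxy => ?_).trans h1
    have h2 : (((x : P.subgroupOf f.range) : f.range) : G) =
        (((y : P.subgroupOf f.range) : f.range) : G) :=
      congrArg (fun z : (P ⊓ MulAction.stabilizer G ((g : G) • c) : Subgroup G) => (z : G)) hxy
    exact Subtype.ext (Subtype.ext (Subtype.ext h2))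
  rw [h8]
  refine hT _ h9 M ?_ ?_ ?_
  · rintro _ ⟨g, c, hc, rfl⟩
    exact key 0 c (Finset.mem_union_left _ (Finset.mem_image_of_mem _ hc)) g
  · rintro _ ⟨g, c, hc, rfl⟩
    exact key 1 c (Finset.mem_union_right _
      (Finset.mem_union_left _ (Finset.mem_image_of_mem _ hc))) g
  · rintro _ ⟨g, c, hc, rfl⟩
    exact key 2 c (Finset.mem_union_right _
      (Finset.mem_union_right _ (Finset.mem_image_of_mem _ hc))) g

/-- The intersections of `P` with conjugate stabilisers have the same order as subgroups of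
the stabiliser. -/
theorem conj_inf {G Ω : Type*} [Group G] [MulAction G Ω] (H P : Subgroup G) (hP : Finite P)
    (hPH : P ≤ H) (g : G) (hg : g ∈ H) (ω : Ω) :
    ∃ Q : Subgroup G, Finite Q ∧ Q ≤ H ∧ Q ≤ MulAction.stabilizer G ω ∧
      Nat.card Q = Nat.card (P ⊓ MulAction.stabilizer G (g • ω) : Subgroup G) ∧
      (∀ p : ℕ, IsPGroup p P → IsPGroup p Q) ∧
      Q = (P ⊓ MulAction.stabilizer G (g • ω) : Subgroup G).map
        (MulAut.conj g⁻¹).toMonoidHom := by
  set A : Subgroup G := P ⊓ MulAction.stabilizer G (g • ω) with hA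
  have hAfin : Finite A := Finite.of_injective _ (Subgroup.inclusion_injective
    (inf_le_left : A ≤ P))
  have hinj : Function.Injective (MulAut.conj g⁻¹).toMonoidHom := (MulAut.conj g⁻¹).injective
  let e := A.equivMapOfInjective _ hinj
  refine ⟨A.map (MulAut.conj g⁻¹).toMonoidHom, Finite.of_equiv _ e.toEquiv, ?_, ?_,
    (Nat.card_congr e.toEquiv).symm, ?_, rfl⟩
  · rintro _ ⟨x, hx, rfl⟩
    exact H.mul_mem (H.mul_mem (H.inv_mem hg) (hPH hx.1)) (H.inv_mem (H.inv_mem hg))
  · rintro _ ⟨x, hx, rfl⟩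
    have h3 : x • g • ω = g • ω := hx.2
    show (g⁻¹ * x * g⁻¹⁻¹) • ω = ω
    rw [inv_inv, mul_smul, mul_smul, h3, inv_smul_smul]
  · intro p hp
    exact (hp.to_le inf_le_left).of_equiv e

/-- If the orders of the finite subgroups of each cell stabiliser are bounded, then so are the
orders of all finite subgroups. -/
theorem bounded_of_acyclic {Γ G : Type} [Group Γ] [Group G] (X : AcyclicComplex G 2)
    (hfp : Group.IsFinitelyPresented Γ) (hper : ∀ x : Γ, IsOfFinOrder x) (f : Γ →* G)
    (hM : ∀ i (ω : X.cell i), ∃ B : ℕ, ∀ P : Subgroup G, Finite P → P ≤ f.range →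
      P ≤ MulAction.stabilizer G ω → Nat.card P ≤ B) :
    ∃ B : ℕ, ∀ P : Subgroup G, Finite P → P ≤ f.range → Nat.card P ≤ B := by
  obtain ⟨T, hT⟩ := exists_cells X hfp hper f
  choose B hB using hM
  have hpos : 0 < ∏ c ∈ T, (B c.1 c.2).factorial :=
    Finset.prod_pos fun t _ => Nat.factorial_pos _
  refine ⟨(∏ c ∈ T, (B c.1 c.2).factorial) ^ 3, fun P hP hPf =>
    Nat.le_of_dvd (pow_pos hpos 3) (hT P hP hPf _ fun c hc g hg => ?_)⟩
  obtain ⟨Q, hQ1, hQ2, hQ3, hQ4, -, -⟩ := conj_inf f.range P hP hPf g hg c.2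
  rw [← hQ4]
  exact (Nat.dvd_factorial Nat.card_pos (hB c.1 c.2 Q hQ1 hQ2 hQ3)).trans
    (Finset.dvd_prod_of_mem (fun c : Σ i, X.cell i => (B c.1 c.2).factorial) hc)

/-- Images of finitely presented periodic groups acting on acyclic complexes of dimension two:
if they meet the stabilisers of the cells in finite `2`-groups, they are finite. -/
theorem finite_of_acyclic_two {Γ G : Type} [Group Γ] [Group G] (X : AcyclicComplex G 2)
    (hfp : Group.IsFinitelyPresented Γ) (hper : ∀ x : Γ, IsOfFinOrder x) (f : Γ →* G)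
    (h2 : ∀ i (ω : X.cell i), ∃ k : ℕ,
      Nat.card (f.range ⊓ MulAction.stabilizer G ω : Subgroup G) = 2 ^ k) :
    Finite f.range := by
  have hstab : ∀ i (ω : X.cell i) (P : Subgroup G), P ≤ f.range →
      P ≤ MulAction.stabilizer G ω → Nat.card P ∣
        Nat.card (f.range ⊓ MulAction.stabilizer G ω : Subgroup G) := by
    intro i ω P h1 h2
    exact Subgroup.card_dvd_of_le (le_inf h1 h2)
  obtain ⟨B, hB⟩ := bounded_of_acyclic X hfp hper f (fun i ω =>
    ⟨Nat.card (f.range ⊓ MulAction.stabilizer G ω : Subgroup G), fun P _ h1 h3 => by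
      refine Nat.le_of_dvd ?_ (hstab i ω P h1 h3)
      obtain ⟨k, hk⟩ := h2 i ω
      rw [hk]
      positivity⟩)
  have hper' : ∀ x ∈ f.range, IsOfFinOrder x := by
    rintro _ ⟨y, rfl⟩
    exact MonoidHom.isOfFinOrder f (hper y)
  -- every element has order a power of two
  have hpow : ∀ x ∈ f.range, ∃ k : ℕ, orderOf x = 2 ^ k := by
    intro x hx
    refine ⟨_, Nat.eq_prime_pow_of_unique_prime_dvd (p := 2) (hper' x hx).orderOf_pos.ne' ?_⟩
    intro p hp hpd
    by_contra hne
    -- an element of order `p`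
    obtain ⟨c, hc⟩ := hpd
    have hc0 : c ≠ 0 := by
      rintro rfl
      exact (hper' x hx).orderOf_pos.ne' (by rw [hc, mul_zero])
    have hxc : orderOf (x ^ c) = p := by
      rw [orderOf_pow_of_dvd hc0 ⟨p, by rw [hc, mul_comm]⟩, hc]
      exact Nat.mul_div_cancel _ (Nat.pos_of_ne_zero hc0)
    have hfin : IsOfFinOrder (x ^ c) := (hper' x hx).pow
    have h3 := card_dvd_of_acyclic X (Subgroup.zpowers (x ^ c))
      (finite_zpowers.2 hfin).to_subtype 1 (fun i ω => by
        set Q : Subgroup G := Subgroup.zpowers (x ^ c) ⊓ MulAction.stabilizer G ω with hQ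
        have h4 : Nat.card Q ∣ p := by
          rw [← hxc, ← Nat.card_zpowers]
          exact Subgroup.card_dvd_of_le inf_le_left
        obtain ⟨k, hk⟩ := h2 i ω
        have h5 : Nat.card Q ∣ 2 ^ k := by
          rw [← hk]
          exact hstab i ω Q (inf_le_left.trans ((Subgroup.zpowers_le).2 (pow_mem hx c)))
            inf_le_right
        have h6 : Nat.Coprime p (2 ^ k) :=
          Nat.Coprime.pow_right k ((Nat.coprime_primes hp Nat.prime_two).2 hne)
        exact Nat.dvd_gcd h4 h5 |>.trans (by rw [h6]))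
    rw [Nat.card_zpowers, hxc, one_pow] at h3
    exact hp.one_lt.ne' (Nat.dvd_one.1 h3)
  have hG : IsPGroup 2 f.range := by
    intro x
    obtain ⟨k, hk⟩ := hpow x x.2
    refine ⟨k, Subtype.ext ?_⟩
    rw [Subgroup.coe_pow, ← hk]
    exact pow_orderOf_eq_one _
  refine finite_of_two_group hG B fun P hP => ?_
  have h4 : Nat.card P = Nat.card (P.map f.range.subtype) :=
    Nat.card_congr (P.equivMapOfInjective _ f.range.subtype_injective).toEquiv
  have h5 : P.map f.range.subtype ≤ f.range := by
    rintro _ ⟨x, -, rfl⟩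
    exact x.2
  have h6 : Finite (P.map f.range.subtype) :=
    Finite.of_equiv P (P.equivMapOfInjective _ f.range.subtype_injective).toEquiv
  rw [h4]
  exact hB _ h6 h5

end Vale.Agent.P192.H626
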