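import Mathlib

/-!
# The trace argument in dimension two
-/

namespace Vale.Agent.P192.H626

/-- The equivariant contraction attached to an endomorphism `θ` of trace `M`. -/
theorem tr_apply {P C : Type*} [Group P] [Fintype P] [AddCommGroup C] [DistribMulAction P C]
    (θ : C →+ C) (u v : P → C) (g : P) (h : ∀ k, u (g * k) = g • v k) :
    ∑ k, k • θ (k⁻¹ • u k) = g • ∑ k, k • θ (k⁻¹ • v k) := by
  rw [Finset.smul_sum, ← Equiv.sum_comp (Equiv.mulLeft g) (fun k => k • θ (k⁻¹ • u k))]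
  refine Finset.sum_congr rfl fun k _ => ?_
  simp only [Equiv.coe_mulLeft]
  rw [h, mul_inv_rev, mul_smul, mul_smul, inv_smul_smul]

/-- Let a finite group `P` act on a complex `C₂ → C₁ → C₀ → ℤ`, `C₂ → C₁` injective, and let `Dᵢ`
be invariant subgroups on which `M` is a trace. If the class of `1 : ℤ` is resolved inside the
`Dᵢ`, then the order of `P` divides `M³`. -/
theorem card_dvd_cube {P C0 C1 C2 : Type*} [Group P] [Fintype P]
    [AddCommGroup C0] [DistribMulAction P C0] [AddCommGroup C1] [DistribMulAction P C1]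
    [AddCommGroup C2] [DistribMulAction P C2]
    (d1 : C1 →+ C0) (d2 : C2 →+ C1) (ε : C0 →+ ℤ)
    (e1 : ∀ (k : P) x, d1 (k • x) = k • d1 x) (e2 : ∀ (k : P) x, d2 (k • x) = k • d2 x)
    (e0 : ∀ (k : P) x, ε (k • x) = ε x)
    (h12 : ∀ x, d1 (d2 x) = 0) (h01 : ∀ x, ε (d1 x) = 0) (inj : Function.Injective d2)
    (D0 : AddSubgroup C0) (D1 : AddSubgroup C1) (D2 : AddSubgroup C2)
    (i0 : ∀ (k : P) x, x ∈ D0 → k • x ∈ D0) (i1 : ∀ (k : P) x, x ∈ D1 → k • x ∈ D1)
    (i2 : ∀ (k : P) x, x ∈ D2 → k • x ∈ D2)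
    (dD2 : ∀ x ∈ D2, d2 x ∈ D1) (dD1 : ∀ x ∈ D1, d1 x ∈ D0)
    (M : ℤ) (θ0 : C0 →+ C0) (θ1 : C1 →+ C1) (θ2 : C2 →+ C2)
    (t0 : ∀ x ∈ D0, ∑ k : P, k • θ0 (k⁻¹ • x) = M • x)
    (t1 : ∀ x ∈ D1, ∑ k : P, k • θ1 (k⁻¹ • x) = M • x)
    (t2 : ∀ x ∈ D2, ∑ k : P, k • θ2 (k⁻¹ • x) = M • x)
    (m1 : ∀ x ∈ D1, θ1 x ∈ D1) (m2 : ∀ x ∈ D2, θ2 x ∈ D2)
    (v0 : C0) (hv0 : v0 ∈ D0) (hε : ε v0 = 1)
    (q : P → P → C1) (hq : ∀ x y, q x y ∈ D1) (qe : ∀ g x y, q (g * x) (g * y) = g • q x y)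
    (hdq : ∀ x y, d1 (q x y) = y • v0 - x • v0)
    (c : P → P → P → C2) (hc : ∀ x y z, c x y z ∈ D2)
    (hdc : ∀ x y z, d2 (c x y z) = q y z - q x z + q x y) :
    (Fintype.card P : ℤ) ∣ M ^ 3 := by
  have ce : ∀ g x y z, c (g * x) (g * y) (g * z) = g • c x y z := by
    intro g x y z
    apply inj
    rw [hdc, e2, hdc, qe, qe, qe]
    simp only [smul_add, smul_sub]
  have cc : ∀ k x y z, c x y z = c k y z - c k x z + c k x y := by
    intro k x y z
    apply inj
    rw [map_add, map_sub, hdc, hdc, hdc, hdc]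
    abel
  set b : P → P → C2 := fun x y => ∑ k, k • θ2 (k⁻¹ • c k x y) with hb
  have bD : ∀ x y, b x y ∈ D2 := fun x y =>
    D2.sum_mem fun k _ => i2 _ _ (m2 _ (i2 _ _ (hc _ _ _)))
  have be : ∀ g x y, b (g * x) (g * y) = g • b x y := by
    intro g x y
    exact tr_apply θ2 (fun k => c k (g * x) (g * y)) (fun k => c k x y) g fun k => ce g k x y
  have hbc : ∀ x y z, b y z - b x z + b x y = M • c x y z := by
    intro x y z
    rw [← t2 _ (hc x y z)]
    simp only [hb]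
    rw [← Finset.sum_sub_distrib, ← Finset.sum_add_distrib]
    refine Finset.sum_congr rfl fun k _ => ?_
    conv_rhs => rw [cc k x y z]
    simp only [smul_add, smul_sub, map_add, map_sub]
  set q' : P → P → C1 := fun x y => M • q x y - d2 (b x y) with hq'
  have qD : ∀ x y, q' x y ∈ D1 := fun x y =>
    D1.sub_mem (D1.zsmul_mem (hq x y) M) (dD2 _ (bD x y))
  have qe' : ∀ g x y, q' (g * x) (g * y) = g • q' x y := by
    intro g x y
    simp only [hq']
    rw [qe, be, e2, smul_sub, smul_comm g M]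
  have qc : ∀ k x y, q' x y = q' k y - q' k x := by
    intro k x y
    have h1 := hdc k x y
    have h2 := congrArg d2 (hbc k x y)
    rw [map_add, map_sub, map_zsmul, h1] at h2
    simp only [hq']
    have h3 : d2 (b x y) = M • (q x y - q k y + q k x) - d2 (b k x) + d2 (b k y) := by
      rw [← h2]; abel
    rw [h3, zsmul_add, zsmul_sub]
    abel
  set a : P → C1 := fun x => ∑ k, k • θ1 (k⁻¹ • q' k x) with ha
  have aD : ∀ x, a x ∈ D1 := fun x => D1.sum_mem fun k _ => i1 _ _ (m1 _ (i1 _ _ (qD _ _)))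
  have ae : ∀ g x, a (g * x) = g • a x := by
    intro g x
    exact tr_apply θ1 (fun k => q' k (g * x)) (fun k => q' k x) g fun k => qe' g k x
  have hac : ∀ x y, a y - a x = M • q' x y := by
    intro x y
    rw [← t1 _ (qD x y)]
    simp only [ha]
    rw [← Finset.sum_sub_distrib]
    refine Finset.sum_congr rfl fun k _ => ?_
    conv_rhs => rw [qc k x y]
    simp only [smul_sub, map_sub]
  set v : P → C0 := fun x => (M * M) • (x • v0) - d1 (a x) with hv
  have vc : ∀ x y, v x = v y := by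
    intro x y
    have h1 := congrArg d1 (hac x y)
    rw [map_sub, map_zsmul] at h1
    simp only [hq', map_sub, map_zsmul, h12, sub_zero, hdq] at h1
    simp only [hv]
    have h2 : d1 (a y) = M • M • (y • v0 - x • v0) + d1 (a x) := by rw [← h1]; abel
    rw [h2, mul_zsmul, mul_zsmul, zsmul_sub, zsmul_sub]
    abel
  have ve : ∀ g : P, g • v 1 = v 1 := by
    intro g
    have h1 : v (g * 1) = g • v 1 := by
      simp only [hv]
      rw [ae, e1, smul_sub, mul_smul g 1 v0, smul_comm g (M * M)]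
    rw [← h1]
    exact vc _ _
  have vD : v 1 ∈ D0 :=
    D0.sub_mem (D0.zsmul_mem (i0 _ _ hv0) _) (dD1 _ (aD 1))
  have hεv : ε (v 1) = M * M := by
    simp only [hv]
    rw [map_sub, h01, sub_zero, map_zsmul, e0, hε, smul_eq_mul, mul_one]
  have hfin := congrArg ε (t0 _ vD)
  rw [map_sum, map_zsmul, hεv] at hfin
  have h3 : ∀ k : P, ε (k • θ0 (k⁻¹ • v 1)) = ε (θ0 (v 1)) := by
    intro k
    rw [e0, ve]
  simp only [h3, Finset.sum_const, Finset.card_univ, nsmul_eq_mul, smul_eq_mul] at hfin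
  refine ⟨ε (θ0 (v 1)), ?_⟩
  rw [hfin]
  ring

end Vale.Agent.P192.H626
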