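import Mathlib

/-!
# A 2-group whose finite subgroups have bounded order is finite
-/

namespace Vale.Agent.P192.H626

open Subgroup

/-- Two involutions whose product has finite order lie in a finite subgroup. -/
theorem dihedral_finite {K : Type*} [Group K] (a b : K) (ha : a * a = 1) (hb : b * b = 1)
    (hab : IsOfFinOrder (a * b)) : ∃ L : Subgroup K, Finite L ∧ a ∈ L ∧ b ∈ L := by
  set c : K := a * b with hc
  have hai : a⁻¹ = a := inv_eq_of_mul_eq_one_right ha
  have hbi : b⁻¹ = b := inv_eq_of_mul_eq_one_right hb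
  have hac : a * c * a⁻¹ = c⁻¹ := by
    rw [hc, mul_inv_rev, hai, hbi]
    rw [← mul_assoc, ha, one_mul]
  have hacn : ∀ n : ℤ, a * c ^ n = c ^ (-n) * a := by
    intro n
    have h := congrArg (fun x => x ^ n) hac
    simp only [conj_zpow] at h
    rw [zpow_neg, ← inv_zpow, ← h]
    group
  let L : Subgroup K :=
    { carrier := {x | (∃ n : ℤ, x = c ^ n) ∨ ∃ n : ℤ, x = c ^ n * a}
      one_mem' := Or.inl ⟨0, by simp⟩
      mul_mem' := by
        rintro x y (⟨n, rfl⟩ | ⟨n, rfl⟩) (⟨m, rfl⟩ | ⟨m, rfl⟩)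
        · exact Or.inl ⟨n + m, (zpow_add c n m).symm⟩
        · exact Or.inr ⟨n + m, by rw [zpow_add, mul_assoc]⟩
        · refine Or.inr ⟨n + -m, ?_⟩
          rw [mul_assoc, hacn, zpow_add, mul_assoc]
        · refine Or.inl ⟨n + -m, ?_⟩
          rw [mul_assoc, ← mul_assoc a, hacn, mul_assoc (c ^ (-m)), ha, mul_one, zpow_add]
      inv_mem' := by
        rintro x (⟨n, rfl⟩ | ⟨n, rfl⟩)
        · exact Or.inl ⟨-n, (zpow_neg c n).symm⟩
        · refine Or.inr ⟨n, ?_⟩
          rw [mul_inv_rev, hai, ← zpow_neg, hacn, neg_neg] }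
  refine ⟨L, ?_, Or.inr ⟨0, by simp⟩, Or.inr ⟨-1, ?_⟩⟩
  · have hfin : (Subgroup.zpowers c : Set K).Finite := by
      exact finite_zpowers.2 hab
    have h2 : (L : Set K) ⊆ (Subgroup.zpowers c : Set K) ∪
        (fun x => x * a) '' (Subgroup.zpowers c : Set K) := by
      rintro x (⟨n, rfl⟩ | ⟨n, rfl⟩)
      · exact Or.inl ⟨n, rfl⟩
      · exact Or.inr ⟨c ^ n, ⟨n, rfl⟩, rfl⟩
    exact Set.Finite.subset (hfin.union (hfin.image _)) h2
  · have : a * c = b := by rw [hc, ← mul_assoc, ha, one_mul]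
    have h1 := hacn 1
    rw [zpow_one] at h1
    rw [← h1, this]

/-- Extension of a finite subgroup by two elements which are involutions modulo it. -/
theorem extend_finite {G : Type*} [Group G] (htor : ∀ g : G, IsOfFinOrder g) (D : Subgroup G)
    [Finite D] (a b : G) (ha : a ∈ normalizer (D : Set G)) (hb : b ∈ normalizer (D : Set G))
    (ha2 : a * a ∈ D) (hb2 : b * b ∈ D) :
    ∃ H : Subgroup G, Finite H ∧ D ≤ H ∧ a ∈ H ∧ b ∈ H := by
  set N : Subgroup G := normalizer (D : Set G) with hN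
  have hDN : D ≤ N := le_normalizer
  have : (D.subgroupOf N).Normal := normal_in_normalizer
  let π : N →* N ⧸ D.subgroupOf N := QuotientGroup.mk' _
  have hπ : ∀ x : N, π x = 1 ↔ (x : G) ∈ D := by
    intro x
    rw [← MonoidHom.mem_ker, QuotientGroup.ker_mk', mem_subgroupOf]
  have hq : ∀ x : N ⧸ D.subgroupOf N, IsOfFinOrder x := by
    intro x
    obtain ⟨y, rfl⟩ := QuotientGroup.mk'_surjective _ x
    have hy : IsOfFinOrder y := (Submonoid.isOfFinOrder_coe (H := N.toSubmonoid)).1 (htor (y : G))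
    exact π.isOfFinOrder hy
  obtain ⟨L, hL, haL, hbL⟩ := dihedral_finite (π ⟨a, ha⟩) (π ⟨b, hb⟩)
    (by rw [← map_mul, hπ]; exact ha2) (by rw [← map_mul, hπ]; exact hb2) (hq _)
  refine ⟨(L.comap π).map N.subtype, ?_, ?_, ?_, ?_⟩
  · have : Finite (L.comap π) := by
      let f : (L.comap π) →* L := π.subgroupComap L
      rw [MonoidHom.finite_iff_finite_ker_range f]
      refine ⟨?_, inferInstance⟩
      have : Function.Injective (fun x : f.ker => (⟨((x : L.comap π) : N), (hπ _).1 (by
          have hx := x.2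
          rw [MonoidHom.mem_ker] at hx
          exact congrArg Subtype.val hx)⟩ : D)) := by
        intro x y hxy
        have := congrArg (Subtype.val) hxy
        exact Subtype.ext (Subtype.ext (Subtype.ext this))
      exact Finite.of_injective _ this
    exact Finite.Set.finite_image _ _
  · intro x hx
    exact ⟨⟨x, hDN hx⟩, by
      show π ⟨x, hDN hx⟩ ∈ L
      rw [(hπ _).2 hx]
      exact L.one_mem, rfl⟩
  · exact ⟨⟨a, ha⟩, haL, rfl⟩
  · exact ⟨⟨b, hb⟩, hbL, rfl⟩

/-- In a finite `2`-group a proper subgroup `D` is normalised by an element outside `D` whose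
square is in `D`. -/
theorem exists_normalizer_sq {G : Type*} [Group G] (P D : Subgroup G) [Finite P]
    (h2 : IsPGroup 2 P) (hDP : D < P) :
    ∃ a, a ∈ P ∧ a ∉ D ∧ a ∈ normalizer (D : Set G) ∧ a * a ∈ D := by
  have : Fact (Nat.Prime 2) := ⟨Nat.prime_two⟩
  have hnil : Group.IsNilpotent P := h2.isNilpotent
  have hnc : NormalizerCondition P := Group.normalizerCondition_of_isNilpotent
  have hlt : D.subgroupOf P < ⊤ := by
    rw [lt_top_iff_ne_top]
    intro h
    rw [subgroupOf_eq_top] at h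
    exact absurd (le_antisymm hDP.le h) hDP.ne
  obtain ⟨x, hx, hxD⟩ := SetLike.exists_of_lt (hnc _ hlt)
  have hxD' : (x : G) ∉ D := by rwa [mem_subgroupOf] at hxD
  have hxN : (x : G) ∈ normalizer (D : Set G) := by
    intro n
    constructor
    · intro hn
      have hn' : n ∈ D := hn
      have := (hx ⟨n, hDP.le hn'⟩).1 (by simpa [mem_subgroupOf] using hn')
      simpa [mem_subgroupOf] using this
    · intro hn
      have hn' : (x : G) * n * (x : G)⁻¹ ∈ D := hn
      have hnP : n ∈ P := by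
        have h1 := hDP.le hn'
        have h3 : (x : G)⁻¹ * ((x : G) * n * (x : G)⁻¹) * x ∈ P :=
          P.mul_mem (P.mul_mem (P.inv_mem x.2) h1) x.2
        simpa [mul_assoc] using h3
      have := (hx ⟨n, hnP⟩).2 (by simpa [mem_subgroupOf] using hn')
      simpa [mem_subgroupOf] using this
  obtain ⟨k, hk⟩ := h2 x
  have hex : ∃ k, (x : G) ^ (2 ^ k) ∈ D := ⟨k, by
    have := congrArg Subtype.val hk
    simp only [SubmonoidClass.coe_pow, OneMemClass.coe_one] at this
    rw [this]
    exact D.one_mem⟩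
  classical
  have hpos : Nat.find hex ≠ 0 := by
    intro h0
    have := Nat.find_spec hex
    rw [h0] at this
    simp only [pow_zero, pow_one] at this
    exact hxD' this
  obtain ⟨m, hm⟩ := Nat.exists_eq_succ_of_ne_zero hpos
  refine ⟨(x : G) ^ (2 ^ m), P.pow_mem x.2 _, ?_, (normalizer (D : Set G)).pow_mem hxN _, ?_⟩
  · exact Nat.find_min hex (by omega)
  · have := Nat.find_spec hex
    rw [hm, Nat.succ_eq_add_one, pow_succ, mul_two, pow_add] at this
    exact this

/-- **A `2`-group whose finite subgroups have bounded order is finite.** -/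
theorem finite_of_two_group {G : Type*} [Group G] (h2 : IsPGroup 2 G) (B : ℕ)
    (hB : ∀ P : Subgroup G, Finite P → Nat.card P ≤ B) : Finite G := by
  classical
  have htor : ∀ g : G, IsOfFinOrder g := by
    intro g
    obtain ⟨k, hk⟩ := h2 g
    exact isOfFinOrder_iff_pow_eq_one.2 ⟨2 ^ k, by positivity, hk⟩
  -- maximal finite subgroups
  let Mx : Subgroup G → Prop := fun M => Finite M ∧ ∀ M' : Subgroup G, Finite M' → M ≤ M' → M' = M
  have hMx : ∀ H : Subgroup G, Finite H → ∃ M, Mx M ∧ H ≤ M := by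
    intro H hH
    have hex : ∃ n, ∃ M : Subgroup G, Finite M ∧ H ≤ M ∧ B - Nat.card M = n :=
      ⟨_, H, hH, le_rfl, rfl⟩
    obtain ⟨M, hM, hHM, hn⟩ := Nat.find_spec hex
    refine ⟨M, ⟨hM, fun M' hM' hle => ?_⟩, hHM⟩
    by_contra hne
    have hlt : M < M' := lt_of_le_of_ne hle (Ne.symm hne)
    have hc : Nat.card M < Nat.card M' := by
      have hfin : Finite M' := hM'
      have := Set.ncard_lt_ncard (s := (M : Set G)) (t := (M' : Set G)) hlt (Set.toFinite _)
      rw [← Nat.card_coe_set_eq, ← Nat.card_coe_set_eq] at this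
      exact this
    have h1 := hB M' hM'
    refine Nat.find_min hex (m := B - Nat.card M') ?_ ⟨M', hM', hHM.trans hle, rfl⟩
    omega
  obtain ⟨P, hP, -⟩ := hMx ⊥ inferInstance
  have hall : ∀ Q, Mx Q → Q = P := by
    by_contra hcon
    push Not at hcon
    have hex : ∃ n, ∃ Q R : Subgroup G, Mx Q ∧ Mx R ∧ Q ≠ R ∧
        B - Nat.card (Q ⊓ R : Subgroup G) = n := by
      obtain ⟨Q, hQ, hne⟩ := hcon
      exact ⟨_, Q, P, hQ, hP, hne, rfl⟩
    obtain ⟨Q, R, hQ, hR, hne, hn⟩ := Nat.find_spec hex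
    have hQf : Finite Q := hQ.1
    have hRf : Finite R := hR.1
    have hDf : Finite (Q ⊓ R : Subgroup G) :=
      Finite.of_injective (Subgroup.inclusion inf_le_left) (Subgroup.inclusion_injective _)
    have hDQ : Q ⊓ R < Q := by
      refine lt_of_le_of_ne inf_le_left fun h => hne ?_
      exact (hQ.2 R hRf (by rw [← h]; exact inf_le_right)).symm
    have hDR : Q ⊓ R < R := by
      refine lt_of_le_of_ne inf_le_right fun h => hne ?_
      exact hR.2 Q hQf (by rw [← h]; exact inf_le_left)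
    obtain ⟨a, haQ, haD, haN, ha2⟩ := exists_normalizer_sq Q (Q ⊓ R) (h2.to_subgroup Q) hDQ
    obtain ⟨b, hbR, hbD, hbN, hb2⟩ := exists_normalizer_sq R (Q ⊓ R) (h2.to_subgroup R) hDR
    obtain ⟨H, hH, hDH, haH, hbH⟩ := extend_finite htor (Q ⊓ R) a b haN hbN ha2 hb2
    obtain ⟨T, hT, hHT⟩ := hMx H hH
    have key : ∀ U : Subgroup G, Mx U → Q ⊓ R ≤ U → ∀ x, x ∈ U → x ∈ H → x ∉ Q ⊓ R → U = T := by
      intro U hU hDU x hxU hxH hxD
      by_contra hUT
      have hlt : Q ⊓ R < U ⊓ T := by
        refine lt_of_le_of_ne (le_inf hDU (hDH.trans hHT)) fun h => hxD ?_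
        rw [h]
        exact ⟨hxU, hHT hxH⟩
      have hfin : Finite (U ⊓ T : Subgroup G) := by
        have hUf : Finite U := hU.1
        exact Finite.of_injective (Subgroup.inclusion inf_le_left) (Subgroup.inclusion_injective _)
      have hc : Nat.card (Q ⊓ R : Subgroup G) < Nat.card (U ⊓ T : Subgroup G) := by
        have := Set.ncard_lt_ncard (s := ((Q ⊓ R : Subgroup G) : Set G))
          (t := ((U ⊓ T : Subgroup G) : Set G)) hlt (Set.toFinite _)
        rw [← Nat.card_coe_set_eq, ← Nat.card_coe_set_eq] at this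
        exact this
      have h1 := hB _ hfin
      refine Nat.find_min hex (m := B - Nat.card (U ⊓ T : Subgroup G)) ?_
        ⟨U, T, hU, hT, hUT, rfl⟩
      omega
    exact hne ((key Q hQ inf_le_left a haQ haH haD).trans
      (key R hR inf_le_right b hbR hbH hbD).symm)
  have hPf : Finite P := hP.1
  have htop : P = ⊤ := by
    rw [eq_top_iff]
    intro g _
    have hg : Finite (zpowers g) := by
      have := finite_zpowers.2 (htor g)
      exact this.to_subtype
    obtain ⟨M, hM, hgM⟩ := hMx (zpowers g) hg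
    rw [hall M hM] at hgM
    exact hgM (mem_zpowers g)
  rw [htop] at hPf
  exact Finite.of_equiv _ (Subgroup.topEquiv (G := G)).toEquiv

end Vale.Agent.P192.H626
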