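import Vale.Agent.P192.H626.Cocycle
import Vale.Agent.P192.H626.Trace
import Vale.Agent.P192.H626.TwoGroup

/-!
# Finite subgroups of quotients of finitely presented periodic groups acting on acyclic
two-complexes
-/

namespace Vale.Agent.P192.H626

open Module

/-- The union of the orbits of a finite set. -/
def orb (G : Type*) {Ω : Type*} [Group G] [MulAction G Ω] (T : Finset Ω) : Set Ω :=
  {ω | ∃ g : G, ∃ t ∈ T, g • t = ω}

theorem smul_mem_orb {G Ω : Type*} [Group G] [MulAction G Ω] (T : Finset Ω) (g : G) (ω : Ω)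
    (h : ω ∈ orb G T) : g • ω ∈ orb G T := by
  obtain ⟨k, t, ht, rfl⟩ := h
  exact ⟨g * k, t, ht, mul_smul _ _ _⟩

theorem mem_orb {G Ω : Type*} [Group G] [MulAction G Ω] (T : Finset Ω) (t : Ω) (h : t ∈ T) :
    t ∈ orb G T := ⟨1, t, h, one_smul _ _⟩

theorem mem_Sp_orb {G Ω C : Type*} [Group G] [MulAction G Ω] [AddCommGroup C]
    (b : Basis Ω ℤ C) (T : Finset Ω) (x : C) (h : (b.repr x).support ⊆ T) : x ∈ Sp b (orb G T) := by
  rw [mem_Sp]
  intro ω hω
  exact mem_orb T ω (h (Finsupp.mem_support_iff.2 hω))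

theorem map_mem_Sp {G Ω Ω' C C' : Type*} [Group G] [MulAction G Ω] [MulAction G Ω']
    [AddCommGroup C] [AddCommGroup C'] [DistribMulAction G C] [DistribMulAction G C']
    (b : Basis Ω ℤ C) (b' : Basis Ω' ℤ C') (hb : SignPerm G b) (hb' : SignPerm G b')
    (d : C →+ C') (e : ∀ (k : G) x, d (k • x) = k • d x) (T : Finset Ω) (T' : Finset Ω')
    (h : ∀ t ∈ T, (b'.repr (d (b t))).support ⊆ T') :
    ∀ x ∈ Sp b (orb G T), d x ∈ Sp b' (orb G T') := by
  refine Sp_induction b _ (p := fun x => d x ∈ Sp b' (orb G T')) ?_ ?_ ?_ ?_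
  · rintro _ ⟨g, t, ht, rfl⟩
    have h1 : d (b t) ∈ Sp b' (orb G T') := mem_Sp_orb b' T' _ (h t ht)
    have h2 : g • d (b t) ∈ Sp b' (orb G T') :=
      smul_mem_Sp b' hb' _ (fun g ω => smul_mem_orb T' g ω) g _ h1
    rcases hb g t with h3 | h3
    · rw [← h3, e]
      exact h2
    · have : b (g • t) = -(g • b t) := by rw [h3, neg_neg]
      rw [this, map_neg, e]
      exact AddSubgroup.neg_mem _ h2
  · rw [map_zero]
    exact AddSubgroup.zero_mem _
  · intro x y hx hy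
    rw [map_add]
    exact AddSubgroup.add_mem _ hx hy
  · intro n x hx
    rw [map_zsmul]
    exact AddSubgroup.zsmul_mem _ hx n

/-- **The main theorem in dimension two.** -/
theorem dvd_two {n : ℕ} {G : Type*} [Group G] (π : FreeGroup (Fin n) →* G)
    (hπ : Function.Surjective π) (R : Set (FreeGroup (Fin n))) (hRf : R.Finite)
    (hR1 : ∀ r ∈ R, π r = 1)
    (htor : ∀ w, π w = 1 → ∃ k : ℕ, 0 < k ∧ w ^ k ∈ Subgroup.normalClosure R)
    {Ω0 Ω1 Ω2 C0 C1 C2 : Type*} [MulAction G Ω0] [MulAction G Ω1] [MulAction G Ω2]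
    [AddCommGroup C0] [DistribMulAction G C0] [AddCommGroup C1] [DistribMulAction G C1]
    [AddCommGroup C2] [DistribMulAction G C2]
    (b0 : Basis Ω0 ℤ C0) (b1 : Basis Ω1 ℤ C1) (b2 : Basis Ω2 ℤ C2)
    (s0 : SignPerm G b0) (s1 : SignPerm G b1) (s2 : SignPerm G b2)
    (d1 : C1 →+ C0) (d2 : C2 →+ C1) (ε : C0 →+ ℤ)
    (e1 : ∀ (k : G) x, d1 (k • x) = k • d1 x) (e2 : ∀ (k : G) x, d2 (k • x) = k • d2 x)
    (e0 : ∀ (k : G) x, ε (k • x) = ε x)
    (h12 : ∀ x, d1 (d2 x) = 0) (h01 : ∀ x, ε (d1 x) = 0) (inj : Function.Injective d2)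
    (x1 : ∀ x, d1 x = 0 → ∃ y, d2 y = x) (x0 : ∀ x, ε x = 0 → ∃ y, d1 y = x)
    (v0 : C0) (hv0 : ε v0 = 1) :
    ∃ (T0 : Finset Ω0) (T1 : Finset Ω1) (T2 : Finset Ω2), ∀ P : Subgroup G, Finite P →
      ∀ M : ℕ, (∀ ω ∈ orb G T0, Nat.card (MulAction.stabilizer P ω) ∣ M) →
      (∀ ω ∈ orb G T1, Nat.card (MulAction.stabilizer P ω) ∣ M) →
      (∀ ω ∈ orb G T2, Nat.card (MulAction.stabilizer P ω) ∣ M) → Nat.card P ∣ M ^ 3 := by
  classical
  have hp : ∀ s : Fin n, ∃ y, d1 y = π (FreeGroup.of s) • v0 - v0 := fun s =>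
    x0 _ (by rw [map_sub, e0, sub_self])
  choose p hp using hp
  have hd := d_cr π p d1 e1 v0 hp
  have hex : ∀ w, π w = 1 → ∃ c, d2 c = cr π p w := fun w hw =>
    x1 _ (by rw [hd, hw, one_smul, sub_self])
  choose! c hc using hex
  let T2 : Finset Ω2 := hRf.toFinset.biUnion fun r => (b2.repr (c r)).support
  let T1 : Finset Ω1 := (Finset.univ.biUnion fun s => (b1.repr (p s)).support) ∪
    T2.biUnion fun t => (b1.repr (d2 (b2 t))).support
  let T0 : Finset Ω0 := (b0.repr v0).support ∪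
    T1.biUnion fun t => (b0.repr (d1 (b1 t))).support
  have hsub2 : ∀ r ∈ R, (b2.repr (c r)).support ⊆ T2 := fun r hr =>
    Finset.subset_biUnion_of_mem (fun r => (b2.repr (c r)).support) (hRf.mem_toFinset.2 hr)
  have hsub1 : ∀ s, (b1.repr (p s)).support ⊆ T1 := fun s =>
    (Finset.subset_biUnion_of_mem (fun s => (b1.repr (p s)).support) (Finset.mem_univ s)).trans
      Finset.subset_union_left
  have hsub1' : ∀ t ∈ T2, (b1.repr (d2 (b2 t))).support ⊆ T1 := fun t ht =>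
    (Finset.subset_biUnion_of_mem (fun t => (b1.repr (d2 (b2 t))).support) ht).trans
      Finset.subset_union_right
  have hsub0 : (b0.repr v0).support ⊆ T0 := Finset.subset_union_left
  have hsub0' : ∀ t ∈ T1, (b0.repr (d1 (b1 t))).support ⊆ T0 := fun t ht =>
    (Finset.subset_biUnion_of_mem (fun t => (b0.repr (d1 (b1 t))).support) ht).trans
      Finset.subset_union_right
  refine ⟨T0, T1, T2, fun P hP M f0 f1 f2 => ?_⟩
  have i0 := smul_mem_Sp (G := G) b0 s0 (orb G T0) fun g ω => smul_mem_orb T0 g ω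
  have i1 := smul_mem_Sp (G := G) b1 s1 (orb G T1) fun g ω => smul_mem_orb T1 g ω
  have i2 := smul_mem_Sp (G := G) b2 s2 (orb G T2) fun g ω => smul_mem_orb T2 g ω
  have dD2 := map_mem_Sp b2 b1 s2 s1 d2 e2 T2 T1 hsub1'
  have dD1 := map_mem_Sp b1 b0 s1 s0 d1 e1 T1 T0 hsub0'
  have hker := cr_ker π p b2 s2 d2 e2 inj (orb G T2) (fun g ω => smul_mem_orb T2 g ω) R hR1
    (fun r hr => ⟨c r, mem_Sp_orb b2 T2 _ (hsub2 r hr), hc r (hR1 r hr)⟩)
    (fun w hw => ⟨c w, hc w hw⟩) htor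
  have hcrD : ∀ w, cr π p w ∈ Sp b1 (orb G T1) := by
    intro w
    induction w using FreeGroup.induction_on with
    | C1 => rw [cr_one]; exact AddSubgroup.zero_mem _
    | of s => rw [cr_of]; exact mem_Sp_orb b1 T1 _ (hsub1 s)
    | inv_of s hs =>
      rw [cr_inv]
      exact AddSubgroup.neg_mem _ (i1 _ _ hs)
    | mul u v hu hv =>
      rw [cr_mul]
      exact AddSubgroup.add_mem _ (i1 _ _ hv) hu
  let sec : G → FreeGroup (Fin n) := Function.surjInv hπ
  have hsec : ∀ g, π (sec g) = g := Function.surjInv_eq hπ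
  have hcoc : ∀ g h : G, ∃ z ∈ Sp b2 (orb G T2),
      d2 z = g • cr π p (sec h) - cr π p (sec (g * h)) + cr π p (sec g) := by
    intro g h
    obtain ⟨z, hz, hz2⟩ := hker (sec g * sec h * (sec (g * h))⁻¹) (by
      rw [map_mul, map_mul, map_inv, hsec, hsec, hsec, mul_inv_cancel])
    refine ⟨z, hz, ?_⟩
    have h1 : cr π p (sec g * sec h) = cr π p (sec g * sec h * (sec (g * h))⁻¹ * sec (g * h)) := by
      rw [inv_mul_cancel_right]
    rw [cr_mul, cr_mul π p (sec g * sec h * (sec (g * h))⁻¹), map_mul, map_mul, map_inv, hsec,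
      hsec, hsec, mul_inv_cancel, one_smul] at h1
    rw [hz2]
    have h2 : g • cr π p (sec h) = cr π p (sec (g * h)) +
        cr π p (sec g * sec h * (sec (g * h))⁻¹) - cr π p (sec g) := by
      rw [← h1]; abel
    rw [h2]
    abel
  have hF : Fintype P := Fintype.ofFinite P
  let q : P → P → C1 := fun x y => (x : G) • cr π p (sec ((x : G)⁻¹ * (y : G)))
  have hcex : ∀ x y z : P, ∃ u ∈ Sp b2 (orb G T2), d2 u = q y z - q x z + q x y := by
    intro x y z
    obtain ⟨u, hu, hu2⟩ := hcoc ((x : G)⁻¹ * (y : G)) ((y : G)⁻¹ * (z : G))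
    refine ⟨(x : G) • u, i2 _ _ hu, ?_⟩
    rw [e2, hu2]
    have h1 : (x : G)⁻¹ * (y : G) * ((y : G)⁻¹ * (z : G)) = (x : G)⁻¹ * (z : G) := by group
    rw [h1, smul_add, smul_sub, smul_smul, mul_inv_cancel_left]
  choose cc hcc hcc2 using hcex
  have sP0 : SignPerm P b0 := fun g ω => s0 g ω
  have sP1 : SignPerm P b1 := fun g ω => s1 g ω
  have sP2 : SignPerm P b2 := fun g ω => s2 g ω
  obtain ⟨θ0, t0, -⟩ := exists_theta b0 sP0 (orb G T0) M fun ω hω => by exact_mod_cast f0 ω hω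
  obtain ⟨θ1, t1, m1⟩ := exists_theta b1 sP1 (orb G T1) M fun ω hω => by exact_mod_cast f1 ω hω
  obtain ⟨θ2, t2, m2⟩ := exists_theta b2 sP2 (orb G T2) M fun ω hω => by exact_mod_cast f2 ω hω
  have key := card_dvd_cube (P := P) d1 d2 ε (fun k x => e1 k x) (fun k x => e2 k x)
    (fun k x => e0 k x) h12 h01 inj (Sp b0 (orb G T0)) (Sp b1 (orb G T1)) (Sp b2 (orb G T2))
    (fun k x => i0 k x) (fun k x => i1 k x) (fun k x => i2 k x) dD2 dD1 M θ0 θ1 θ2 t0 t1 t2 m1 m2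
    v0 (mem_Sp_orb b0 T0 _ hsub0) hv0 q (fun x y => i1 _ _ (hcrD _))
    (fun g x y => by
      simp only [q, Subgroup.coe_mul]
      rw [mul_smul, mul_inv_rev, mul_assoc, inv_mul_cancel_left]
      rfl)
    (fun x y => by
      simp only [q]
      rw [e1, hd, hsec, smul_sub, smul_smul, mul_inv_cancel_left]
      rfl)
    cc hcc hcc2
  rw [Nat.card_eq_fintype_card]
  exact_mod_cast key

end Vale.Agent.P192.H626
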