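import Vale.Agent.P192.H626.Final
import Vale.Agent.P192.H626.TreeFix

/-!
# Reduction of an acyclic complex modulo two
-/

namespace Vale.Agent.P192.H626

open Module

/-- Reduction modulo two. -/
noncomputable def rho {Ω C : Type*} [AddCommGroup C] (b : Basis Ω ℤ C) : C →+ Ch Ω :=
  (Finsupp.mapRange.addMonoidHom (Int.castAddHom (ZMod 2))).comp
    b.repr.toLinearMap.toAddMonoidHom

section

variable {Ω C : Type*} [AddCommGroup C] (b : Basis Ω ℤ C)

theorem rho_apply (x : C) (ω : Ω) : rho b x ω = ((b.repr x ω : ℤ) : ZMod 2) := rfl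

theorem rho_basis (ω : Ω) : rho b (b ω) = Finsupp.single ω 1 := by
  ext τ
  rw [rho_apply, Basis.repr_self]
  by_cases h : ω = τ
  · subst h
    rw [Finsupp.single_eq_same, Finsupp.single_eq_same, Int.cast_one]
  · rw [Finsupp.single_eq_of_ne (Ne.symm h), Finsupp.single_eq_of_ne (Ne.symm h), Int.cast_zero]

theorem rho_surj : Function.Surjective (rho b) := by
  intro y
  refine ⟨b.repr.symm (y.mapRange (fun a => (a.val : ℤ)) (by simp)), ?_⟩
  ext ω
  rw [rho_apply, LinearEquiv.apply_symm_apply, Finsupp.mapRange_apply]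
  simp

theorem rho_ker (x : C) (h : rho b x = 0) : ∃ z, x = z + z := by
  refine ⟨b.repr.symm ((b.repr x).mapRange (fun a => a / 2) (by simp)), ?_⟩
  apply b.repr.injective
  rw [map_add, LinearEquiv.apply_symm_apply]
  ext ω
  rw [Finsupp.add_apply, Finsupp.mapRange_apply]
  have h1 : ((b.repr x ω : ℤ) : ZMod 2) = 0 := by
    rw [← rho_apply, h]
    rfl
  rw [ZMod.intCast_zmod_eq_zero_iff_dvd] at h1
  push_cast at h1
  omega

theorem rho_two (z : C) : rho b (z + z) = 0 := by
  rw [map_add, ch_add_self]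

include b in
theorem eq_zero_of_add_self (z : C) (h : z + z = 0) : z = 0 := by
  apply b.repr.injective
  ext ω
  have h1 := congrArg (fun y => b.repr y ω) h
  simp only [map_add, Finsupp.add_apply, map_zero, Finsupp.coe_zero, Pi.zero_apply] at h1
  rw [map_zero, Finsupp.coe_zero, Pi.zero_apply]
  omega

/-- The map induced on chains modulo two. -/
noncomputable def lft {M : Type*} [AddCommGroup M] [Module (ZMod 2) M] (f : C →+ M) :
    Ch Ω →+ M :=
  (Finsupp.linearCombination (ZMod 2) fun ω => f (b ω)).toAddMonoidHom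

theorem lft_single {M : Type*} [AddCommGroup M] [Module (ZMod 2) M] (f : C →+ M) (ω : Ω) :
    lft b f (Finsupp.single ω 1) = f (b ω) := by
  show Finsupp.linearCombination (ZMod 2) (fun ω => f (b ω)) (Finsupp.single ω 1) = f (b ω)
  rw [Finsupp.linearCombination_single, one_smul]

theorem lft_rho {M : Type*} [AddCommGroup M] [Module (ZMod 2) M] (f : C →+ M) (x : C) :
    lft b f (rho b x) = f x := by
  have h : ((lft b f).comp (rho b)).toIntLinearMap = f.toIntLinearMap := by
    refine b.ext fun ω => ?_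
    show lft b f (rho b (b ω)) = f (b ω)
    rw [rho_basis, lft_single]
  exact LinearMap.congr_fun h x

theorem rho_smul {G : Type*} [Group G] [MulAction G Ω] [DistribMulAction G C]
    (hb : SignPerm G b) (g : G) (x : C) :
    rho b (g • x) = Pm (MulAction.toPerm g) (rho b x) := by
  have h : ((rho b).comp (DistribSMul.toAddMonoidHom C g)).toIntLinearMap =
      ((Pm (MulAction.toPerm g)).comp (rho b)).toIntLinearMap := by
    refine b.ext fun ω => ?_
    show rho b (g • b ω) = Pm (MulAction.toPerm g) (rho b (b ω))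
    rw [rho_basis, Pm_single]
    rcases hb g ω with h | h
    · rw [h, rho_basis]
      rfl
    · rw [h, map_neg, rho_basis]
      apply ch_eq_of_add
      show -Finsupp.single (g • ω) 1 + Finsupp.single (g • ω) 1 = 0
      exact neg_add_cancel _
  exact LinearMap.congr_fun h x

end

/-- The vertices have augmentation one, each edge has two ends, and if an element fixes a cell
it fixes the faces of the cell (as for the cellular chains of a `G`-CW-complex, where an element
fixing a cell fixes it pointwise). -/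
def AcyclicComplex.Regular {G : Type} [Group G] {n : ℕ} (X : AcyclicComplex G n) : Prop :=
  (∀ v : X.cell 0, X.aug (X.basis 0 v) = 1) ∧
  (∀ e : X.cell 1, ∃ v w : X.cell 0, X.bd 0 (X.basis 1 e) = X.basis 0 w - X.basis 0 v) ∧
  ∀ (i : ℕ) (ω : X.cell (i + 1)) (τ : X.cell i) (g : G), g • ω = ω →
    (X.basis i).repr (X.bd i (X.basis (i + 1) ω)) τ ≠ 0 → g • τ = τ

section red

variable {G : Type} [Group G] {n : ℕ} (X : AcyclicComplex G n)

/-- The boundary modulo two. -/
noncomputable def AcyclicComplex.bd2 (i : ℕ) : Ch (X.cell (i + 1)) →+ Ch (X.cell i) :=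
  lft (X.basis (i + 1)) ((rho (X.basis i)).comp (X.bd i))

/-- The augmentation modulo two. -/
noncomputable def AcyclicComplex.aug2 : Ch (X.cell 0) →+ ZMod 2 :=
  lft (X.basis 0) ((Int.castAddHom (ZMod 2)).comp X.aug)

theorem AcyclicComplex.bd2_rho (i : ℕ) (x : X.chain (i + 1)) :
    X.bd2 i (rho (X.basis (i + 1)) x) = rho (X.basis i) (X.bd i x) := lft_rho _ _ _

theorem AcyclicComplex.aug2_rho (x : X.chain 0) :
    X.aug2 (rho (X.basis 0) x) = ((X.aug x : ℤ) : ZMod 2) := lft_rho _ _ _

/-- The complex modulo two. -/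
noncomputable def AcyclicComplex.cx (hX : X.Regular) (H : Subgroup G) : Cx H X.cell n where
  d := X.bd2
  ε := X.aug2
  hd := by
    intro i c
    obtain ⟨x, rfl⟩ := rho_surj (X.basis (i + 2)) c
    rw [X.bd2_rho, X.bd2_rho, (X.exact_succ i _).2 ⟨x, rfl⟩, map_zero]
  hε := by
    intro c
    obtain ⟨x, rfl⟩ := rho_surj (X.basis 1) c
    rw [X.bd2_rho, X.aug2_rho, (X.exact_zero _).2 ⟨x, rfl⟩, Int.cast_zero]
  cd := by
    intro i g c
    obtain ⟨x, rfl⟩ := rho_surj (X.basis (i + 1)) c
    have h1 := rho_smul (X.basis (i + 1)) (fun g ω => X.smul_basis (i + 1) g ω) (g : G) x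
    have h2 := rho_smul (X.basis i) (fun g ω => X.smul_basis i g ω) (g : G) (X.bd i x)
    show X.bd2 i (Pm (MulAction.toPerm (g : G)) _) = Pm (MulAction.toPerm (g : G)) _
    rw [← h1, X.bd2_rho, X.bd2_rho, X.bd_smul, h2]
  c0 := by
    intro g c
    obtain ⟨x, rfl⟩ := rho_surj (X.basis 0) c
    have h1 := rho_smul (X.basis 0) (fun g ω => X.smul_basis 0 g ω) (g : G) x
    show X.aug2 (Pm (MulAction.toPerm (g : G)) _) = _
    rw [← h1, X.aug2_rho, X.aug2_rho, X.aug_smul]
  r := by
    intro i g ω hω τ hτ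
    refine hX.2.2 i ω τ (g : G) hω fun h => hτ ?_
    show X.bd2 i _ τ = 0
    rw [AcyclicComplex.bd2, lft_single]
    show rho (X.basis i) (X.bd i (X.basis (i + 1) ω)) τ = 0
    rw [rho_apply, h, Int.cast_zero]
  emp := X.dim_le

theorem AcyclicComplex.acy : Acy X.bd2 X.aug2 fun _ => Set.univ where
  pt := by
    obtain ⟨v0, hv0⟩ := X.aug_surj 1
    exact ⟨rho (X.basis 0) v0, fun _ _ => trivial, by rw [X.aug2_rho, hv0, Int.cast_one]⟩
  ex0 := by
    intro v _ hv
    obtain ⟨x, rfl⟩ := rho_surj (X.basis 0) v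
    rw [X.aug2_rho, ZMod.intCast_zmod_eq_zero_iff_dvd] at hv
    obtain ⟨m, hm⟩ := hv
    obtain ⟨v0, hv0⟩ := X.aug_surj 1
    have h1 : X.aug (x - (m • v0 + m • v0)) = 0 := by
      rw [map_sub, map_add, map_zsmul, hv0, hm]
      simp only [smul_eq_mul, mul_one]
      push_cast
      ring
    obtain ⟨u, hu⟩ := (X.exact_zero _).1 h1
    refine ⟨rho (X.basis 1) u, fun _ _ => trivial, ?_⟩
    rw [X.bd2_rho, hu, map_sub, rho_two, sub_zero]
  ex := by
    intro i e _ he
    obtain ⟨x, rfl⟩ := rho_surj (X.basis (i + 1)) e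
    rw [X.bd2_rho] at he
    obtain ⟨z, hz⟩ := rho_ker _ _ he
    have h0 : ∃ w : X.chain (i + 1), X.bd i w = z := by
      cases i with
      | zero =>
        refine (X.exact_zero z).1 ?_
        have h2 : X.aug (z + z) = 0 := by
          rw [← hz]
          exact (X.exact_zero _).2 ⟨x, rfl⟩
        rw [map_add] at h2
        omega
      | succ i =>
        refine (X.exact_succ i z).1 ?_
        apply eq_zero_of_add_self (X.basis i)
        rw [← map_add, ← hz]
        exact (X.exact_succ i _).2 ⟨x, rfl⟩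
    obtain ⟨w, hw⟩ := h0
    have h3 : X.bd i (x - (w + w)) = 0 := by
      rw [map_sub, map_add, hz, hw, sub_self]
    obtain ⟨u, hu⟩ := (X.exact_succ i _).1 h3
    refine ⟨rho (X.basis (i + 2)) u, fun _ _ => trivial, ?_⟩
    rw [X.bd2_rho, hu, map_sub, rho_two, sub_zero]

end red

end Vale.Agent.P192.H626
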