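import Mathlib

/-!
# Smith theory for an element of order three, coefficients modulo three
-/

namespace Vale.Agent.P192.H626.S3

/-- Chains modulo three. -/
abbrev Ch (V : Type*) := V →₀ ZMod 3

/-- The support of `c` is contained in `A`. -/
def Supp {V : Type*} (A : Set V) (c : Ch V) : Prop := ∀ ω, ω ∉ A → c ω = 0

theorem Supp.add {V : Type*} {A : Set V} {b c : Ch V} (hb : Supp A b) (hc : Supp A c) :
    Supp A (b + c) := fun ω h => by rw [Finsupp.add_apply, hb ω h, hc ω h, add_zero]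

theorem Supp.sub {V : Type*} {A : Set V} {b c : Ch V} (hb : Supp A b) (hc : Supp A c) :
    Supp A (b - c) := fun ω h => by rw [Finsupp.sub_apply, hb ω h, hc ω h, sub_zero]

theorem Supp.zero {V : Type*} {A : Set V} : Supp A (0 : Ch V) := fun _ _ => rfl

theorem three_smul_eq (a : ZMod 3) : a + a + a = 0 := by
  revert a
  decide

/-- The norm. -/
noncomputable def Nm {V : Type*} (T : Ch V →+ Ch V) (c : Ch V) : Ch V := c + T c + T (T c)

/-- The difference. -/
noncomputable def Df {V : Type*} (T : Ch V →+ Ch V) (c : Ch V) : Ch V := c - T c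

section op

variable {V : Type*} (T : Ch V →+ Ch V) (t : Equiv.Perm V) (σ : V → ZMod 3) (A : Set V)
  (hT : ∀ c ω, T c ω = σ ω * c (t.symm ω))
  (hA : ∀ ω ∈ A, t ω ∈ A) (hA3 : ∀ ω ∈ A, t (t (t ω)) = ω)
  (hT3 : ∀ c, Supp A c → T (T (T c)) = c)
  (hσ : ∀ ω ∈ A, t ω = ω → σ ω = 1)

include hT hA in
theorem Supp_T {c : Ch V} (hc : Supp A c) : Supp A (T c) := by
  intro ω h
  rw [hT, hc, mul_zero]
  intro h1
  have h2 := hA _ h1
  rw [Equiv.apply_symm_apply] at h2
  exact h h2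

include hT hσ in
/-- At a fixed cell the operator is the identity. -/
theorem T_fixed {c : Ch V} {ω : V} (hω : ω ∈ A) (h : t ω = ω) : T c ω = c ω := by
  have h1 : t.symm ω = ω := by
    rw [Equiv.symm_apply_eq]
    exact h.symm
  rw [hT, hσ ω hω h, one_mul, h1]

include hT hσ in
theorem Df_fixed {c : Ch V} {ω : V} (hω : ω ∈ A) (h : t ω = ω) : Df T c ω = 0 := by
  rw [Df, Finsupp.sub_apply, T_fixed T t σ A hT hσ hω h, sub_self]

include hT hσ in
theorem Nm_fixed {c : Ch V} {ω : V} (hω : ω ∈ A) (h : t ω = ω) : Nm T c ω = 0 := by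
  rw [Nm, Finsupp.add_apply, Finsupp.add_apply, T_fixed T t σ A hT hσ hω h,
    T_fixed T t σ A hT hσ hω h, T_fixed T t σ A hT hσ hω h]
  exact three_smul_eq _

include hT hA3 hT3 in
/-- The basic decomposition. -/
theorem decomp {c : Ch V} (hc : Supp A c) :
    ∃ (R : V → Prop) (_ : DecidablePred R) (a : Ch V), Supp {ω | ω ∈ A ∧ t ω = ω} a ∧
      c = a + (c.filter R + T ((T (T c)).filter R) + T (T ((T c).filter R))) := by
  classical
  let _ : LinearOrder V := linearOrderOfSTO (WellOrderingRel : V → V → Prop)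
  let R : V → Prop := fun ω => ω < t ω ∧ ω < t (t ω)
  have hR : DecidablePred R := Classical.decPred R
  refine ⟨R, hR, c.filter fun ω => t ω = ω, ?_, ?_⟩
  · intro ω h
    rw [Finsupp.filter_apply]
    by_cases h1 : t ω = ω
    · rw [if_pos h1]
      exact hc ω fun h2 => h ⟨h2, h1⟩
    · rw [if_neg h1]
  · ext ω
    have e1 : T ((T (T c)).filter R) ω = if R (t.symm ω) then c ω else 0 := by
      rw [hT, Finsupp.filter_apply]
      split_ifs with h
      · rw [← hT, hT3 c hc]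
      · rw [mul_zero]
    have e2 : T (T ((T c).filter R)) ω = if R (t.symm (t.symm ω)) then c ω else 0 := by
      rw [hT, hT, Finsupp.filter_apply]
      split_ifs with h
      · rw [← hT, ← hT, hT3 c hc]
      · rw [mul_zero, mul_zero]
    rw [Finsupp.add_apply, Finsupp.add_apply, Finsupp.add_apply, e1, e2, Finsupp.filter_apply,
      Finsupp.filter_apply]
    by_cases hω : ω ∈ A
    · have s1 : t.symm ω = t (t ω) := by
        rw [Equiv.symm_apply_eq]
        exact (hA3 ω hω).symm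
      have s2 : t.symm (t.symm ω) = t ω := by
        rw [s1, Equiv.symm_apply_apply]
      rw [s2, s1]
      have r0 : R ω ↔ (ω < t ω ∧ ω < t (t ω)) := Iff.rfl
      have r1 : R (t (t ω)) ↔ (t (t ω) < ω ∧ t (t ω) < t ω) := by
        show (t (t ω) < t (t (t ω)) ∧ t (t ω) < t (t (t (t ω)))) ↔ _
        rw [hA3 ω hω]
      have r2 : R (t ω) ↔ (t ω < t (t ω) ∧ t ω < ω) := by
        show (t ω < t (t ω) ∧ t ω < t (t (t ω))) ↔ _
        rw [hA3 ω hω]
      by_cases hf : t ω = ω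
      · have n0 : ¬ R ω := by rw [r0, hf]; exact fun h => lt_irrefl _ h.1
        have n1 : ¬ R (t (t ω)) := by rw [r1, hf, hf]; exact fun h => lt_irrefl _ h.1
        have n2 : ¬ R (t ω) := by rw [r2, hf]; exact fun h => lt_irrefl _ h.2
        rw [if_pos hf, if_neg n0, if_neg n1, if_neg n2]
        simp
      · have d1 : t (t ω) ≠ t ω := fun h => hf (t.injective h)
        have d2 : t (t ω) ≠ ω := fun h => by
          have h1 := hA3 ω hω
          rw [h] at h1
          exact hf h1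
        rw [if_neg hf]
        rcases lt_or_gt_of_ne hf with h1 | h1
        · -- t ω < ω
          rcases lt_or_gt_of_ne d1 with h2 | h2
          · -- t t ω < t ω
            have p1 : R (t (t ω)) := r1.2 ⟨h2.trans h1, h2⟩
            have n0 : ¬ R ω := fun h => (r0.1 h).1.not_gt h1
            have n2 : ¬ R (t ω) := fun h => (r2.1 h).1.not_gt h2
            rw [if_neg n0, if_pos p1, if_neg n2]
            simp
          · have p2 : R (t ω) := r2.2 ⟨h2, h1⟩
            have n0 : ¬ R ω := fun h => (r0.1 h).1.not_gt h1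
            have n1 : ¬ R (t (t ω)) := fun h => (r1.1 h).2.not_gt h2
            rw [if_neg n0, if_neg n1, if_pos p2]
            simp
        · -- ω < t ω
          have n2 : ¬ R (t ω) := fun h => (r2.1 h).2.not_gt h1
          rcases lt_or_gt_of_ne d2 with h2 | h2
          · -- t t ω < ω
            have p1 : R (t (t ω)) := r1.2 ⟨h2, h2.trans h1⟩
            have n0 : ¬ R ω := fun h => (r0.1 h).2.not_gt h2
            rw [if_neg n0, if_pos p1, if_neg n2]
            simp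
          · have p0 : R ω := ⟨h1, h2⟩
            have n1 : ¬ R (t (t ω)) := fun h => (r1.1 h).1.not_gt h2
            rw [if_pos p0, if_neg n1, if_neg n2]
            simp
    · rw [hc ω hω]
      simp

theorem Supp_filter {c : Ch V} {B : Set V} (hc : Supp B c) (R : V → Prop) [DecidablePred R] :
    Supp B (c.filter R) := by
  intro ω h
  rw [Finsupp.filter_apply, hc ω h]
  split_ifs <;> rfl

include hT hA hA3 hT3 in
/-- An invariant chain is the sum of a chain of fixed cells and a norm. -/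
theorem inv_decomp {c : Ch V} (hc : Supp A c) (h : Df T c = 0) :
    ∃ a b : Ch V, Supp {ω | ω ∈ A ∧ t ω = ω} a ∧ Supp A b ∧ c = a + Nm T b := by
  have hc1 := Supp_T T t σ A hT hA hc
  have hc2 := Supp_T T t σ A hT hA hc1
  obtain ⟨R, hR, a, ha, hca⟩ := decomp T t σ A hT hA3 hT3 hc
  have h1 : T c = c := (sub_eq_zero.1 h).symm
  rw [h1, h1] at hca
  exact ⟨a, c.filter R, ha, Supp_filter hc R, hca⟩

include hT hA hA3 hT3 in
/-- A chain with norm zero is the sum of a chain of fixed cells and a difference. -/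
theorem ker_decomp {c : Ch V} (hc : Supp A c) (h : Nm T c = 0) :
    ∃ a b : Ch V, Supp {ω | ω ∈ A ∧ t ω = ω} a ∧ Supp A b ∧ c = a + Df T b := by
  have hc1 := Supp_T T t σ A hT hA hc
  have hc2 := Supp_T T t σ A hT hA hc1
  obtain ⟨R, hR, a, ha, hca⟩ := decomp T t σ A hT hA3 hT3 hc
  set e1 : Ch V := (T (T c)).filter R with he1
  set e2 : Ch V := (T c).filter R with he2
  have hs1 : Supp A e1 := Supp_filter hc2 R
  have hs2 : Supp A e2 := Supp_filter hc1 R
  have h0 : c.filter R = -(e1 + e2) := by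
    have h1 : (Nm T c).filter R = 0 := by
      rw [h]
      exact Finsupp.filter_zero R
    rw [Nm, Finsupp.filter_add, Finsupp.filter_add] at h1
    have h2 : c.filter R + e2 + e1 = 0 := h1
    have h3 : c.filter R + (e1 + e2) = 0 := by
      rw [← h2]
      abel
    exact eq_neg_of_add_eq_zero_left h3
  refine ⟨a, -(e1 + e2 + T e2), ha, ?_, ?_⟩
  · intro ω hω
    rw [Finsupp.neg_apply, ((hs1.add hs2).add (Supp_T T t σ A hT hA hs2)) ω hω, neg_zero]
  · rw [h0] at hca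
    rw [hca, Df, map_neg, map_add, map_add]
    have : T (T (-(e1 + e2))) = T (T (-(e1 + e2))) := rfl
    abel

end op

/-- Acyclicity of a subcomplex. -/
structure Acy {V : ℕ → Type*} (d : ∀ i, Ch (V (i + 1)) →+ Ch (V i)) (ε : Ch (V 0) →+ ZMod 3)
    (A : ∀ i, Set (V i)) : Prop where
  pt : ∃ v, Supp (A 0) v ∧ ε v = 1
  ex0 : ∀ v, Supp (A 0) v → ε v = 0 → ∃ e, Supp (A 1) e ∧ d 0 e = v
  ex : ∀ i e, Supp (A (i + 1)) e → d i e = 0 → ∃ c, Supp (A (i + 2)) c ∧ d (i + 1) c = e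

section

variable {V : ℕ → Type*} (d : ∀ i, Ch (V (i + 1)) →+ Ch (V i)) (ε : Ch (V 0) →+ ZMod 3)
  (hd : ∀ i c, d i (d (i + 1) c) = 0) (hε : ∀ e, ε (d 0 e) = 0)
  (T : ∀ i, Ch (V i) →+ Ch (V i)) (t : ∀ i, Equiv.Perm (V i)) (σ : ∀ i, V i → ZMod 3)
  (A : ∀ i, Set (V i))
  (hT : ∀ i c ω, T i c ω = σ i ω * c ((t i).symm ω))
  (cd : ∀ i e, d i (T (i + 1) e) = T i (d i e)) (c0 : ∀ v, ε (T 0 v) = ε v)
  (iA : ∀ i, ∀ ω ∈ A i, t i ω ∈ A i) (qA : ∀ i, ∀ ω ∈ A i, t i (t i (t i ω)) = ω)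
  (hT3 : ∀ i c, Supp (A i) c → T i (T i (T i c)) = c)
  (hσ : ∀ i, ∀ ω ∈ A i, t i ω = ω → σ i ω = 1)
  (sA : ∀ i e, Supp (A (i + 1)) e → Supp (A i) (d i e))
  (sB : ∀ i e, Supp {ω | ω ∈ A (i + 1) ∧ t (i + 1) ω = ω} e →
    Supp {ω | ω ∈ A i ∧ t i ω = ω} (d i e))
  (hA : Acy d ε A)

include cd in
theorem d_Nm (i : ℕ) (e : Ch (V (i + 1))) : d i (Nm (T (i + 1)) e) = Nm (T i) (d i e) := by
  rw [Nm, Nm, map_add, map_add, cd, cd, cd]

include cd in
theorem d_Df (i : ℕ) (e : Ch (V (i + 1))) : d i (Df (T (i + 1)) e) = Df (T i) (d i e) := by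
  rw [Df, Df, map_sub, cd]

theorem Nm_sub {W : Type*} (S : Ch W →+ Ch W) (x y : Ch W) : Nm S (x - y) = Nm S x - Nm S y := by
  rw [Nm, Nm, Nm, map_sub, map_sub]
  abel

theorem Df_sub {W : Type*} (S : Ch W →+ Ch W) (x y : Ch W) : Df S (x - y) = Df S x - Df S y := by
  rw [Df, Df, Df, map_sub]
  abel

theorem Nm_Df {W : Type*} (S : Ch W →+ Ch W) (x : Ch W) (h : S (S (S x)) = x) :
    Nm S (Df S x) = 0 := by
  rw [Nm, Df, map_sub, map_sub, h]
  abel

theorem Df_Nm {W : Type*} (S : Ch W →+ Ch W) (x : Ch W) (h : S (S (S x)) = x) :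
    Df S (Nm S x) = 0 := by
  rw [Nm, Df, map_add, map_add, h]
  abel

include sB in
/-- If the boundary of `a + z` vanishes on the fixed cells and so does that of `z`, then `a` is
a cycle. -/
theorem bd_fixed {i : ℕ} (a z : Ch (V (i + 1))) (x : Ch (V i))
    (ha : Supp {ω | ω ∈ A (i + 1) ∧ t (i + 1) ω = ω} a)
    (hx : x = d i (a + z)) (hx0 : ∀ ω ∈ A i, t i ω = ω → x ω = 0)
    (hz : ∀ ω ∈ A i, t i ω = ω → d i z ω = 0) : d i a = 0 := by
  ext ω
  by_cases hω : ω ∈ {ω | ω ∈ A i ∧ t i ω = ω}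
  · have h1 := hx0 ω hω.1 hω.2
    rw [hx, map_add, Finsupp.add_apply, hz ω hω.1 hω.2, add_zero] at h1
    exact h1
  · exact sB i a ha ω hω

include sB in
theorem bd_fixed' {i : ℕ} (a z : Ch (V (i + 1))) (x : Ch (V i))
    (ha : Supp {ω | ω ∈ A (i + 1) ∧ t (i + 1) ω = ω} a)
    (hx : x = d i (a + z)) (hx0 : Supp {ω | ω ∈ A i ∧ t i ω = ω} x)
    (hz : ∀ ω ∈ A i, t i ω = ω → d i z ω = 0) : d i a = x := by
  ext ω
  by_cases hω : ω ∈ {ω | ω ∈ A i ∧ t i ω = ω}
  · rw [hx, map_add, Finsupp.add_apply, hz ω hω.1 hω.2, add_zero]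
  · rw [sB i a ha ω hω, hx0 ω hω]

include hT hσ in
theorem fixed_inv {i : ℕ} (x : Ch (V i)) (hx : Supp {ω | ω ∈ A i ∧ t i ω = ω} x) :
    Df (T i) x = 0 := by
  ext ω
  by_cases hω : ω ∈ {ω | ω ∈ A i ∧ t i ω = ω}
  · exact Df_fixed (T i) (t i) (σ i) (A i) (hT i) (hσ i) hω.1 hω.2
  · rw [Df, Finsupp.sub_apply, hT, hx ω hω]
    have : (t i).symm ω ∉ {ω | ω ∈ A i ∧ t i ω = ω} := by
      intro h2
      have h3 := h2.2
      rw [Equiv.apply_symm_apply] at h3
      rw [← h3] at h2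
      exact hω h2
    rw [hx _ this]
    simp

include hd hT cd iA qA hT3 hσ sA sB hA in
/-- Chains whose difference (norm) is a cycle may be replaced by chains with vanishing difference
(norm). -/
theorem smith_step (n : ℕ) (hn : ∀ i, n < i → IsEmpty (V i)) (j : ℕ) :
    ∀ i, n ≤ i + j →
      (∀ e, Supp (A (i + 1)) e → d i (Df (T (i + 1)) e) = 0 →
        ∃ e', Supp (A (i + 1)) e' ∧ Df (T (i + 1)) e' = 0 ∧ d i e' = d i e) ∧
      (∀ e, Supp (A (i + 1)) e → d i (Nm (T (i + 1)) e) = 0 →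
        ∃ e', Supp (A (i + 1)) e' ∧ Nm (T (i + 1)) e' = 0 ∧ d i e' = d i e) := by
  induction j with
  | zero =>
    intro i hi
    have hem := hn (i + 1) (by omega)
    exact ⟨fun e he _ => ⟨e, he, by ext ω; exact hem.elim ω, rfl⟩,
      fun e he _ => ⟨e, he, by ext ω; exact hem.elim ω, rfl⟩⟩
  | succ j ih =>
    intro i hi
    obtain ⟨ihD, ihN⟩ := ih (i + 1) (by omega)
    constructor
    · intro e he hde
      have hsD : Supp (A (i + 1)) (Df (T (i + 1)) e) :=
        he.sub (Supp_T _ _ _ _ (hT _) (iA _) he)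
      obtain ⟨c0, hc0, hce0⟩ := hA.ex i _ hsD hde
      obtain ⟨c, hc, hcinv, hcc⟩ := ihN c0 hc0 (by
        rw [d_Nm d T cd, hce0, Nm_Df _ _ (hT3 _ e he)])
      rw [hce0] at hcc
      obtain ⟨a, b, ha, hb, hab⟩ := ker_decomp (T (i + 2)) (t (i + 2)) (σ (i + 2)) (A (i + 2))
        (hT _) (iA _) (qA _) (hT3 _) hc hcinv
      have ha0 : d (i + 1) a = 0 :=
        bd_fixed d t A sB a (Df (T (i + 2)) b) (Df (T (i + 1)) e) ha (by rw [← hab, hcc])
          (fun ω h1 h2 => Df_fixed _ _ _ _ (hT _) (hσ _) h1 h2)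
          (fun ω h1 h2 => by
            rw [d_Df d T cd]
            exact Df_fixed _ _ _ _ (hT _) (hσ _) h1 h2)
      refine ⟨e - d (i + 1) b, he.sub (sA _ b hb), ?_, ?_⟩
      · rw [Df_sub, ← hcc, hab, map_add, ha0, zero_add, d_Df d T cd, sub_self]
      · rw [map_sub, hd, sub_zero]
    · intro e he hde
      have hs1 := Supp_T _ _ _ _ (hT _) (iA _) he
      have hsN : Supp (A (i + 1)) (Nm (T (i + 1)) e) :=
        (he.add hs1).add (Supp_T _ _ _ _ (hT _) (iA _) hs1)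
      obtain ⟨c0, hc0, hce0⟩ := hA.ex i _ hsN hde
      obtain ⟨c, hc, hcinv, hcc⟩ := ihD c0 hc0 (by
        rw [d_Df d T cd, hce0, Df_Nm _ _ (hT3 _ e he)])
      rw [hce0] at hcc
      obtain ⟨a, b, ha, hb, hab⟩ := inv_decomp (T (i + 2)) (t (i + 2)) (σ (i + 2)) (A (i + 2))
        (hT _) (iA _) (qA _) (hT3 _) hc hcinv
      have ha0 : d (i + 1) a = 0 :=
        bd_fixed d t A sB a (Nm (T (i + 2)) b) (Nm (T (i + 1)) e) ha (by rw [← hab, hcc])
          (fun ω h1 h2 => Nm_fixed _ _ _ _ (hT _) (hσ _) h1 h2)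
          (fun ω h1 h2 => by
            rw [d_Nm d T cd]
            exact Nm_fixed _ _ _ _ (hT _) (hσ _) h1 h2)
      refine ⟨e - d (i + 1) b, he.sub (sA _ b hb), ?_, ?_⟩
      · rw [Nm_sub, ← hcc, hab, map_add, ha0, zero_add, d_Nm d T cd, sub_self]
      · rw [map_sub, hd, sub_zero]

include hd hε hT cd c0 iA qA hT3 hσ sA sB hA in
/-- **Smith theory modulo three.** -/
theorem smith (n : ℕ) (hn : ∀ i, n < i → IsEmpty (V i)) :
    Acy d ε fun i => {ω | ω ∈ A i ∧ t i ω = ω} := by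
  have hQ := fun i => smith_step d ε hd T t σ A hT cd iA qA hT3 hσ sA sB hA n hn n i (by omega)
  refine ⟨?_, ?_, ?_⟩
  · obtain ⟨v, hv, hv1⟩ := hA.pt
    have hsD : Supp (A 0) (Df (T 0) v) := hv.sub (Supp_T _ _ _ _ (hT _) (iA _) hv)
    obtain ⟨e, he, hev⟩ := hA.ex0 (Df (T 0) v) hsD (by
      rw [Df, map_sub, c0, sub_self])
    obtain ⟨e', he', hinv', hde'⟩ := (hQ 0).2 e he (by
      rw [d_Nm d T cd, hev, Nm_Df _ _ (hT3 _ v hv)])
    obtain ⟨a, b, ha, hb, hab⟩ := ker_decomp (T 1) (t 1) (σ 1) (A 1)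
      (hT _) (iA _) (qA _) (hT3 _) he' hinv'
    have hva : Df (T 0) v = d 0 (a + Df (T 1) b) := by rw [← hab, hde', hev]
    have ha0 : d 0 a = 0 := bd_fixed d t A sB a (Df (T 1) b) _ ha hva
      (fun ω h1 h2 => Df_fixed _ _ _ _ (hT _) (hσ _) h1 h2)
      (fun ω h1 h2 => by
        rw [d_Df d T cd]
        exact Df_fixed _ _ _ _ (hT _) (hσ _) h1 h2)
    obtain ⟨a', b', ha', -, hab'⟩ := inv_decomp (T 0) (t 0) (σ 0) (A 0)
      (hT _) (iA _) (qA _) (hT3 _) (c := v - d 0 b)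
      (hv.sub (sA 0 b hb)) (by
        rw [Df_sub, hva, map_add, ha0, zero_add, d_Df d T cd, sub_self])
    refine ⟨a', ha', ?_⟩
    have h1 : ε (v - d 0 b) = 1 := by rw [map_sub, hε, sub_zero, hv1]
    rw [hab', map_add, Nm, map_add, map_add, c0, c0, c0] at h1
    have h2 := three_smul_eq (ε b')
    rw [h2, add_zero] at h1
    exact h1
  · intro v hv hv0
    obtain ⟨e, he, hev⟩ := hA.ex0 v (fun ω h => hv ω fun h1 => h h1.1) hv0
    obtain ⟨e', he', hinv', hde'⟩ := (hQ 0).1 e he (by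
      rw [d_Df d T cd, hev, fixed_inv T t σ A hT hσ v hv])
    obtain ⟨a, b, ha, hb, hab⟩ := inv_decomp (T 1) (t 1) (σ 1) (A 1)
      (hT _) (iA _) (qA _) (hT3 _) he' hinv'
    exact ⟨a, ha, bd_fixed' d t A sB a (Nm (T 1) b) v ha (by rw [← hab, hde', hev]) hv
      (fun ω h1 h2 => by
        rw [d_Nm d T cd]
        exact Nm_fixed _ _ _ _ (hT _) (hσ _) h1 h2)⟩
  · intro i e he hde
    obtain ⟨c, hc, hce⟩ := hA.ex i e (fun ω h => he ω fun h1 => h h1.1) hde
    obtain ⟨c', hc', hinv', hdc'⟩ := (hQ (i + 1)).1 c hc (by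
      rw [d_Df d T cd, hce, fixed_inv T t σ A hT hσ e he])
    obtain ⟨a, b, ha, hb, hab⟩ := inv_decomp (T (i + 2)) (t (i + 2)) (σ (i + 2)) (A (i + 2))
      (hT _) (iA _) (qA _) (hT3 _) hc' hinv'
    exact ⟨a, ha, bd_fixed' d t A sB a (Nm (T (i + 2)) b) e ha (by rw [← hab, hdc', hce]) he
      (fun ω h1 h2 => by
        rw [d_Nm d T cd]
        exact Nm_fixed _ _ _ _ (hT _) (hσ _) h1 h2)⟩

end

end Vale.Agent.P192.H626.S3
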