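import Vale.Agent.P192.H626.Red
import Vale.Agent.P192.H626.Smith3

/-!
# Reduction of an acyclic complex modulo three
-/

namespace Vale.Agent.P192.H626.S3

open Module

/-- Reduction modulo three. -/
noncomputable def rho {Ω C : Type*} [AddCommGroup C] (b : Basis Ω ℤ C) : C →+ Ch Ω :=
  (Finsupp.mapRange.addMonoidHom (Int.castAddHom (ZMod 3))).comp
    b.repr.toLinearMap.toAddMonoidHom

section

variable {Ω C : Type*} [AddCommGroup C] (b : Basis Ω ℤ C)

theorem rho_apply (x : C) (ω : Ω) : rho b x ω = ((b.repr x ω : ℤ) : ZMod 3) := rfl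

theorem rho_basis (ω : Ω) : rho b (b ω) = Finsupp.single ω 1 := by
  ext τ
  rw [rho_apply, Basis.repr_self]
  by_cases h : ω = τ
  · subst h
    rw [Finsupp.single_eq_same, Finsupp.single_eq_same, Int.cast_one]
  · rw [Finsupp.single_eq_of_ne (Ne.symm h), Finsupp.single_eq_of_ne (Ne.symm h), Int.cast_zero]

theorem rho_surj : Function.Surjective (rho b) := by
  intro y
  refine ⟨b.repr.symm (y.mapRange (fun a => (a.val : ℤ)) (by simp)), ?_⟩
  ext ω
  rw [rho_apply, LinearEquiv.apply_symm_apply, Finsupp.mapRange_apply]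
  simp

theorem rho_ker (x : C) (h : rho b x = 0) : ∃ z, x = z + z + z := by
  refine ⟨b.repr.symm ((b.repr x).mapRange (fun a => a / 3) (by simp)), ?_⟩
  apply b.repr.injective
  rw [map_add, map_add, LinearEquiv.apply_symm_apply]
  ext ω
  rw [Finsupp.add_apply, Finsupp.add_apply, Finsupp.mapRange_apply]
  have h1 : ((b.repr x ω : ℤ) : ZMod 3) = 0 := by
    rw [← rho_apply, h]
    rfl
  rw [ZMod.intCast_zmod_eq_zero_iff_dvd] at h1
  push_cast at h1
  omega

theorem rho_three (z : C) : rho b (z + z + z) = 0 := by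
  rw [map_add, map_add]
  ext ω
  exact three_smul_eq _

include b in
theorem eq_zero_of_three (z : C) (h : z + z + z = 0) : z = 0 := by
  apply b.repr.injective
  ext ω
  have h1 := congrArg (fun y => b.repr y ω) h
  simp only [map_add, Finsupp.add_apply, map_zero, Finsupp.coe_zero, Pi.zero_apply] at h1
  rw [map_zero, Finsupp.coe_zero, Pi.zero_apply]
  omega

/-- The map induced on chains modulo three. -/
noncomputable def lft {M : Type*} [AddCommGroup M] [Module (ZMod 3) M] (f : C →+ M) :
    Ch Ω →+ M :=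
  (Finsupp.linearCombination (ZMod 3) fun ω => f (b ω)).toAddMonoidHom

theorem lft_single {M : Type*} [AddCommGroup M] [Module (ZMod 3) M] (f : C →+ M) (ω : Ω) :
    lft b f (Finsupp.single ω 1) = f (b ω) := by
  show Finsupp.linearCombination (ZMod 3) (fun ω => f (b ω)) (Finsupp.single ω 1) = f (b ω)
  rw [Finsupp.linearCombination_single, one_smul]

theorem lft_rho {M : Type*} [AddCommGroup M] [Module (ZMod 3) M] (f : C →+ M) (x : C) :
    lft b f (rho b x) = f x := by
  have h : ((lft b f).comp (rho b)).toIntLinearMap = f.toIntLinearMap := by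
    refine b.ext fun ω => ?_
    show lft b f (rho b (b ω)) = f (b ω)
    rw [rho_basis, lft_single]
  exact LinearMap.congr_fun h x

theorem lft_apply_eq_zero {W : Type*} (f : C →+ Ch W) (c : Ch Ω) (τ : W)
    (h : ∀ ω, c ω ≠ 0 → f (b ω) τ = 0) : lft b f c τ = 0 := by
  show (Finsupp.linearCombination (ZMod 3) (fun ω => f (b ω)) c) τ = 0
  rw [Finsupp.linearCombination_apply, Finsupp.sum, Finsupp.finsetSum_apply]
  refine Finset.sum_eq_zero fun ω hω => ?_
  rw [Finsupp.smul_apply, h ω (Finsupp.mem_support_iff.1 hω), smul_zero]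

section op

variable {G : Type*} [Group G] [MulAction G Ω] [DistribMulAction G C] (hb : SignPerm G b)

/-- The operator induced by a group element. -/
noncomputable def opT (g : G) : Ch Ω →+ Ch Ω :=
  lft b ((rho b).comp (DistribSMul.toAddMonoidHom C g))

omit [MulAction G Ω] in
theorem opT_rho (g : G) (x : C) : opT b g (rho b x) = rho b (g • x) := lft_rho _ _ _

/-- The signs. -/
noncomputable def sgn (g : G) (ω : Ω) : ZMod 3 := ((b.repr (g • b (g⁻¹ • ω)) ω : ℤ) : ZMod 3)

include hb in
theorem opT_apply (g : G) (c : Ch Ω) (ω : Ω) : opT b g c ω =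
    sgn b g ω * c ((MulAction.toPerm g : Equiv.Perm Ω).symm ω) := by
  obtain ⟨x, rfl⟩ := rho_surj b c
  rw [opT_rho]
  let f1 : C →+ ZMod 3 :=
    { toFun := fun x => rho b (g • x) ω
      map_zero' := by rw [smul_zero, map_zero]; rfl
      map_add' := fun x y => by rw [smul_add, map_add]; rfl }
  let f2 : C →+ ZMod 3 :=
    { toFun := fun x => sgn b g ω * rho b x ((MulAction.toPerm g : Equiv.Perm Ω).symm ω)
      map_zero' := by rw [map_zero, Finsupp.zero_apply, mul_zero]
      map_add' := fun x y => by rw [map_add, Finsupp.add_apply, mul_add] }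
  have h : f1.toIntLinearMap = f2.toIntLinearMap := by
    refine b.ext fun τ => ?_
    show rho b (g • b τ) ω = sgn b g ω * rho b (b τ) (g⁻¹ • ω)
    rw [rho_basis]
    by_cases hτ : τ = g⁻¹ • ω
    · subst hτ
      rw [Finsupp.single_eq_same, mul_one]
      rfl
    · rw [Finsupp.single_eq_of_ne (Ne.symm hτ), mul_zero]
      have hne : g • τ ≠ ω := fun h => hτ (by rw [← h, inv_smul_smul])
      rcases hb g τ with h1 | h1
      · rw [h1, rho_basis, Finsupp.single_eq_of_ne (Ne.symm hne)]
      · rw [h1, map_neg, rho_basis, Finsupp.neg_apply, Finsupp.single_eq_of_ne (Ne.symm hne),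
          neg_zero]
  exact LinearMap.congr_fun h x

include hb in
theorem sgn_fixed (g : G) (m : ℕ) (hg : g ^ 3 ^ m = 1) (ω : Ω) (h : g • ω = ω) :
    sgn b g ω = 1 := by
  have h1 : g⁻¹ • ω = ω := by
    conv_lhs => rw [← h]
    rw [inv_smul_smul]
  rw [sgn, h1]
  have h2 : g • b ω = b ω := by
    rcases hb g ω with h2 | h2
    · rw [h2, h]
    · exfalso
      rw [h] at h2
      have h3 : ∀ k : ℕ, g ^ k • b ω = ((-1 : ℤ) ^ k) • b ω := by
        intro k
        induction k with
        | zero => rw [pow_zero, pow_zero, one_smul, one_smul]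
        | succ k ih =>
          have h7 : g • ((-1 : ℤ) ^ k • b ω) = (-1 : ℤ) ^ k • g • b ω :=
            map_zsmul (DistribSMul.toAddMonoidHom C g) _ _
          rw [pow_succ', mul_smul, ih, h7, h2, pow_succ, mul_smul, neg_smul, one_smul]
      have h4 := h3 (3 ^ m)
      have h5 : Odd (3 ^ m) := Odd.pow (by decide)
      rw [hg, one_smul, h5.neg_one_pow, neg_smul, one_smul] at h4
      have h6 := congrArg (fun y => b.repr y ω) h4
      simp only [map_neg, Basis.repr_self, Finsupp.neg_apply, Finsupp.single_eq_same] at h6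
      norm_num at h6
  rw [h2, Basis.repr_self, Finsupp.single_eq_same, Int.cast_one]

end op

end

section red

variable {G : Type} [Group G] {n : ℕ} (X : AcyclicComplex G n)

/-- The boundary modulo three. -/
noncomputable def bd3 (i : ℕ) : Ch (X.cell (i + 1)) →+ Ch (X.cell i) :=
  lft (X.basis (i + 1)) ((rho (X.basis i)).comp (X.bd i))

/-- The augmentation modulo three. -/
noncomputable def aug3 : Ch (X.cell 0) →+ ZMod 3 :=
  lft (X.basis 0) ((Int.castAddHom (ZMod 3)).comp X.aug)

theorem bd3_rho (i : ℕ) (x : X.chain (i + 1)) :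
    bd3 X i (rho (X.basis (i + 1)) x) = rho (X.basis i) (X.bd i x) := lft_rho _ _ _

theorem aug3_rho (x : X.chain 0) :
    aug3 X (rho (X.basis 0) x) = ((X.aug x : ℤ) : ZMod 3) := lft_rho _ _ _

theorem acy_univ : Acy (bd3 X) (aug3 X) fun _ => Set.univ where
  pt := by
    obtain ⟨v0, hv0⟩ := X.aug_surj 1
    exact ⟨rho (X.basis 0) v0, fun _ h => absurd trivial h, by rw [aug3_rho, hv0, Int.cast_one]⟩
  ex0 := by
    intro v _ hv
    obtain ⟨x, rfl⟩ := rho_surj (X.basis 0) v
    rw [aug3_rho, ZMod.intCast_zmod_eq_zero_iff_dvd] at hv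
    obtain ⟨m, hm⟩ := hv
    obtain ⟨v0, hv0⟩ := X.aug_surj 1
    have h1 : X.aug (x - (m • v0 + m • v0 + m • v0)) = 0 := by
      rw [map_sub, map_add, map_add, map_zsmul, hv0, hm]
      simp only [smul_eq_mul, mul_one]
      push_cast
      ring
    obtain ⟨u, hu⟩ := (X.exact_zero _).1 h1
    refine ⟨rho (X.basis 1) u, fun _ h => absurd trivial h, ?_⟩
    rw [bd3_rho, hu, map_sub, rho_three, sub_zero]
  ex := by
    intro i e _ he
    obtain ⟨x, rfl⟩ := rho_surj (X.basis (i + 1)) e
    rw [bd3_rho] at he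
    obtain ⟨z, hz⟩ := rho_ker _ _ he
    have h0 : ∃ w : X.chain (i + 1), X.bd i w = z := by
      cases i with
      | zero =>
        refine (X.exact_zero z).1 ?_
        have h2 : X.aug (z + z + z) = 0 := by
          rw [← hz]
          exact (X.exact_zero _).2 ⟨x, rfl⟩
        rw [map_add, map_add] at h2
        omega
      | succ i =>
        refine (X.exact_succ i z).1 ?_
        apply eq_zero_of_three (X.basis i)
        rw [← map_add, ← map_add, ← hz]
        exact (X.exact_succ i _).2 ⟨x, rfl⟩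
    obtain ⟨w, hw⟩ := h0
    have h3 : X.bd i (x - (w + w + w)) = 0 := by
      rw [map_sub, map_add, map_add, hz, hw, sub_self]
    obtain ⟨u, hu⟩ := (X.exact_succ i _).1 h3
    refine ⟨rho (X.basis (i + 2)) u, fun _ h => absurd trivial h, ?_⟩
    rw [bd3_rho, hu, map_sub, rho_three, sub_zero]

theorem supp_bd (hX : X.Regular) (g : G) (i : ℕ) (e : Ch (X.cell (i + 1)))
    (he : Supp {ω | g • ω = ω} e) : Supp {ω | g • ω = ω} (bd3 X i e) := by
  intro τ hτ
  refine lft_apply_eq_zero _ _ _ _ fun ω hω => ?_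
  have h1 : g • ω = ω := by
    by_contra h
    exact hω (he ω h)
  have h2 : (X.basis i).repr (X.bd i (X.basis (i + 1) ω)) τ = 0 := by
    by_contra h
    exact hτ (hX.2.2 i ω τ g h1 h)
  show rho (X.basis i) (X.bd i (X.basis (i + 1) ω)) τ = 0
  rw [rho_apply, h2, Int.cast_zero]

/-- The cells fixed by an element of `3`-power order form an acyclic complex modulo three. -/
theorem acy_fixed (hX : X.Regular) (m : ℕ) : ∀ x : G, x ^ 3 ^ m = 1 →
    Acy (bd3 X) (aug3 X) fun i => {ω : X.cell i | x • ω = ω} := by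
  induction m with
  | zero =>
    intro x hx
    rw [pow_zero, pow_one] at hx
    have h0 : (fun i => {ω : X.cell i | x • ω = ω}) = fun i => (Set.univ : Set (X.cell i)) := by
      funext i
      refine Set.eq_univ_of_forall fun ω => ?_
      show x • ω = ω
      rw [hx, one_smul]
    rw [h0]
    exact acy_univ X
  | succ m ih =>
    intro x hx
    have hy : (x ^ 3) ^ 3 ^ m = 1 := by
      rw [← pow_mul, ← pow_succ']
      exact hx
    have hA := ih (x ^ 3) hy
    have hx3 : ∀ {Ω : Type} [MulAction G Ω] (ω : Ω), x • x • x • ω = x ^ 3 • ω := by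
      intro Ω _ ω
      rw [← mul_smul, ← mul_smul, pow_succ, pow_two]
    have e1 : (fun i => {ω : X.cell i | x • ω = ω}) = fun i =>
        {ω : X.cell i | ω ∈ {ω : X.cell i | x ^ 3 • ω = ω} ∧
          (MulAction.toPerm x : Equiv.Perm (X.cell i)) ω = ω} := by
      funext i
      ext ω
      constructor
      · intro h
        have h' : x • ω = ω := h
        refine ⟨?_, h⟩
        show x ^ 3 • ω = ω
        rw [← hx3, h', h', h']
      · exact fun h => h.2
    rw [e1]
    refine smith (bd3 X) (aug3 X) ?_ ?_ (fun i => opT (X.basis i) x)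
      (fun i => (MulAction.toPerm x : Equiv.Perm (X.cell i))) (fun i => sgn (X.basis i) x)
      (fun i => {ω : X.cell i | x ^ 3 • ω = ω}) ?_ ?_ ?_ ?_ ?_ ?_ ?_ ?_ ?_ hA n X.dim_le
    · intro i c
      obtain ⟨z, rfl⟩ := rho_surj (X.basis (i + 2)) c
      rw [bd3_rho, bd3_rho, (X.exact_succ i _).2 ⟨z, rfl⟩, map_zero]
    · intro c
      obtain ⟨z, rfl⟩ := rho_surj (X.basis 1) c
      rw [bd3_rho, aug3_rho, (X.exact_zero _).2 ⟨z, rfl⟩, Int.cast_zero]
    · intro i c ω
      exact opT_apply (X.basis i) (fun g ω => X.smul_basis i g ω) x c ω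
    · intro i c
      obtain ⟨z, rfl⟩ := rho_surj (X.basis (i + 1)) c
      rw [opT_rho, bd3_rho, bd3_rho, opT_rho, X.bd_smul]
    · intro c
      obtain ⟨z, rfl⟩ := rho_surj (X.basis 0) c
      rw [opT_rho, aug3_rho, aug3_rho, X.aug_smul]
    · intro i ω hω
      have h1 : x ^ 3 • ω = ω := hω
      show x ^ 3 • x • ω = x • ω
      rw [← mul_smul, ← pow_succ, pow_succ', mul_smul, h1]
    · intro i ω hω
      show x • x • x • ω = ω
      rw [hx3]
      exact hω
    · intro i c hc
      have h1 : opT (X.basis i) x (opT (X.basis i) x (opT (X.basis i) x c)) =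
          opT (X.basis i) (x ^ 3) c := by
        obtain ⟨z, rfl⟩ := rho_surj (X.basis i) c
        rw [opT_rho, opT_rho, opT_rho, opT_rho, ← mul_smul, ← mul_smul, pow_succ, pow_two]
      rw [h1]
      ext ω
      rw [opT_apply (X.basis i) (fun g ω => X.smul_basis i g ω)]
      by_cases hω : x ^ 3 • ω = ω
      · rw [sgn_fixed (X.basis i) (fun g ω => X.smul_basis i g ω) (x ^ 3) m hy ω hω, one_mul]
        have h2 : (MulAction.toPerm (x ^ 3) : Equiv.Perm (X.cell i)).symm ω = ω := by
          rw [Equiv.symm_apply_eq]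
          exact hω.symm
        rw [h2]
      · rw [hc ω hω]
        have h2 : (MulAction.toPerm (x ^ 3) : Equiv.Perm (X.cell i)).symm ω ∉
            {ω : X.cell i | x ^ 3 • ω = ω} := by
          intro h3
          have h4 : (MulAction.toPerm (x ^ 3) : Equiv.Perm (X.cell i))
              ((MulAction.toPerm (x ^ 3) : Equiv.Perm (X.cell i)).symm ω) =
              (MulAction.toPerm (x ^ 3) : Equiv.Perm (X.cell i)).symm ω := h3
          rw [Equiv.apply_symm_apply] at h4
          have h5 : (MulAction.toPerm (x ^ 3) : Equiv.Perm (X.cell i)) ω = ω := by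
            conv_lhs => rw [h4]
            rw [Equiv.apply_symm_apply]
          exact hω h5
        rw [hc _ h2, mul_zero]
    · intro i ω _ hω
      exact sgn_fixed (X.basis i) (fun g ω => X.smul_basis i g ω) x (m + 1) hx ω hω
    · exact fun i e he => supp_bd X hX (x ^ 3) i e he
    · intro i e he ω hω
      by_cases h1 : x ^ 3 • ω = ω
      · have h2 : ¬ x • ω = ω := fun h2 => hω ⟨h1, h2⟩
        exact supp_bd X hX x i e (fun τ hτ => he τ fun h => hτ h.2) ω h2
      · exact supp_bd X hX (x ^ 3) i e (fun τ hτ => he τ fun h => hτ h.1) ω h1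

/-- An element of `3`-power order fixes a vertex. -/
theorem exists_fixed (hX : X.Regular) (m : ℕ) (x : G) (hx : x ^ 3 ^ m = 1) :
    ∃ v : X.cell 0, x • v = v := by
  obtain ⟨v, hv, hv1⟩ := (acy_fixed X hX m x hx).pt
  by_contra hcon
  push Not at hcon
  have hv0 : v = 0 := by
    ext ω
    exact hv ω (hcon ω)
  rw [hv0, map_zero] at hv1
  exact zero_ne_one hv1

end red

end Vale.Agent.P192.H626.S3
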