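import Vale.Agent.P192.H626.Final

/-!
# Elements of prime order, and the residually finite case
-/

namespace Vale.Agent.P192.H626

open Module

/-- The elements of prime order fix cells in finitely many orbits. -/
theorem exists_cells_prime {Γ G : Type} [Group Γ] [Group G] (X : AcyclicComplex G 2)
    (hfp : Group.IsFinitelyPresented Γ) (hper : ∀ x : Γ, IsOfFinOrder x) (f : Γ →* G) :
    ∃ T : Finset (Σ i, X.cell i), ∀ x ∈ f.range, (orderOf x).Prime →
      ∃ c ∈ T, ∃ g ∈ f.range, x • g • c.2 = g • c.2 := by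
  obtain ⟨T, hT⟩ := exists_cells X hfp hper f
  refine ⟨T, fun x hx hp => ?_⟩
  by_contra hcon
  push Not at hcon
  have hfin : Finite (Subgroup.zpowers x) :=
    (finite_zpowers.2 (orderOf_pos_iff.1 hp.pos)).to_subtype
  have h1 := hT (Subgroup.zpowers x) hfin ((Subgroup.zpowers_le).2 hx) 1 (fun c hc g hg => by
    set A : Subgroup G := Subgroup.zpowers x ⊓ MulAction.stabilizer G (g • c.2) with hA
    have h2 : Nat.card A ∣ orderOf x := by
      rw [← Nat.card_zpowers]
      exact Subgroup.card_dvd_of_le inf_le_left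
    rcases (Nat.dvd_prime hp).1 h2 with h3 | h3
    · rw [h3]
    · exfalso
      have h4 : Nat.card (Subgroup.zpowers x) ≤ Nat.card A := by
        rw [Nat.card_zpowers, h3]
      have h5 : A = Subgroup.zpowers x := Subgroup.eq_of_le_of_card_ge inf_le_left h4
      have h6 : x ∈ A := by
        rw [h5]
        exact Subgroup.mem_zpowers x
      exact hcon c hc g hg h6.2)
  rw [Nat.card_zpowers, one_pow] at h1
  exact hp.one_lt.ne' (Nat.dvd_one.1 h1)

/-- If the cell stabilisers are finite, then there is a finite set of nontrivial elements which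
meets all nontrivial normal subgroups. -/
theorem exists_finite_set {Γ G : Type} [Group Γ] [Group G] (X : AcyclicComplex G 2)
    (hfp : Group.IsFinitelyPresented Γ) (hper : ∀ x : Γ, IsOfFinOrder x) (f : Γ →* G)
    (hst : ∀ i (ω : X.cell i), Finite (f.range ⊓ MulAction.stabilizer G ω : Subgroup G)) :
    ∃ E : Finset f.range, 1 ∉ E ∧ ∀ N : Subgroup f.range, N.Normal → N ≠ ⊥ → ∃ x ∈ E, x ∈ N := by
  classical
  obtain ⟨T, hT⟩ := exists_cells_prime X hfp hper f
  let F : Set f.range := ⋃ c ∈ T, {y : f.range | (y : G) ∈ MulAction.stabilizer G c.2}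
  have hF : F.Finite := by
    refine Set.Finite.biUnion T.finite_toSet fun c _ => ?_
    have h1 := hst c.1 c.2
    have h2 : Finite {y : f.range | (y : G) ∈ MulAction.stabilizer G c.2} := by
      refine Finite.of_injective (fun y : {y : f.range | (y : G) ∈ MulAction.stabilizer G c.2} =>
        (⟨((y : f.range) : G), (y : f.range).2, y.2⟩ :
          (f.range ⊓ MulAction.stabilizer G c.2 : Subgroup G))) ?_
      intro a b hab
      have h3 : ((a : f.range) : G) = ((b : f.range) : G) := congrArg (fun z :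
        (f.range ⊓ MulAction.stabilizer G c.2 : Subgroup G) => (z : G)) hab
      exact Subtype.ext (Subtype.ext h3)
    exact Set.toFinite _
  refine ⟨hF.toFinset.erase 1, Finset.notMem_erase 1 _, fun K hKn hK => ?_⟩
  obtain ⟨x, hx, hx1⟩ : ∃ x ∈ K, x ≠ 1 := by
    by_contra hcon
    push Not at hcon
    exact hK ((Subgroup.eq_bot_iff_forall K).2 hcon)
  have hxo : IsOfFinOrder x := by
    obtain ⟨_, y, rfl⟩ := x
    exact (Submonoid.isOfFinOrder_coe (H := f.range.toSubmonoid) (x := ⟨f y, y, rfl⟩)).1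
      (MonoidHom.isOfFinOrder f (hper y))
  have hne : orderOf x ≠ 1 := fun h => hx1 (orderOf_eq_one_iff.1 h)
  obtain ⟨p, hp, hpd⟩ := Nat.exists_prime_and_dvd hne
  obtain ⟨c, hc⟩ := hpd
  have hc0 : c ≠ 0 := by
    rintro rfl
    exact hxo.orderOf_pos.ne' (by rw [hc, mul_zero])
  have hord : orderOf (x ^ c) = p := by
    rw [orderOf_pow_of_dvd hc0 ⟨p, by rw [hc, mul_comm]⟩, hc]
    exact Nat.mul_div_cancel _ (Nat.pos_of_ne_zero hc0)
  have hord' : orderOf ((x ^ c : f.range) : G) = p := by
    rw [Subgroup.orderOf_coe, hord]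
  obtain ⟨c', hc', g, hg, hfix⟩ := hT _ (x ^ c : f.range).2 (by rw [hord']; exact hp)
  let g' : f.range := ⟨g, hg⟩
  let z : f.range := g'⁻¹ * x ^ c * g'
  have hzK : z ∈ K := by
    have := hKn.conj_mem (x ^ c) (K.pow_mem hx c) g'⁻¹
    rwa [inv_inv] at this
  have hzF : z ∈ F := by
    refine Set.mem_biUnion hc' ?_
    show ((z : f.range) : G) • c'.2 = c'.2
    have h4 : ((z : f.range) : G) = g⁻¹ * ((x ^ c : f.range) : G) * g := rfl
    rw [h4, mul_smul, mul_smul, hfix, inv_smul_smul]
  refine ⟨z, ?_, hzK⟩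
  rw [Finset.mem_erase, hF.mem_toFinset]
  refine ⟨fun hz1 => ?_, hzF⟩
  have h5 : x ^ c = 1 := by
    have h6 : x ^ c = g' * z * g'⁻¹ := by
      show x ^ c = g' * (g'⁻¹ * x ^ c * g') * g'⁻¹
      group
    rw [h6, hz1]
    group
  rw [h5, orderOf_one] at hord
  exact hp.one_lt.ne hord

/-- **The residually finite case.** -/
theorem finite_of_residuallyFinite {Γ G : Type} [Group Γ] [Group G] (X : AcyclicComplex G 2)
    (hfp : Group.IsFinitelyPresented Γ) (hper : ∀ x : Γ, IsOfFinOrder x) (f : Γ →* G)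
    (hst : ∀ i (ω : X.cell i), Finite (f.range ⊓ MulAction.stabilizer G ω : Subgroup G))
    (hrf : Group.ResiduallyFinite f.range) : Finite f.range := by
  classical
  obtain ⟨E, hE1, hE⟩ := exists_finite_set X hfp hper f hst
  have hN : ∀ y : f.range, ∃ N : Subgroup f.range, N.Normal ∧ N.FiniteIndex ∧ (y ∈ N → y = 1) := by
    intro y
    by_cases hy : y = 1
    · exact ⟨⊤, inferInstance, inferInstance, fun _ => hy⟩
    · obtain ⟨N, hN⟩ := Group.exists_finiteIndexNormalSubgroup_notMem y hy
      exact ⟨N.toSubgroup, inferInstance, inferInstance, fun h => absurd h hN⟩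
  choose N hN1 hN2 hN3 using hN
  let K : Subgroup f.range := ⨅ y : E, N y
  have hKn : K.Normal := Subgroup.normal_iInf_normal fun y => hN1 y
  have hKf : K.FiniteIndex := Subgroup.finiteIndex_iInf fun y => hN2 y
  have hKbot : K = ⊥ := by
    by_contra hK
    obtain ⟨x, hxE, hxK⟩ := hE K hKn hK
    have h1 : x = 1 := hN3 x ((Subgroup.mem_iInf.1 hxK) ⟨x, hxE⟩)
    rw [h1] at hxE
    exact hE1 hxE
  rw [hKbot] at hKf
  have h7 : Finite (f.range ⧸ (⊥ : Subgroup f.range)) := Subgroup.finite_quotient_of_finiteIndex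
  exact Finite.of_subgroup_quotient (⊥ : Subgroup f.range)

end Vale.Agent.P192.H626
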