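import Mathlib

/-!
# Periodic groups with bounded finite subgroups and an involution with finite centraliser
-/

namespace Vale.Agent.P192.H626

open Subgroup

universe u

/-- A finitely generated periodic group whose centre has finite index is finite. -/
theorem finite_of_center {N : Type*} [Group N] [Group.FG N] (ht : ∀ g : N, IsOfFinOrder g)
    (h : (center N).FiniteIndex) : Finite N := by
  have h1 : Group.FG (center N) := Subgroup.fg_of_index_ne_zero _
  let _ : CommGroup (center N) :=
    { (inferInstance : Group (center N)) with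
      mul_comm := fun a b => Subtype.ext ((mem_center_iff.1 b.2 (a : N))) }
  have h2 : Finite (center N) := CommGroup.finite_of_fg_isMulTorsion _ fun g => by
    exact (Submonoid.isOfFinOrder_coe (H := (center N).toSubmonoid) (x := g)).1 (ht g)
  have h3 : Finite (N ⧸ center N) := Subgroup.finite_quotient_of_finiteIndex
  exact Finite.of_subgroup_quotient (center N)

/-- An element of a periodic group whose centraliser has finite index lies in a finite normal
subgroup. -/
theorem exists_finite_normal {G : Type*} [Group G] (ht : ∀ g : G, IsOfFinOrder g) (y : G)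
    (hy : (centralizer {y} : Subgroup G).FiniteIndex) :
    ∃ N : Subgroup G, N.Normal ∧ Finite N ∧ y ∈ N := by
  set N : Subgroup G := normalClosure {y} with hN
  have hfin : (Group.conjugatesOfSet {y}).Finite := by
    have h1 : Finite (G ⧸ (centralizer {y} : Subgroup G)) :=
      Subgroup.finite_quotient_of_finiteIndex
    let F : G ⧸ (centralizer {y} : Subgroup G) → G :=
      Quotient.lift (fun g => g * y * g⁻¹) fun a b hab => by
        have h2 : a⁻¹ * b ∈ (centralizer {y} : Subgroup G) := QuotientGroup.leftRel_apply.1 hab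
        rw [mem_centralizer_singleton_iff] at h2
        show a * y * a⁻¹ = b * y * b⁻¹
        have h3 : b = a * (a⁻¹ * b) := by group
        rw [h3]
        have h4 : a * (a⁻¹ * b) * y * (a * (a⁻¹ * b))⁻¹ =
            a * ((a⁻¹ * b) * y) * (a⁻¹ * b)⁻¹ * a⁻¹ := by group
        rw [h4, h2]
        group
    refine (Set.finite_range F).subset ?_
    intro z hz
    rw [Group.mem_conjugatesOfSet_iff] at hz
    obtain ⟨a, ha, haz⟩ := hz
    rw [Set.mem_singleton_iff] at ha
    subst ha
    obtain ⟨g, hg⟩ := isConj_iff.1 haz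
    exact ⟨(g : G ⧸ (centralizer {a} : Subgroup G)), hg⟩
  have hNfg : Group.FG N := by
    rw [Group.fg_iff_subgroup_fg]
    exact ⟨hfin.toFinset, by rw [hfin.coe_toFinset]; rfl⟩
  refine ⟨N, normalClosure_normal, ?_, subset_normalClosure rfl⟩
  have hNt : ∀ g : N, IsOfFinOrder g := fun g =>
    (Submonoid.isOfFinOrder_coe (H := N.toSubmonoid) (x := g)).1 (ht g)
  refine finite_of_center hNt ?_
  let K : Subgroup G := (centralizer {y} : Subgroup G).normalCore
  have hK : K.FiniteIndex := inferInstance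
  have hKN : ∀ k ∈ K, N ≤ centralizer {k} := by
    intro k hk
    have hkc : ∀ g : G, g * k * g⁻¹ ∈ (centralizer {y} : Subgroup G) := fun g =>
      normalCore_le _ ((normalCore_normal _).conj_mem k hk g)
    rw [hN, normalClosure, closure_le]
    intro z hz
    rw [Group.mem_conjugatesOfSet_iff] at hz
    obtain ⟨a, ha, haz⟩ := hz
    rw [Set.mem_singleton_iff] at ha
    subst ha
    obtain ⟨g, rfl⟩ := isConj_iff.1 haz
    rw [SetLike.mem_coe, mem_centralizer_singleton_iff]
    have h5 := hkc g⁻¹
    rw [mem_centralizer_singleton_iff, inv_inv] at h5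
    calc g * a * g⁻¹ * k = g * (a * (g⁻¹ * k * g)) * g⁻¹ := by group
      _ = g * (g⁻¹ * k * g * a) * g⁻¹ := by rw [h5]
      _ = k * (g * a * g⁻¹) := by group
  have h6 : (K.subgroupOf N) ≤ center N := by
    intro k hk
    rw [mem_subgroupOf] at hk
    rw [mem_center_iff]
    intro z
    have h7 := hKN k hk z.2
    rw [mem_centralizer_singleton_iff] at h7
    exact Subtype.ext h7
  exact finiteIndex_of_le h6

/-- B. H. Neumann's lemma for conjugators. -/
theorem exists_centralizer_finiteIndex {G : Type*} [Group G] (Y : Finset (G × G))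
    (h : ∀ x : G, ∃ p ∈ Y, x * p.1 * x⁻¹ = p.2) :
    ∃ p ∈ Y, (centralizer {p.1} : Subgroup G).FiniteIndex := by
  classical
  have hc : ∀ p : G × G, ∃ x0 : G, (∃ x : G, x * p.1 * x⁻¹ = p.2) → x0 * p.1 * x0⁻¹ = p.2 := by
    intro p
    by_cases hp : ∃ x : G, x * p.1 * x⁻¹ = p.2
    · obtain ⟨x, hx⟩ := hp
      exact ⟨x, fun _ => hx⟩
    · exact ⟨1, fun h => absurd h hp⟩
  choose x0 hx0 using hc
  refine exists_finiteIndex_of_leftCoset_cover (s := Y)
    (H := fun p => (centralizer {p.1} : Subgroup G)) (g := x0) ?_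
  refine Set.eq_univ_of_forall fun x => ?_
  obtain ⟨p, hp, hxp⟩ := h x
  rw [Set.mem_iUnion₂]
  refine ⟨p, hp, ?_⟩
  rw [mem_leftCoset_iff, SetLike.mem_coe, mem_centralizer_singleton_iff]
  have h1 := hx0 p ⟨x, hxp⟩
  have h2 : x * p.1 * x⁻¹ = x0 p * p.1 * (x0 p)⁻¹ := by rw [hxp, h1]
  calc (x0 p)⁻¹ * x * p.1 = (x0 p)⁻¹ * (x * p.1 * x⁻¹) * x := by group
    _ = (x0 p)⁻¹ * (x0 p * p.1 * (x0 p)⁻¹) * x := by rw [h2]
    _ = p.1 * ((x0 p)⁻¹ * x) := by group

theorem conj_step {G : Type*} [Group G] (ht : ∀ g : G, IsOfFinOrder g) (t : G) (h2 : t * t = 1)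
    (x : G) : (∃ s, t * s * t = s⁻¹ ∧ Commute t (x * s⁻¹)) ∨
      ∃ z, z ≠ 1 ∧ Commute t z ∧ Commute t (x * z * x⁻¹) := by
  have hti : t⁻¹ = t := inv_eq_of_mul_eq_one_right h2
  set i : G := x⁻¹ * t * x with hi
  have hii : i * i = 1 := by
    calc i * i = x⁻¹ * (t * t) * x := by rw [hi]; group
      _ = 1 := by rw [h2]; group
  have hi' : i⁻¹ = i := inv_eq_of_mul_eq_one_right hii
  set c : G := t * i with hc
  have htc : t * c * t⁻¹ = c⁻¹ := by
    rw [hc, mul_inv_rev, hi', hti, ← mul_assoc t t i, h2, one_mul]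
  have hic : i = t * c := by rw [hc, ← mul_assoc, h2, one_mul]
  have htcn : ∀ n : ℕ, t * c ^ n * t⁻¹ = (c ^ n)⁻¹ := by
    intro n
    rw [← conj_pow, htc, inv_pow]
  have hpos : 0 < orderOf c := (ht c).orderOf_pos
  rcases Nat.even_or_odd' (orderOf c) with ⟨m, hm | hm⟩
  · right
    have hm0 : 0 < m := by omega
    have hz1 : c ^ m ≠ 1 := pow_ne_one_of_lt_orderOf hm0.ne' (by omega)
    have hz2 : (c ^ m)⁻¹ = c ^ m := by
      apply inv_eq_of_mul_eq_one_right
      rw [← pow_add, ← two_mul, ← hm, pow_orderOf_eq_one]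
    have hz3 : Commute t (c ^ m) := by
      have h3 := htcn m
      rw [hz2] at h3
      exact mul_inv_eq_iff_eq_mul.1 h3
    refine ⟨c ^ m, hz1, hz3, ?_⟩
    have hz4 : Commute i (c ^ m) := by
      rw [hic]
      exact hz3.mul_left ((Commute.refl c).pow_right m)
    have h5 : t = x * i * x⁻¹ := by rw [hi]; group
    show t * (x * c ^ m * x⁻¹) = x * c ^ m * x⁻¹ * t
    rw [h5]
    calc x * i * x⁻¹ * (x * c ^ m * x⁻¹) = x * (i * c ^ m) * x⁻¹ := by group
      _ = x * (c ^ m * i) * x⁻¹ := by rw [hz4.eq]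
      _ = x * c ^ m * x⁻¹ * (x * i * x⁻¹) := by group
  · left
    set s : G := c ^ (m + 1) with hs
    have hss : s * s = c := by
      rw [hs, ← pow_add]
      have : m + 1 + (m + 1) = orderOf c + 1 := by omega
      rw [this, pow_succ, pow_orderOf_eq_one, one_mul]
    have hts : t * s * t = s⁻¹ := by
      have := htcn (m + 1)
      rw [hti] at this
      exact this
    refine ⟨s, hts, ?_⟩
    have hts' : t * s⁻¹ * t = s := by
      rw [← hts]
      calc t * (t * s * t) * t = (t * t) * s * (t * t) := by group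
        _ = s := by rw [h2]; group
    have h6 : s⁻¹ * t * s = x⁻¹ * t * x := by
      rw [← hi, hic]
      calc s⁻¹ * t * s = (t * t) * s⁻¹ * t * s := by rw [h2, one_mul]
        _ = t * (t * s⁻¹ * t) * s := by group
        _ = t * (s * s) := by rw [hts', mul_assoc]
        _ = t * c := by rw [hss]
    show t * (x * s⁻¹) = x * s⁻¹ * t
    calc t * (x * s⁻¹) = x * (x⁻¹ * t * x) * s⁻¹ := by group
      _ = x * (s⁻¹ * t * s) * s⁻¹ := by rw [h6]
      _ = x * s⁻¹ * t := by group

/-- In an infinite periodic group with an involution with finite centraliser some nontrivial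
element has a centraliser of finite index. -/
theorem exists_fc {G : Type*} [Group G] [Infinite G] (ht : ∀ g : G, IsOfFinOrder g) (t : G)
    (h2 : t * t = 1) (hC : Finite (centralizer {t} : Subgroup G)) :
    ∃ y : G, y ≠ 1 ∧ (centralizer {y} : Subgroup G).FiniteIndex := by
  classical
  set C : Subgroup G := centralizer {t} with hCdef
  have hFC : Fintype C := Fintype.ofFinite C
  set k : ℕ := Fintype.card C with hk
  let g : Fin (k + 1) → G := fun a => Infinite.natEmbedding G a
  have hg : Function.Injective g := fun a b hab =>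
    Fin.ext ((Infinite.natEmbedding G).injective hab)
  let Y1 : Finset (G × G) := Finset.univ.image fun q : Fin (k + 1) × C × C =>
    (g q.1 * (q.2.1 : G) * (g q.1)⁻¹, (q.2.2 : G))
  let Y2 : Finset (G × G) := Finset.univ.image fun q : Fin (k + 1) × Fin (k + 1) × C =>
    (g q.1 * (g q.2.1)⁻¹, (q.2.2 : G) * (t * ((g q.1)⁻¹ * g q.2.1) * t) * (q.2.2 : G)⁻¹)
  let Y : Finset (G × G) := (Y1 ∪ Y2).filter fun p => p.1 ≠ 1
  have hcom : ∀ z : G, Commute t z ↔ z ∈ C := by
    intro z
    rw [hCdef, mem_centralizer_singleton_iff]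
    exact ⟨fun h => h.symm, fun h => Eq.symm h⟩
  obtain ⟨p, hp, hpf⟩ := exists_centralizer_finiteIndex Y (by
    intro x
    by_cases H : ∃ a : Fin (k + 1), ∃ z, z ≠ 1 ∧ Commute t z ∧
        Commute t ((x * g a) * z * (x * g a)⁻¹)
    · obtain ⟨a, z, hz1, hz2, hz3⟩ := H
      refine ⟨(g a * z * (g a)⁻¹, (x * g a) * z * (x * g a)⁻¹), ?_, ?_⟩
      · rw [Finset.mem_filter, Finset.mem_union]
        refine ⟨Or.inl (Finset.mem_image.2 ⟨(a, ⟨z, (hcom z).1 hz2⟩, ⟨_, (hcom _).1 hz3⟩),
          Finset.mem_univ _, rfl⟩), ?_⟩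
        intro h
        apply hz1
        have h' : g a * z * (g a)⁻¹ = 1 := h
        exact conj_eq_one_iff.1 h'
      · show x * (g a * z * (g a)⁻¹) * x⁻¹ = (x * g a) * z * (x * g a)⁻¹
        group
    · have hs : ∀ a : Fin (k + 1), ∃ s, t * s * t = s⁻¹ ∧ Commute t (x * g a * s⁻¹) := by
        intro a
        rcases conj_step ht t h2 (x * g a) with h | h
        · exact h
        · exact absurd ⟨a, h⟩ H
      choose s hs1 hs2 using hs
      let cc : Fin (k + 1) → C := fun a => ⟨x * g a * (s a)⁻¹, (hcom _).1 (hs2 a)⟩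
      obtain ⟨a, b, hab, hcab⟩ := Fintype.exists_ne_map_eq_of_card_lt cc (by
        rw [Fintype.card_fin]
        exact Nat.lt_succ_self _)
      have hcab' : x * g a * (s a)⁻¹ = x * g b * (s b)⁻¹ := congrArg Subtype.val hcab
      refine ⟨(g a * (g b)⁻¹, (cc a : G) * (t * ((g a)⁻¹ * g b) * t) * (cc a : G)⁻¹), ?_, ?_⟩
      · rw [Finset.mem_filter, Finset.mem_union]
        refine ⟨Or.inr (Finset.mem_image.2 ⟨(a, b, cc a), Finset.mem_univ _, rfl⟩), ?_⟩
        intro h
        have h' : g a * (g b)⁻¹ = 1 := h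
        exact hab (hg (mul_inv_eq_one.1 h'))
      · show x * (g a * (g b)⁻¹) * x⁻¹ = (cc a : G) * (t * ((g a)⁻¹ * g b) * t) * (cc a : G)⁻¹
        set c : G := x * g a * (s a)⁻¹ with hc
        have hca : x * g a = c * s a := by rw [hc]; group
        have hcb : x * g b = c * s b := by rw [hcab']; group
        have hgab : (g a)⁻¹ * g b = (s a)⁻¹ * s b := by
          calc (g a)⁻¹ * g b = (x * g a)⁻¹ * (x * g b) := by group
            _ = (c * s a)⁻¹ * (c * s b) := by rw [hca, hcb]
            _ = (s a)⁻¹ * s b := by group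
        have hta : t * (s a)⁻¹ * t = s a := by
          rw [← hs1 a]
          calc t * (t * s a * t) * t = (t * t) * s a * (t * t) := by group
            _ = s a := by rw [h2]; group
        have htab : t * ((s a)⁻¹ * s b) * t = s a * (s b)⁻¹ := by
          calc t * ((s a)⁻¹ * s b) * t = (t * (s a)⁻¹ * t) * (t⁻¹ * t⁻¹) * (t * s b * t) := by
                group
            _ = s a * (t * t)⁻¹ * (s b)⁻¹ := by rw [hta, hs1 b, mul_inv_rev]
            _ = s a * (s b)⁻¹ := by rw [h2]; group
        have hcc : (cc a : G) = c := rfl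
        rw [hcc, hgab, htab]
        calc x * (g a * (g b)⁻¹) * x⁻¹ = (x * g a) * (x * g b)⁻¹ := by group
          _ = (c * s a) * (c * s b)⁻¹ := by rw [hca, hcb]
          _ = c * (s a * (s b)⁻¹) * c⁻¹ := by group)
  exact ⟨p.1, (Finset.mem_filter.1 hp).2, hpf⟩

/-- A periodic group whose finite subgroups have bounded order and which contains an element `t`
with `t ^ 2 = 1` and finite centraliser is finite. -/
theorem finite_of_centralizer : ∀ (B : ℕ) (G : Type u) [Group G], (∀ g : G, IsOfFinOrder g) →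
    (∀ P : Subgroup G, Finite P → Nat.card P ≤ B) → ∀ t : G, t * t = 1 →
    Finite (centralizer {t} : Subgroup G) → Finite G := by
  intro B
  induction B using Nat.strong_induction_on with
  | _ B ih =>
  intro G _ ht hB t h2 hC
  by_contra hinf
  rw [not_finite_iff_infinite] at hinf
  obtain ⟨y, hy1, hyf⟩ := exists_fc ht t h2 hC
  obtain ⟨N, hN, hNfin, hyN⟩ := exists_finite_normal ht y hyf
  have hNcard : 2 ≤ Nat.card N := by
    have : Nontrivial N := ⟨⟨⟨y, hyN⟩, 1, fun h => hy1 (congrArg Subtype.val h)⟩⟩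
    exact Finite.one_lt_card
  have hB1 : Nat.card N ≤ B := hB N hNfin
  have hfinq : Finite (G ⧸ N) := by
    refine ih (B / 2) (Nat.div_lt_self (by omega) (by norm_num)) (G ⧸ N) ?_ ?_ (t : G ⧸ N) ?_ ?_
    · intro q
      obtain ⟨g, rfl⟩ := QuotientGroup.mk_surjective q
      exact MonoidHom.isOfFinOrder (QuotientGroup.mk' N) (ht g)
    · intro Q hQ
      have h3 : Nat.card (Q.comap (QuotientGroup.mk' N)) = Nat.card N * Nat.card Q :=
        QuotientGroup.card_preimage_mk N (Q : Set (G ⧸ N))
      have h4 : Finite (Q.comap (QuotientGroup.mk' N)) := by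
        refine (Nat.card_pos_iff.1 ?_).2
        rw [h3]
        exact Nat.mul_pos Nat.card_pos Nat.card_pos
      have h5 := hB _ h4
      rw [h3] at h5
      rw [Nat.le_div_iff_mul_le (by norm_num)]
      calc Nat.card Q * 2 ≤ Nat.card Q * Nat.card N := Nat.mul_le_mul_left _ hNcard
        _ = Nat.card N * Nat.card Q := mul_comm _ _
        _ ≤ B := h5
    · rw [← QuotientGroup.mk_mul, h2, QuotientGroup.mk_one]
    · -- the centraliser in the quotient is finite
      let D : Set G := {g | g⁻¹ * t * g * t⁻¹ ∈ N}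
      have hD : D.Finite := by
        have h6 : D ⊆ ⋃ n ∈ (N : Set G), {g | g⁻¹ * t * g * t⁻¹ = n} := by
          intro g hg
          exact Set.mem_biUnion (x := g⁻¹ * t * g * t⁻¹) hg rfl
        refine Set.Finite.subset (Set.Finite.biUnion (Set.toFinite _) fun n _ => ?_) h6
        rcases Set.eq_empty_or_nonempty {g | g⁻¹ * t * g * t⁻¹ = n} with h7 | ⟨g0, hg0⟩
        · rw [h7]
          exact Set.finite_empty
        · have h8 : {g | g⁻¹ * t * g * t⁻¹ = n} ⊆
              (fun c => c * g0) '' ((centralizer {t} : Subgroup G) : Set G) := by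
            intro g hg
            refine ⟨g * g0⁻¹, ?_, by group⟩
            rw [SetLike.mem_coe, mem_centralizer_singleton_iff]
            have h9 : g⁻¹ * t * g = g0⁻¹ * t * g0 := by
              have h10 : g⁻¹ * t * g * t⁻¹ = g0⁻¹ * t * g0 * t⁻¹ := by
                rw [Set.mem_ofPred_eq] at hg hg0
                rw [hg, hg0]
              exact mul_right_cancel h10
            calc g * g0⁻¹ * t = g * (g0⁻¹ * t * g0) * g0⁻¹ := by group
              _ = g * (g⁻¹ * t * g) * g0⁻¹ := by rw [h9]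
              _ = t * (g * g0⁻¹) := by group
          exact ((Set.toFinite _).image _).subset h8
      have h11 : ((centralizer {(t : G ⧸ N)} : Subgroup (G ⧸ N)) : Set (G ⧸ N)) ⊆
          (fun g : G => (g : G ⧸ N)) '' D := by
        intro q hq
        obtain ⟨g, rfl⟩ := QuotientGroup.mk_surjective q
        rw [SetLike.mem_coe, mem_centralizer_singleton_iff] at hq
        refine ⟨g, ?_, rfl⟩
        show g⁻¹ * t * g * t⁻¹ ∈ N
        rw [← QuotientGroup.eq_one_iff]
        rw [QuotientGroup.mk_mul, QuotientGroup.mk_mul, QuotientGroup.mk_mul,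
          QuotientGroup.mk_inv, QuotientGroup.mk_inv, mul_assoc (g : G ⧸ N)⁻¹, ← hq]
        group
      exact (hD.image _).subset h11
  exact (not_finite_iff_infinite.2 hinf) (Finite.of_subgroup_quotient N)

end Vale.Agent.P192.H626
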