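import Mathlib

/-!
# Bases permuted up to sign
-/

namespace Vale.Agent.P192.H626

open Module

/-- The basis `b` of `C` is permuted by `G` up to sign. -/
def SignPerm (G : Type*) {Ω C : Type*} [Group G] [MulAction G Ω] [AddCommGroup C]
    [DistribMulAction G C] (b : Basis Ω ℤ C) : Prop :=
  ∀ (g : G) (ω : Ω), g • b ω = b (g • ω) ∨ g • b ω = -b (g • ω)

/-- The span of the part `A` of the basis. -/
def Sp {Ω C : Type*} [AddCommGroup C] (b : Basis Ω ℤ C) (A : Set Ω) : AddSubgroup C :=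
  (Submodule.span ℤ (b '' A)).toAddSubgroup

theorem mem_Sp {Ω C : Type*} [AddCommGroup C] (b : Basis Ω ℤ C) (A : Set Ω) (x : C) :
    x ∈ Sp b A ↔ ∀ ω, b.repr x ω ≠ 0 → ω ∈ A := by
  rw [Sp, Submodule.mem_toAddSubgroup, b.mem_span_image]
  constructor
  · intro h ω hω
    exact h (Finsupp.mem_support_iff.2 hω)
  · intro h ω hω
    exact h ω (Finsupp.mem_support_iff.1 hω)

theorem basis_mem_Sp {Ω C : Type*} [AddCommGroup C] (b : Basis Ω ℤ C) (A : Set Ω) {ω : Ω}
    (h : ω ∈ A) : b ω ∈ Sp b A := Submodule.subset_span ⟨ω, h, rfl⟩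

theorem Sp_induction {Ω C : Type*} [AddCommGroup C] (b : Basis Ω ℤ C) (A : Set Ω)
    {p : C → Prop} (hb : ∀ ω ∈ A, p (b ω)) (h0 : p 0) (hadd : ∀ x y, p x → p y → p (x + y))
    (hneg : ∀ (n : ℤ) x, p x → p (n • x)) : ∀ x ∈ Sp b A, p x := by
  intro x hx
  have hx' : x ∈ Submodule.span ℤ (b '' A) := hx
  refine Submodule.span_induction (p := fun x _ => p x) ?_ h0 (fun x y _ _ => hadd x y)
    (fun n x _ => hneg n x) hx'
  rintro _ ⟨ω, hω, rfl⟩
  exact hb ω hω

theorem smul_mem_Sp {G Ω C : Type*} [Group G] [MulAction G Ω] [AddCommGroup C]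
    [DistribMulAction G C] (b : Basis Ω ℤ C) (hb : SignPerm G b) (A : Set Ω)
    (hA : ∀ (g : G) ω, ω ∈ A → g • ω ∈ A) (g : G) : ∀ x ∈ Sp b A, g • x ∈ Sp b A := by
  refine Sp_induction b A (p := fun x => g • x ∈ Sp b A) ?_ ?_ ?_ ?_
  · intro ω hω
    rcases hb g ω with h | h
    · rw [h]
      exact basis_mem_Sp b A (hA g ω hω)
    · rw [h]
      exact (Sp b A).neg_mem (basis_mem_Sp b A (hA g ω hω))
  · rw [smul_zero]
    exact (Sp b A).zero_mem
  · intro x y hx hy
    rw [smul_add]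
    exact (Sp b A).add_mem hx hy
  · intro n x hx
    rw [smul_comm]
    exact (Sp b A).zsmul_mem hx n

theorem Sp_mono {Ω C : Type*} [AddCommGroup C] (b : Basis Ω ℤ C) {A B : Set Ω} (h : A ⊆ B) :
    Sp b A ≤ Sp b B := Submodule.span_mono (Set.image_mono h)

/-- If the order of each stabiliser divides `M` then `M` is a trace. -/
theorem exists_theta {P Ω C : Type*} [Group P] [Fintype P] [MulAction P Ω] [AddCommGroup C]
    [DistribMulAction P C] (b : Basis Ω ℤ C) (hb : SignPerm P b) (A : Set Ω)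
    (M : ℤ) (hM : ∀ ω ∈ A, (Nat.card (MulAction.stabilizer P ω) : ℤ) ∣ M) :
    ∃ θ : C →+ C, (∀ x ∈ Sp b A, ∑ k : P, k • θ (k⁻¹ • x) = M • x) ∧
      ∀ x ∈ Sp b A, θ x ∈ Sp b A := by
  classical
  let rep : Ω → Ω := fun ω => Quotient.out (Quotient.mk (MulAction.orbitRel P Ω) ω)
  have rep_smul : ∀ (k : P) ω, rep (k • ω) = rep ω := by
    intro k ω
    have : Quotient.mk (MulAction.orbitRel P Ω) (k • ω) = Quotient.mk (MulAction.orbitRel P Ω) ω :=
      Quotient.sound (MulAction.orbitRel_apply.2 ⟨k, rfl⟩)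
    show Quotient.out _ = Quotient.out _
    rw [this]
  have rep_orb : ∀ ω, ∃ g : P, g • ω = rep ω := by
    intro ω
    have : (MulAction.orbitRel P Ω).r (rep ω) ω := Quotient.exact (Quotient.out_eq _)
    exact MulAction.orbitRel_apply.1 this
  let θ : C →ₗ[ℤ] C := b.constr ℤ fun ω =>
    if rep ω = ω then (M / (Nat.card (MulAction.stabilizer P ω) : ℤ)) • b ω else 0
  have hθ : ∀ ω, θ (b ω) =
      if rep ω = ω then (M / (Nat.card (MulAction.stabilizer P ω) : ℤ)) • b ω else 0 := fun ω =>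
    b.constr_basis ℤ _ ω
  refine ⟨θ.toAddMonoidHom, ?_, ?_⟩
  · refine Sp_induction b A (p := fun x => ∑ k : P, k • θ.toAddMonoidHom (k⁻¹ • x) = M • x)
      ?_ ?_ ?_ ?_
    · intro ω hω
      set m : ℕ := Nat.card (MulAction.stabilizer P ω) with hm
      have hcard : ∀ k : P, Nat.card (MulAction.stabilizer P (k • ω)) = m := fun k =>
        Nat.card_congr (MulAction.stabilizerEquivStabilizer (g := k) (a := ω) rfl).symm.toEquiv
      have hterm : ∀ k : P, k • θ.toAddMonoidHom (k⁻¹ • b ω) =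
          if rep ω = k⁻¹ • ω then (M / (m : ℤ)) • b ω else 0 := by
        intro k
        have h1 : θ (k⁻¹ • b ω) = if rep ω = k⁻¹ • ω then (M / (m : ℤ)) • (k⁻¹ • b ω) else 0 := by
          rcases hb k⁻¹ ω with h | h
          · rw [h, hθ, rep_smul, hcard]
          · rw [h, map_neg, hθ, rep_smul, hcard]
            split_ifs
            · rw [smul_neg]
            · rw [neg_zero]
        show k • θ (k⁻¹ • b ω) = _
        rw [h1]
        split_ifs
        · rw [smul_comm, smul_inv_smul]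
        · rw [smul_zero]
      simp only [hterm]
      rw [Finset.sum_ite, Finset.sum_const_zero, add_zero, Finset.sum_const]
      obtain ⟨g, hg⟩ := rep_orb ω
      have hcount : (Finset.univ.filter fun k : P => rep ω = k⁻¹ • ω).card = m := by
        rw [hm, ← Fintype.card_subtype, ← Nat.card_eq_fintype_card]
        refine Nat.card_congr (Equiv.subtypeEquiv (Equiv.mulRight g) fun k => ?_)
        rw [Equiv.coe_mulRight, MulAction.mem_stabilizer_iff, mul_smul, hg, eq_inv_smul_iff]
      rw [hcount, ← Nat.cast_smul_eq_nsmul ℤ, smul_smul, Int.mul_ediv_cancel' (hM ω hω)]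
    · simp
    · intro x y hx hy
      simp only [smul_add, map_add, Finset.sum_add_distrib, hx, hy]
    · intro n x hx
      have : ∀ k : P, k • θ.toAddMonoidHom (k⁻¹ • n • x) = n • (k • θ.toAddMonoidHom (k⁻¹ • x)) := by
        intro k
        rw [smul_comm k⁻¹ n x, map_zsmul, smul_comm k n]
      simp only [this, ← Finset.smul_sum, hx]
      rw [smul_comm]
  · refine Sp_induction b A (p := fun x => θ.toAddMonoidHom x ∈ Sp b A) ?_ ?_ ?_ ?_
    · intro ω hω
      show θ (b ω) ∈ Sp b A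
      rw [hθ]
      split_ifs
      · exact (Sp b A).zsmul_mem (basis_mem_Sp b A hω) _
      · exact (Sp b A).zero_mem
    · rw [map_zero]
      exact (Sp b A).zero_mem
    · intro x y hx hy
      rw [map_add]
      exact (Sp b A).add_mem hx hy
    · intro n x hx
      rw [map_zsmul]
      exact (Sp b A).zsmul_mem hx n

end Vale.Agent.P192.H626
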