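import Mathlib

/-!
# Smith theory for an involution on an acyclic two-complex, coefficients modulo two
-/

namespace Vale.Agent.P192.H626

/-- Chains modulo two. -/
abbrev Ch (V : Type*) := V →₀ ZMod 2

theorem ch_add_self {V : Type*} (x : Ch V) : x + x = 0 := by
  ext ω
  exact CharTwo.add_self_eq_zero _

theorem ch_eq_of_add {V : Type*} {x y : Ch V} (h : x + y = 0) : x = y := by
  have : x + y + y = y := by rw [h, zero_add]
  rwa [add_assoc, ch_add_self, add_zero] at this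

/-- The permutation of chains induced by a permutation. -/
noncomputable def Pm {V : Type*} (τ : Equiv.Perm V) : Ch V →+ Ch V :=
  Finsupp.mapDomain.addMonoidHom τ

theorem Pm_apply {V : Type*} (τ : Equiv.Perm V) (c : Ch V) (ω : V) :
    Pm τ c ω = c (τ.symm ω) := Finsupp.mapDomain_equiv_apply c ω

theorem Pm_single {V : Type*} (τ : Equiv.Perm V) (ω : V) (a : ZMod 2) :
    Pm τ (Finsupp.single ω a) = Finsupp.single (τ ω) a := Finsupp.mapDomain_single

/-- The support of `c` is contained in `A`. -/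
def Supp {V : Type*} (A : Set V) (c : Ch V) : Prop := ∀ ω, c ω ≠ 0 → ω ∈ A

theorem Supp.add {V : Type*} {A : Set V} {b c : Ch V} (hb : Supp A b) (hc : Supp A c) :
    Supp A (b + c) := by
  intro ω h
  by_contra hA
  have h1 : b ω = 0 := by
    by_contra h2
    exact hA (hb ω h2)
  have h2 : c ω = 0 := by
    by_contra h3
    exact hA (hc ω h3)
  exact h (by rw [Finsupp.add_apply, h1, h2, add_zero])

theorem Supp.zero {V : Type*} {A : Set V} : Supp A (0 : Ch V) := fun _ h => absurd rfl h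

theorem Supp.eq_zero {V : Type*} {A : Set V} {c : Ch V} (hc : Supp A c) {ω : V} (h : ω ∉ A) :
    c ω = 0 := by
  by_contra h1
  exact h (hc ω h1)

section inv

variable {V : Type*} (τ : Equiv.Perm V) (A : Set V) (hA : ∀ ω ∈ A, τ ω ∈ A)
  (hA2 : ∀ ω ∈ A, τ (τ ω) = ω)

omit hA in
include hA2 in
theorem symm_eq {ω : V} (h : ω ∈ A) : τ.symm ω = τ ω := by
  rw [Equiv.symm_apply_eq]
  exact (hA2 ω h).symm

include hA in
omit hA2 in
theorem Supp_Pm {c : Ch V} (hc : Supp A c) : Supp A (Pm τ c) := by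
  intro ω h
  rw [Pm_apply] at h
  have h1 := hA _ (hc _ h)
  rwa [Equiv.apply_symm_apply] at h1

include hA hA2

theorem Pm_Pm {c : Ch V} (hc : Supp A c) : Pm τ (Pm τ c) = c := by
  ext ω
  rw [Pm_apply, Pm_apply]
  by_cases h : ω ∈ A
  · have h1 : τ.symm ω = τ ω := symm_eq τ A hA2 h
    rw [h1, Equiv.symm_apply_apply]
  · have h1 : τ.symm ω ∉ A := fun h2 => h (by
      have := hA _ h2
      rwa [Equiv.apply_symm_apply] at this)
    have h2 : τ.symm (τ.symm ω) ∉ A := fun h2 => h1 (by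
      have := hA _ h2
      rwa [Equiv.apply_symm_apply] at this)
    rw [hc.eq_zero h, hc.eq_zero h2]

omit hA in
/-- An invariant chain is a sum of a chain of fixed cells and a trace. -/
theorem inv_decomp {c : Ch V} (hc : Supp A c) (hinv : Pm τ c = c) :
    ∃ a b : Ch V, Supp {ω | ω ∈ A ∧ τ ω = ω} a ∧ Supp A b ∧ c = a + (b + Pm τ b) := by
  classical
  let _ : LinearOrder V := linearOrderOfSTO (WellOrderingRel : V → V → Prop)
  refine ⟨c.filter fun ω => τ ω = ω, c.filter fun ω => ω < τ ω, ?_, ?_, ?_⟩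
  · intro ω h
    rw [Finsupp.filter_apply] at h
    by_cases h1 : τ ω = ω
    · rw [if_pos h1] at h
      exact ⟨hc ω h, h1⟩
    · rw [if_neg h1] at h
      exact absurd rfl h
  · intro ω h
    rw [Finsupp.filter_apply] at h
    by_cases h1 : ω < τ ω
    · rw [if_pos h1] at h
      exact hc ω h
    · rw [if_neg h1] at h
      exact absurd rfl h
  · ext ω
    rw [Finsupp.add_apply, Finsupp.add_apply, Pm_apply, Finsupp.filter_apply,
      Finsupp.filter_apply, Finsupp.filter_apply, Equiv.apply_symm_apply]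
    have hcs : c (τ.symm ω) = c ω := by
      rw [← Pm_apply, hinv]
    by_cases h : ω ∈ A
    · rw [symm_eq τ A hA2 h] at hcs ⊢
      rcases lt_trichotomy (τ ω) ω with h1 | h1 | h1
      · rw [if_neg h1.ne, if_neg h1.not_gt, if_pos h1, hcs, zero_add, zero_add]
      · rw [if_pos h1, h1, if_neg (lt_irrefl ω), add_zero, add_zero]
      · rw [if_neg h1.ne', if_pos h1, if_neg h1.not_gt, zero_add, add_zero]
    · rw [hcs, hc.eq_zero h]
      simp

end inv

/-- A trace vanishes at the fixed points. -/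
theorem trace_fixed {V : Type*} (τ : Equiv.Perm V) (b : Ch V) {ω : V} (h : τ ω = ω) :
    (b + Pm τ b) ω = 0 := by
  rw [Finsupp.add_apply, Pm_apply]
  have : τ.symm ω = ω := by rw [Equiv.symm_apply_eq]; exact h.symm
  rw [this]
  exact CharTwo.add_self_eq_zero _

/-- Acyclicity of a subcomplex. -/
structure Acy {V : ℕ → Type*} (d : ∀ i, Ch (V (i + 1)) →+ Ch (V i)) (ε : Ch (V 0) →+ ZMod 2)
    (A : ∀ i, Set (V i)) : Prop where
  pt : ∃ v, Supp (A 0) v ∧ ε v = 1
  ex0 : ∀ v, Supp (A 0) v → ε v = 0 → ∃ e, Supp (A 1) e ∧ d 0 e = v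
  ex : ∀ i e, Supp (A (i + 1)) e → d i e = 0 → ∃ c, Supp (A (i + 2)) c ∧ d (i + 1) c = e

section

variable {V : ℕ → Type*} (d : ∀ i, Ch (V (i + 1)) →+ Ch (V i)) (ε : Ch (V 0) →+ ZMod 2)
  (hd : ∀ i c, d i (d (i + 1) c) = 0) (hε : ∀ e, ε (d 0 e) = 0)
  (t : ∀ i, Equiv.Perm (V i)) (cd : ∀ i e, d i (Pm (t (i + 1)) e) = Pm (t i) (d i e))
  (c0 : ∀ v, ε (Pm (t 0) v) = ε v)
  (A : ∀ i, Set (V i)) (iA : ∀ i, ∀ ω ∈ A i, t i ω ∈ A i) (qA : ∀ i, ∀ ω ∈ A i, t i (t i ω) = ω)
  (sA : ∀ i e, Supp (A (i + 1)) e → Supp (A i) (d i e))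
  (sB : ∀ i e, Supp {ω | ω ∈ A (i + 1) ∧ t (i + 1) ω = ω} e →
    Supp {ω | ω ∈ A i ∧ t i ω = ω} (d i e))
  (hA : Acy d ε A)

include cd sB in
/-- If the trace of a boundary is supported away from the fixed cells, then it comes from the
free part. -/
theorem bd_fixed {i : ℕ} (a b : Ch (V (i + 1))) (x : Ch (V i))
    (ha : Supp {ω | ω ∈ A (i + 1) ∧ t (i + 1) ω = ω} a)
    (hx : x = d i (a + (b + Pm (t (i + 1)) b))) (hx0 : ∀ ω, t i ω = ω → x ω = 0) :
    d i a = 0 := by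
  ext ω
  by_cases hω : ω ∈ {ω | ω ∈ A i ∧ t i ω = ω}
  · have h1 := hx0 ω hω.2
    rw [hx, map_add, map_add, cd, Finsupp.add_apply, trace_fixed (t i) _ hω.2, add_zero] at h1
    exact h1
  · exact (sB i a ha).eq_zero hω

include cd sB in
theorem bd_fixed' {i : ℕ} (a b : Ch (V (i + 1))) (x : Ch (V i))
    (ha : Supp {ω | ω ∈ A (i + 1) ∧ t (i + 1) ω = ω} a)
    (hx : x = d i (a + (b + Pm (t (i + 1)) b)))
    (hx0 : Supp {ω | ω ∈ A i ∧ t i ω = ω} x) : d i a = x := by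
  ext ω
  by_cases hω : ω ∈ {ω | ω ∈ A i ∧ t i ω = ω}
  · rw [hx, map_add, map_add, cd, Finsupp.add_apply, trace_fixed (t i) _ hω.2, add_zero]
  · rw [(sB i a ha).eq_zero hω, hx0.eq_zero hω]

theorem Pm_fixed {W : Type*} (τ : Equiv.Perm W) (B : Set W) (x : Ch W)
    (hx : Supp {ω | ω ∈ B ∧ τ ω = ω} x) : Pm τ x = x := by
  ext ω
  rw [Pm_apply]
  by_cases hω : ω ∈ {ω | ω ∈ B ∧ τ ω = ω}
  · have : τ.symm ω = ω := by rw [Equiv.symm_apply_eq]; exact hω.2.symm
    rw [this]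
  · have hω' : τ.symm ω ∉ {ω | ω ∈ B ∧ τ ω = ω} := by
      intro h2
      have h3 := h2.2
      rw [Equiv.apply_symm_apply] at h3
      rw [← h3] at h2
      exact hω h2
    rw [hx.eq_zero hω, hx.eq_zero hω']

include hd cd iA qA sA sB hA in
/-- A chain whose trace is a cycle may be replaced by an invariant one. -/
theorem smith_step (n : ℕ) (hn : ∀ i, n < i → IsEmpty (V i)) (j : ℕ) :
    ∀ i, n ≤ i + j → ∀ e, Supp (A (i + 1)) e → d i (e + Pm (t (i + 1)) e) = 0 →
      ∃ e', Supp (A (i + 1)) e' ∧ Pm (t (i + 1)) e' = e' ∧ d i e' = d i e := by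
  induction j with
  | zero =>
    intro i hi e he _
    have hem := hn (i + 1) (by omega)
    refine ⟨e, he, ?_, rfl⟩
    ext ω
    exact hem.elim ω
  | succ j ih =>
    intro i hi e he hde
    obtain ⟨c0, hc0, hce0⟩ := hA.ex i (e + Pm (t (i + 1)) e)
      (he.add (Supp_Pm (t (i + 1)) (A (i + 1)) (iA _) he)) hde
    obtain ⟨c, hc, hcinv, hcc⟩ := ih (i + 1) (by omega) c0 hc0 (by
      rw [map_add, cd, hce0, map_add, Pm_Pm (t (i + 1)) (A (i + 1)) (iA _) (qA _) he,
        add_comm (Pm (t (i + 1)) e) e, ch_add_self])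
    rw [hce0] at hcc
    obtain ⟨a, b, ha, hb, hab⟩ := inv_decomp (t (i + 2)) (A (i + 2)) (qA _) hc hcinv
    have ha0 : d (i + 1) a = 0 :=
      bd_fixed d t cd A sB a b (e + Pm (t (i + 1)) e) ha (by rw [← hab, hcc])
        fun ω hω => trace_fixed (t (i + 1)) e hω
    have hkey : e + Pm (t (i + 1)) e = d (i + 1) b + Pm (t (i + 1)) (d (i + 1) b) := by
      rw [← hcc, hab, map_add, ha0, zero_add, map_add, cd]
    refine ⟨e + d (i + 1) b, he.add (sA _ b hb), ?_, ?_⟩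
    · rw [map_add]
      apply ch_eq_of_add
      have : Pm (t (i + 1)) e + Pm (t (i + 1)) (d (i + 1) b) + (e + d (i + 1) b) =
          (e + Pm (t (i + 1)) e) + (d (i + 1) b + Pm (t (i + 1)) (d (i + 1) b)) := by abel
      rw [this, hkey, ch_add_self]
    · rw [map_add, hd, add_zero]

include hd hε cd c0 iA qA sA sB hA in
/-- **Smith theory for an involution.** -/
theorem smith (n : ℕ) (hn : ∀ i, n < i → IsEmpty (V i)) :
    Acy d ε fun i => {ω | ω ∈ A i ∧ t i ω = ω} := by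
  have hQ : ∀ i e, Supp (A (i + 1)) e → d i (e + Pm (t (i + 1)) e) = 0 →
      ∃ e', Supp (A (i + 1)) e' ∧ Pm (t (i + 1)) e' = e' ∧ d i e' = d i e := fun i =>
    smith_step d ε hd t cd A iA qA sA sB hA n hn n i (by omega)
  refine ⟨?_, ?_, ?_⟩
  · obtain ⟨v, hv, hv1⟩ := hA.pt
    obtain ⟨e, he, hev⟩ := hA.ex0 (v + Pm (t 0) v) (hv.add (Supp_Pm (t 0) (A 0) (iA 0) hv)) (by
      rw [map_add, c0]
      exact CharTwo.add_self_eq_zero _)
    obtain ⟨e', he', hinv', hde'⟩ := hQ 0 e he (by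
      rw [map_add, cd, hev, map_add, Pm_Pm (t 0) (A 0) (iA 0) (qA 0) hv,
        add_comm (Pm (t 0) v) v, ch_add_self])
    obtain ⟨a, b, ha, hb, hab⟩ := inv_decomp (t 1) (A 1) (qA 1) he' hinv'
    have hva : v + Pm (t 0) v = d 0 (a + (b + Pm (t 1) b)) := by rw [← hab, hde', hev]
    have ha0 : d 0 a = 0 := bd_fixed d t cd A sB a b _ ha hva fun ω hω => trace_fixed (t 0) v hω
    have hkey : v + Pm (t 0) v = d 0 b + Pm (t 0) (d 0 b) := by
      rw [hva, map_add, ha0, zero_add, map_add, cd]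
    obtain ⟨a', b', ha', -, hab'⟩ := inv_decomp (t 0) (A 0) (qA 0) (c := v + d 0 b)
      (hv.add (sA 0 b hb)) (by
        rw [map_add]
        apply ch_eq_of_add
        have : Pm (t 0) v + Pm (t 0) (d 0 b) + (v + d 0 b) =
            (v + Pm (t 0) v) + (d 0 b + Pm (t 0) (d 0 b)) := by abel
        rw [this, hkey, ch_add_self])
    refine ⟨a', ha', ?_⟩
    have h1 : ε (v + d 0 b) = 1 := by rw [map_add, hε, add_zero, hv1]
    rw [hab', map_add, map_add, c0, CharTwo.add_self_eq_zero, add_zero] at h1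
    exact h1
  · intro v hv hv0
    obtain ⟨e, he, hev⟩ := hA.ex0 v (fun ω h => (hv ω h).1) hv0
    obtain ⟨e', he', hinv', hde'⟩ := hQ 0 e he (by
      rw [map_add, cd, hev, Pm_fixed (t 0) (A 0) v hv, ch_add_self])
    obtain ⟨a, b, ha, hb, hab⟩ := inv_decomp (t 1) (A 1) (qA 1) he' hinv'
    exact ⟨a, ha, bd_fixed' d t cd A sB a b v ha (by rw [← hab, hde', hev]) hv⟩
  · intro i e he hde
    obtain ⟨c, hc, hce⟩ := hA.ex i e (fun ω h => (he ω h).1) hde
    obtain ⟨c', hc', hinv', hdc'⟩ := hQ (i + 1) c hc (by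
      rw [map_add, cd, hce, Pm_fixed (t (i + 1)) (A (i + 1)) e he, ch_add_self])
    obtain ⟨a, b, ha, hb, hab⟩ := inv_decomp (t (i + 2)) (A (i + 2)) (qA (i + 2)) hc' hinv'
    exact ⟨a, ha, bd_fixed' d t cd A sB a b e ha (by rw [← hab, hdc', hce]) he⟩

end

end Vale.Agent.P192.H626
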