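import Vale.Agent.P192.H626.Smith

/-!
# Smith theory for finite `2`-groups
-/

namespace Vale.Agent.P192.H626

open Subgroup

/-- The points fixed by `S`. -/
def Fx {G : Type*} [Group G] (V : Type*) [MulAction G V] (S : Subgroup G) : Set V :=
  {ω | ∀ s ∈ S, s • ω = ω}

theorem Supp_map {V W : Type*} (d : Ch V →+ Ch W) (A : Set V) (B : Set W)
    (h : ∀ ω ∈ A, Supp B (d (Finsupp.single ω 1))) (e : Ch V) (he : Supp A e) :
    Supp B (d e) := by
  classical
  have h1 : ∀ ω ∈ e.support, Finsupp.single ω (e ω) = Finsupp.single ω (1 : ZMod 2) := by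
    intro ω hω
    have h2 : e ω ≠ 0 := Finsupp.mem_support_iff.1 hω
    have h3 : ∀ a : ZMod 2, a ≠ 0 → a = 1 := by decide
    rw [h3 _ h2]
  have h4 : e = ∑ ω ∈ e.support, Finsupp.single ω (1 : ZMod 2) := by
    conv_lhs => rw [← Finsupp.sum_single e, Finsupp.sum]
    exact Finset.sum_congr rfl h1
  have h5 : ∀ s : Finset V, (∀ ω ∈ s, ω ∈ A) →
      Supp B (d (∑ ω ∈ s, Finsupp.single ω (1 : ZMod 2))) := by
    intro s
    induction s using Finset.induction_on with
    | empty =>
      intro _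
      rw [Finset.sum_empty, map_zero]
      exact Supp.zero
    | insert a s ha ih =>
      intro hs
      rw [Finset.sum_insert ha, map_add]
      exact (h a (hs a (Finset.mem_insert_self a s))).add
        (ih fun ω hω => hs ω (Finset.mem_insert_of_mem hω))
  rw [h4]
  exact h5 _ fun ω hω => he ω (Finsupp.mem_support_iff.1 hω)

/-- A complex modulo two of dimension at most `n` with an action of `G`. -/
structure Cx (G : Type*) [Group G] (V : ℕ → Type*) [∀ i, MulAction G (V i)] (n : ℕ) where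
  /-- the boundary -/
  d : ∀ i, Ch (V (i + 1)) →+ Ch (V i)
  /-- the augmentation -/
  ε : Ch (V 0) →+ ZMod 2
  hd : ∀ i c, d i (d (i + 1) c) = 0
  hε : ∀ e, ε (d 0 e) = 0
  cd : ∀ i (g : G) e, d i (Pm (MulAction.toPerm g) e) = Pm (MulAction.toPerm g) (d i e)
  c0 : ∀ (g : G) v, ε (Pm (MulAction.toPerm g) v) = ε v
  r : ∀ i (g : G) (ω : V (i + 1)), g • ω = ω → ∀ τ, d i (Finsupp.single ω 1) τ ≠ 0 → g • τ = τ
  emp : ∀ i, n < i → IsEmpty (V i)

variable {G : Type*} [Group G]

theorem Cx.supp {V : ℕ → Type*} [∀ i, MulAction G (V i)] {n : ℕ} (X : Cx G V n) (S : Subgroup G)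
    (i : ℕ) (e : Ch (V (i + 1))) (he : Supp (Fx (V (i + 1)) S) e) : Supp (Fx (V i) S) (X.d i e) :=
  Supp_map (X.d i) (Fx (V (i + 1)) S) (Fx (V i) S)
    (fun ω hω τ hτ s hs => X.r i s ω (hω s hs) τ hτ) e he

theorem mem_Fx_index_two {V : Type*} [MulAction G V] (S : Subgroup G) (K : Subgroup S)
    (hidx : K.index = 2) (t : S) (ht : t ∉ K) (ω : V) :
    ω ∈ Fx V S ↔ ω ∈ Fx V (K.map S.subtype) ∧ (t : G) • ω = ω := by
  constructor
  · intro h
    refine ⟨?_, h t t.2⟩
    rintro _ ⟨k, -, rfl⟩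
    exact h k k.2
  · rintro ⟨h1, h2⟩ s hs
    by_cases hsK : (⟨s, hs⟩ : S) ∈ K
    · exact h1 s ⟨⟨s, hs⟩, hsK, rfl⟩
    · have h3 : (t⁻¹ * ⟨s, hs⟩ : S) ∈ K := by
        rw [mul_mem_iff_of_index_two hidx, inv_mem_iff]
        exact ⟨fun h => absurd h ht, fun h => absurd h hsK⟩
      have h4 := h1 _ ⟨_, h3, rfl⟩
      have h5 : s = (t : G) * ((t : G)⁻¹ * s) := by group
      rw [h5, mul_smul]
      have h6 : ((t : G)⁻¹ * s) • ω = ω := h4
      rw [h6, h2]

theorem smul_mem_Fx {V : Type*} [MulAction G V] (S : Subgroup G) (K : Subgroup S)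
    (hnor : K.Normal) (t : S) (ω : V) (h : ω ∈ Fx V (K.map S.subtype)) :
    (t : G) • ω ∈ Fx V (K.map S.subtype) := by
  rintro _ ⟨k, hk, rfl⟩
  have h1 : (t⁻¹ * k * t : S) ∈ K := by
    have := hnor.conj_mem k hk t⁻¹
    rwa [inv_inv] at this
  have h2 := h _ ⟨_, h1, rfl⟩
  have h3 : (((t : G)⁻¹ * (k : G) * (t : G)) : G) • ω = ω := h2
  show (k : G) • (t : G) • ω = (t : G) • ω
  rw [← mul_smul]
  have h4 : (k : G) * (t : G) = (t : G) * ((t : G)⁻¹ * (k : G) * (t : G)) := by group
  rw [h4, mul_smul, h3]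

/-- **Smith theory for `2`-groups.** -/
theorem smith_group {V : ℕ → Type*} [∀ i, MulAction G (V i)] {n : ℕ} (X : Cx G V n)
    (hX : Acy X.d X.ε fun _ => Set.univ) (m : ℕ) :
    ∀ S : Subgroup G, Nat.card S = 2 ^ m → Acy X.d X.ε fun i => Fx (V i) S := by
  induction m with
  | zero =>
    intro S hS
    rw [pow_zero] at hS
    have hS' : S = ⊥ := Subgroup.card_eq_one.1 hS
    have h0 : (fun i => Fx (V i) S) = fun i => (Set.univ : Set (V i)) := by
      funext i
      rw [hS']
      exact Set.eq_univ_of_forall fun ω s hs => by rw [Subgroup.mem_bot.1 hs, one_smul]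
    rw [h0]
    exact hX
  | succ m ih =>
    intro S hS
    have hSfin : Finite S := (Nat.card_pos_iff.1 (by rw [hS]; positivity)).2
    have : Fact (Nat.Prime 2) := ⟨Nat.prime_two⟩
    obtain ⟨K, hK⟩ := Sylow.exists_subgroup_card_pow_prime (G := S) 2 (n := m)
      (by rw [hS]; exact pow_dvd_pow 2 m.le_succ)
    have hidx : K.index = 2 := by
      have h1 := K.card_mul_index
      rw [hK, hS, pow_succ] at h1
      exact Nat.eq_of_mul_eq_mul_left (by positivity) h1
    have hnor : K.Normal := normal_of_index_eq_two hidx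
    have hK'card : Nat.card (K.map S.subtype) = 2 ^ m := by
      rw [← hK]
      exact (Nat.card_congr (K.equivMapOfInjective _ S.subtype_injective).toEquiv).symm
    obtain ⟨t, ht⟩ : ∃ t : S, t ∉ K := by
      by_contra hcon
      push Not at hcon
      have : K = ⊤ := by
        rw [eq_top_iff]
        exact fun x _ => hcon x
      rw [this, index_top] at hidx
      exact absurd hidx (by norm_num)
    have htt : t * t ∈ K := mul_self_mem_of_index_two hidx t
    have hA := ih _ hK'card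
    have e0 : ∀ i, Fx (V i) S = {ω | ω ∈ Fx (V i) (K.map S.subtype) ∧
        (MulAction.toPerm (t : G) : Equiv.Perm (V i)) ω = ω} := fun i =>
      Set.ext fun ω => mem_Fx_index_two S K hidx t ht ω
    have e1 : (fun i => Fx (V i) S) = fun i => {ω | ω ∈ Fx (V i) (K.map S.subtype) ∧
        (MulAction.toPerm (t : G) : Equiv.Perm (V i)) ω = ω} := funext e0
    rw [e1]
    refine smith X.d X.ε X.hd X.hε (fun i => (MulAction.toPerm (t : G) : Equiv.Perm (V i)))
      (fun i => X.cd i t) (X.c0 t) (fun i => Fx (V i) (K.map S.subtype))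
      (fun i ω h => smul_mem_Fx S K hnor t ω h) ?_ (fun i => X.supp _ i) ?_ hA n X.emp
    · intro i ω h
      show (t : G) • (t : G) • ω = ω
      rw [← mul_smul]
      exact h _ ⟨t * t, htt, rfl⟩
    · intro i e he
      have h1 := X.supp S i e
      rw [e0, e0] at h1
      exact h1 he

end Vale.Agent.P192.H626
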