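import Vale.Agent.P192.H626.Sign

/-!
# The trace argument in arbitrary dimension
-/

namespace Vale.Agent.P192.H626

open Module

/-- One step of the dimension shift: if `M` is a trace on `B` and `n` is a trace on the kernel of
`d : B → C`, then `M * n` is a trace on the image. -/
theorem trace_step {P B C : Type*} [Group P] [Fintype P] [AddCommGroup B] [DistribMulAction P B]
    [AddCommGroup C] [DistribMulAction P C] (d : B →+ C) (e : ∀ (k : P) x, d (k • x) = k • d x)
    (K : AddSubgroup C) (hK : ∀ (k : P) x, x ∈ K → k • x ∈ K) (hd : ∀ x, d x ∈ K)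
    (h : C →+ B) (hh : ∀ x ∈ K, d (h x) = x)
    (M n : ℤ) (θB : B →+ B) (tB : ∀ x, ∑ k : P, k • θB (k⁻¹ • x) = M • x)
    (θA : B →+ B) (mA : ∀ x, d x = 0 → d (θA x) = 0)
    (tA : ∀ x, d x = 0 → ∑ k : P, k • θA (k⁻¹ • x) = n • x) :
    ∃ θ : C →+ C, (∀ x ∈ K, θ x ∈ K) ∧ ∀ x ∈ K, ∑ k : P, k • θ (k⁻¹ • x) = (M * n) • x := by
  classical
  -- the additive maps `κ_g`
  let κ : P → C → B := fun g c => g⁻¹ • h c - h (g⁻¹ • c)
  have κadd : ∀ g x y, κ g (x + y) = κ g x + κ g y := by
    intro g x y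
    simp only [κ, map_add, smul_add]
    abel
  have κker : ∀ g x, x ∈ K → d (κ g x) = 0 := by
    intro g x hx
    simp only [κ]
    rw [map_sub, e, hh x hx, hh _ (hK _ _ hx), sub_self]
  have κmul : ∀ g k c, k⁻¹ • κ g c = κ (g * k) c - κ k (g⁻¹ • c) := by
    intro g k c
    simp only [κ]
    rw [smul_sub, mul_inv_rev, mul_smul, mul_smul]
    abel
  let ψ : C →+ B :=
    { toFun := fun c => n • θB (h c) - θB (∑ k : P, k • θA (κ k c))
      map_zero' := by
        have : ∀ k : P, κ k 0 = 0 := fun k => by simp [κ]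
        simp [this]
      map_add' := by
        intro x y
        simp only [κadd, map_add, smul_add, Finset.sum_add_distrib]
        abel }
  have hψ : ∀ c, ψ c = n • θB (h c) - θB (∑ k : P, k • θA (κ k c)) := fun c => rfl
  refine ⟨d.comp ψ, fun x _ => hd _, fun x hx => ?_⟩
  have h1 : ∀ g : P, g • (d.comp ψ) (g⁻¹ • x) = d (g • ψ (g⁻¹ • x)) := by
    intro g
    rw [AddMonoidHom.comp_apply, e]
  simp only [h1]
  rw [← map_sum]
  -- compute in `B`
  have hn : ∀ g : P, n • κ g x = ∑ k : P, k • θA (κ (g * k) x) - ∑ k : P, k • θA (κ k (g⁻¹ • x)) := by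
    intro g
    rw [← tA _ (κker g x hx), ← Finset.sum_sub_distrib]
    refine Finset.sum_congr rfl fun k _ => ?_
    rw [κmul, map_sub, smul_sub]
  have hmain : ∑ g : P, g • ψ (g⁻¹ • x) + M • ∑ k : P, k • θA (κ k x) = (M * n) • h x := by
    have h2 : ∀ g : P, g • ψ (g⁻¹ • x) =
        g • θB (n • (g⁻¹ • h x)) - g • θB (∑ k : P, k • θA (κ (g * k) x)) := by
      intro g
      have h3 : n • h (g⁻¹ • x) = n • (g⁻¹ • h x) - n • κ g x := by
        rw [← zsmul_sub]
        congr 1
        simp only [κ]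
        abel
      rw [hψ, ← map_zsmul θB, h3, hn g]
      simp only [map_sub, smul_sub]
      abel
    have h4 : ∑ g : P, g • θB (∑ k : P, k • θA (κ (g * k) x)) =
        M • ∑ k : P, k • θA (κ k x) := by
      rw [← tB]
      refine Finset.sum_congr rfl fun g _ => ?_
      rw [Finset.smul_sum, ← Equiv.sum_comp (Equiv.mulLeft g) fun k => g⁻¹ • k • θA (κ k x)]
      congr 2
      refine Finset.sum_congr rfl fun k _ => ?_
      rw [Equiv.coe_mulLeft, mul_smul, inv_smul_smul]
    have h5 : ∑ g : P, g • θB (n • (g⁻¹ • h x)) = (M * n) • h x := by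
      rw [mul_comm, mul_smul, ← tB, Finset.smul_sum]
      refine Finset.sum_congr rfl fun g _ => ?_
      rw [map_zsmul, smul_comm]
    simp only [h2, Finset.sum_sub_distrib]
    rw [h4, h5]
    abel
  have h6 := congrArg d hmain
  rw [map_add, map_zsmul, map_zsmul, hh x hx] at h6
  have h7 : d (∑ k : P, k • θA (κ k x)) = 0 := by
    rw [map_sum]
    refine Finset.sum_eq_zero fun k _ => ?_
    rw [e, mA _ (κker k x hx), smul_zero]
  rw [h7, smul_zero, add_zero] at h6
  exact h6

end Vale.Agent.P192.H626
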