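import Vale.Agent.P192.H626.TwoThree

/-!
# Named notions for the statement
-/

namespace Vale.Agent.P192.H626

/-- The finite subgroups of `K` have bounded order. -/
def BO {G : Type} [Group G] (K : Subgroup G) : Prop :=
  ∃ B : ℕ, ∀ P : Subgroup G, Finite P → P ≤ K → Nat.card P ≤ B

/-- The finite `p`-subgroups of `K` have bounded order. -/
def BOp {G : Type} [Group G] (p : ℕ) (K : Subgroup G) : Prop :=
  ∃ B : ℕ, ∀ P : Subgroup G, Finite P → IsPGroup p P → P ≤ K → Nat.card P ≤ B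

/-- The order of `x` is nine or a prime which is at least five. -/
def Bad {G : Type} [Group G] (x : G) : Prop :=
  orderOf x = 9 ∨ (orderOf x).Prime ∧ 5 ≤ orderOf x

/-- The stabiliser in `H` of the cell `ω`. -/
def AcyclicComplex.stab {G : Type} [Group G] {n : ℕ} (X : AcyclicComplex G n) (H : Subgroup G)
    {i : ℕ} (ω : X.cell i) : Subgroup G :=
  H ⊓ MulAction.stabilizer G ω

/-- No bad element of `H` fixes a cell. -/
def AcyclicComplex.NoBad {G : Type} [Group G] {n : ℕ} (X : AcyclicComplex G n)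
    (H : Subgroup G) : Prop :=
  ∀ x ∈ H, Bad x → ∀ i (ω : X.cell i), x • ω ≠ ω

section two

variable {Γ G : Type} [Group Γ] [Group G] (X : AcyclicComplex G 2)
  (hfp : Group.IsFinitelyPresented Γ) (hper : ∀ x : Γ, IsOfFinOrder x) (f : Γ →* G)

include hfp hper

theorem st_bop (p : ℕ) (h : ∀ i (ω : X.cell i), BOp p (X.stab f.range ω)) : BOp p f.range :=
  bounded_p X hfp hper f p fun i ω => by
    obtain ⟨B, hB⟩ := h i ω
    exact ⟨B, fun P h1 h2 h3 h4 => hB P h1 h2 (le_inf h3 h4)⟩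

theorem st_bo (h : ∀ i (ω : X.cell i), BO (X.stab f.range ω)) : BO f.range :=
  bounded_of_acyclic X hfp hper f fun i ω => by
    obtain ⟨B, hB⟩ := h i ω
    exact ⟨B, fun P h1 h3 h4 => hB P h1 (le_inf h3 h4)⟩

theorem st_two (h : ∀ i (ω : X.cell i), BOp 2 (X.stab f.range ω)) :
    ∃ B : ℕ, ∀ P : Subgroup G, IsPGroup 2 P → P ≤ f.range → Finite P ∧ Nat.card P ≤ B :=
  two_subgroups X hfp hper f fun i ω => by
    obtain ⟨B, hB⟩ := h i ω
    exact ⟨B, fun P h1 h2 h3 h4 => hB P h1 h2 (le_inf h3 h4)⟩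

theorem st_bad (hX : X.Regular) (h : ∀ i (ω : X.cell i), BO (X.stab f.range ω))
    (hb : X.NoBad f.range) : Finite f.range :=
  finite_of_acyclic_two_orders X hX hfp hper f (fun i ω => by
    obtain ⟨B, hB⟩ := h i ω
    exact ⟨B, fun P h1 h3 h4 => hB P h1 (le_inf h3 h4)⟩) hb

end two

end Vale.Agent.P192.H626
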