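import Vale.Agent.P192.H626.SmithGrp
import Vale.Agent.P192.H260.Fix

/-!
# Acyclic graphs modulo two are trees
-/

namespace Vale.Agent.P192.H626

open Vale.Agent.P192.H260

theorem card_single_add {V : Type*} (e : V) (p : Ch V) :
    (p e = 0 → (Finsupp.single e 1 + p).support.card = p.support.card + 1) ∧
    (p e = 1 → (Finsupp.single e 1 + p).support.card + 1 = p.support.card) := by
  classical
  have hz : ∀ a : ZMod 2, a = 0 ∨ a = 1 := by decide
  constructor
  · intro h
    have h1 : (Finsupp.single e 1 + p).support = insert e p.support := by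
      ext ω
      rw [Finsupp.mem_support_iff, Finset.mem_insert, Finsupp.mem_support_iff,
        Finsupp.add_apply, Finsupp.single_apply]
      by_cases hω : e = ω
      · subst hω
        rw [if_pos rfl, h]
        simp
      · rw [if_neg hω, zero_add]
        exact ⟨Or.inr, fun h => h.resolve_left fun h' => hω h'.symm⟩
    rw [h1, Finset.card_insert_of_notMem (fun h' => (Finsupp.mem_support_iff.1 h') h)]
  · intro h
    have h1 : (Finsupp.single e 1 + p).support = p.support.erase e := by
      ext ω
      rw [Finsupp.mem_support_iff, Finset.mem_erase, Finsupp.mem_support_iff,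
        Finsupp.add_apply, Finsupp.single_apply]
      by_cases hω : e = ω
      · subst hω
        rw [if_pos rfl, h, CharTwo.add_self_eq_zero]
        simp
      · rw [if_neg hω, zero_add]
        exact ⟨fun h => ⟨fun h' => hω h'.symm, h⟩, fun h => h.2⟩
    rw [h1]
    exact Finset.card_erase_add_one (Finsupp.mem_support_iff.2 (by rw [h]; decide))

/-- A graph acyclic modulo two. -/
structure TreeData {V0 V1 : Type*} (d1 : Ch V1 →+ Ch V0) (A0 : Set V0) (A1 : Set V1) : Prop where
  ends : ∀ e : V1, ∃ v w : V0, d1 (Finsupp.single e 1) = Finsupp.single v 1 + Finsupp.single w 1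
  sub : ∀ e, Supp A1 e → Supp A0 (d1 e)
  conn : ∀ v ∈ A0, ∀ w ∈ A0, ∃ e, Supp A1 e ∧ d1 e = Finsupp.single v 1 + Finsupp.single w 1
  inj : ∀ e, Supp A1 e → d1 e = 0 → e = 0

section

variable {V0 V1 : Type*} {d1 : Ch V1 →+ Ch V0} {A0 : Set V0} {A1 : Set V1}
  (T : TreeData d1 A0 A1)

include T

/-- The path between two vertices. -/
noncomputable def TreeData.path (v w : A0) : Ch V1 := (T.conn v v.2 w w.2).choose

theorem TreeData.path_supp (v w : A0) : Supp A1 (T.path v w) :=
  (T.conn v v.2 w w.2).choose_spec.1

theorem TreeData.path_bd (v w : A0) :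
    d1 (T.path v w) = Finsupp.single (v : V0) 1 + Finsupp.single (w : V0) 1 :=
  (T.conn v v.2 w w.2).choose_spec.2

theorem TreeData.path_unique (v w : A0) (e : Ch V1) (he : Supp A1 e)
    (h : d1 e = Finsupp.single (v : V0) 1 + Finsupp.single (w : V0) 1) : T.path v w = e := by
  apply ch_eq_of_add
  apply T.inj _ ((T.path_supp v w).add he)
  rw [map_add, T.path_bd, h, ch_add_self]

theorem TreeData.path_add (u v w : A0) : T.path u w = T.path u v + T.path v w := by
  refine T.path_unique u w _ ((T.path_supp u v).add (T.path_supp v w)) ?_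
  rw [map_add, T.path_bd, T.path_bd]
  have : Finsupp.single (u : V0) (1 : ZMod 2) + Finsupp.single (v : V0) 1 +
      (Finsupp.single (v : V0) 1 + Finsupp.single (w : V0) 1) =
      Finsupp.single (u : V0) 1 + Finsupp.single (w : V0) 1 +
        (Finsupp.single (v : V0) 1 + Finsupp.single (v : V0) 1) := by abel
  rw [this, ch_add_self, add_zero]

/-- The distance of two vertices. -/
noncomputable def TreeData.dst (v w : A0) : ℕ := (T.path v w).support.card

theorem TreeData.dst_symm (v w : A0) : T.dst v w = T.dst w v := by
  have : T.path v w = T.path w v := T.path_unique v w _ (T.path_supp w v) (by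
    rw [T.path_bd, add_comm])
  rw [TreeData.dst, TreeData.dst, this]

theorem TreeData.dst_zero (v w : A0) : T.dst v w = 0 ↔ v = w := by
  rw [TreeData.dst, Finset.card_eq_zero, Finsupp.support_eq_empty]
  constructor
  · intro h
    have h1 := T.path_bd v w
    rw [h, map_zero] at h1
    have h2 := ch_eq_of_add h1.symm
    exact Subtype.ext (Finsupp.single_left_injective (one_ne_zero) h2)
  · rintro rfl
    exact T.path_unique v v 0 Supp.zero (by rw [map_zero, ch_add_self])

/-- A path of length one is an edge. -/
theorem TreeData.dst_one (v w : A0) (h : T.dst v w = 1) :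
    ∃ e : V1, T.path v w = Finsupp.single e 1 := by
  classical
  obtain ⟨e, he⟩ := Finset.card_eq_one.1 h
  refine ⟨e, ?_⟩
  ext ω
  rw [Finsupp.single_apply]
  have hz : ∀ a : ZMod 2, a ≠ 0 → a = 1 := by decide
  by_cases hω : e = ω
  · rw [if_pos hω]
    refine hz _ (Finsupp.mem_support_iff.1 ?_)
    rw [he, hω]
    exact Finset.mem_singleton_self _
  · rw [if_neg hω]
    refine Finsupp.notMem_support_iff.1 ?_
    rw [he, Finset.mem_singleton]
    exact fun h => hω h.symm

/-- The first edge of a path. -/
theorem TreeData.exists_first (v w : A0) (h : v ≠ w) :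
    ∃ (u : A0) (e : V1), T.path v w e = 1 ∧ T.path v u = Finsupp.single e 1 ∧
      T.dst v u = 1 ∧ T.dst u w + 1 = T.dst v w := by
  classical
  have hz : ∀ a : ZMod 2, a ≠ 0 → a = 1 := by decide
  set p := T.path v w with hp
  have h1 : d1 p v ≠ 0 := by
    rw [hp, T.path_bd, Finsupp.add_apply, Finsupp.single_eq_same, Finsupp.single_apply,
      if_neg (fun h' => h (Subtype.ext h'.symm)), add_zero]
    exact one_ne_zero
  have h2 : ∃ e ∈ p.support, d1 (Finsupp.single e 1) v ≠ 0 := by
    by_contra hcon
    push Not at hcon
    apply h1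
    have h3 : Supp {ω | ω ≠ (v : V0)} (d1 p) := by
      refine Supp_map d1 {e | e ∈ p.support} _ (fun e he τ hτ => ?_) p
        (fun e he => Finsupp.mem_support_iff.2 he)
      rintro rfl
      exact hτ (hcon e he)
    exact h3.eq_zero fun h4 => h4 rfl
  obtain ⟨e, he, hev⟩ := h2
  have hpe : p e = 1 := hz _ (Finsupp.mem_support_iff.1 he)
  have heA : e ∈ A1 := T.path_supp v w e (Finsupp.mem_support_iff.1 he)
  obtain ⟨u, huv, hu⟩ : ∃ u : V0, u ≠ v ∧
      d1 (Finsupp.single e 1) = Finsupp.single (v : V0) 1 + Finsupp.single u 1 := by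
    obtain ⟨a, b, hab⟩ := T.ends e
    rw [hab, Finsupp.add_apply, Finsupp.single_apply, Finsupp.single_apply] at hev
    by_cases ha : a = v
    · by_cases hb : b = v
      · rw [if_pos ha, if_pos hb] at hev
        exact absurd (CharTwo.add_self_eq_zero _) hev
      · exact ⟨b, hb, by rw [hab, ha]⟩
    · by_cases hb : b = v
      · exact ⟨a, ha, by rw [hab, hb, add_comm]⟩
      · rw [if_neg ha, if_neg hb, add_zero] at hev
        exact absurd rfl hev
  have hsupp : Supp A1 (Finsupp.single e (1 : ZMod 2)) := by
    intro ω hω
    rw [Finsupp.single_apply] at hω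
    by_cases h5 : e = ω
    · rw [← h5]
      exact heA
    · rw [if_neg h5] at hω
      exact absurd rfl hω
  have huA : u ∈ A0 := by
    refine T.sub _ hsupp u ?_
    rw [hu, Finsupp.add_apply, Finsupp.single_apply, if_neg (fun h' => huv h'.symm),
      Finsupp.single_eq_same, zero_add]
    exact one_ne_zero
  have hpath : T.path v ⟨u, huA⟩ = Finsupp.single e 1 :=
    T.path_unique v ⟨u, huA⟩ _ hsupp hu
  refine ⟨⟨u, huA⟩, e, hpe, hpath, ?_, ?_⟩
  · rw [TreeData.dst, hpath, Finsupp.support_single _ one_ne_zero, Finset.card_singleton]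
  · have h6 : T.path ⟨u, huA⟩ w = Finsupp.single e 1 + p := by
      have h7 := T.path_add ⟨u, huA⟩ v w
      have h8 : T.path ⟨u, huA⟩ v = T.path v ⟨u, huA⟩ :=
        T.path_unique _ _ _ (T.path_supp _ _) (by rw [T.path_bd, add_comm])
      rw [h7, h8, hpath]
    rw [TreeData.dst, TreeData.dst, h6]
    exact (card_single_add e p).2 hpe

/-- The graph is a tree. -/
theorem TreeData.isTree : IsTree T.dst := by
  classical
  have hz : ∀ a : ZMod 2, a = 0 ∨ a = 1 := by decide
  have hpar : ∀ u v w : A0, T.dst u v = 1 →
      T.dst u w = T.dst v w + 1 ∨ T.dst v w = T.dst u w + 1 := by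
    intro u v w h
    obtain ⟨e, he⟩ := T.dst_one u v h
    have h1 := T.path_add u v w
    rw [he] at h1
    rcases hz (T.path v w e) with h2 | h2
    · left
      rw [TreeData.dst, h1]
      exact (card_single_add e _).1 h2
    · right
      rw [TreeData.dst, TreeData.dst, h1]
      exact ((card_single_add e _).2 h2).symm
  -- a vertex on a path
  have hbet : ∀ n : ℕ, ∀ u w v : A0, T.dst u w = n →
      (∃ e', T.path u w e' = 1 ∧ d1 (Finsupp.single e' 1) v ≠ 0) →
      T.dst u v + T.dst v w ≤ n := by
    intro n
    induction n with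
    | zero =>
      rintro u w v h ⟨e', he', -⟩
      rw [TreeData.dst, Finset.card_eq_zero, Finsupp.support_eq_empty] at h
      rw [h] at he'
      exact absurd he' (by rw [Finsupp.zero_apply]; decide)
    | succ n ih =>
      rintro u w v h ⟨e', he', hv⟩
      have huw : u ≠ w := by
        intro h'
        rw [(T.dst_zero u w).2 h'] at h
        omega
      obtain ⟨u1, e, hpe, hpu, hd1, hd2⟩ := T.exists_first u w huw
      by_cases hee : e' = e
      · subst hee
        have h3 := T.path_bd u u1
        rw [hpu] at h3
        rw [h3, Finsupp.add_apply, Finsupp.single_apply, Finsupp.single_apply] at hv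
        by_cases h4 : (u : V0) = v
        · have : u = v := Subtype.ext h4
          subst this
          rw [(T.dst_zero u u).2 rfl, zero_add, h]
        · by_cases h5 : (u1 : V0) = v
          · have : u1 = v := Subtype.ext h5
            subst this
            omega
          · rw [if_neg h4, if_neg h5, add_zero] at hv
            exact absurd rfl hv
      · have h6 : T.path u1 w e' = 1 := by
          have h7 := T.path_add u u1 w
          have h8 : T.path u w e' = T.path u u1 e' + T.path u1 w e' := by
            rw [h7, Finsupp.add_apply]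
          rw [hpu, Finsupp.single_apply, if_neg (fun h' => hee h'.symm), zero_add] at h8
          rw [← h8, he']
        have h9 := ih u1 w v (by omega) ⟨e', h6, hv⟩
        have h10 : T.dst u v ≤ T.dst u1 v + 1 := by
          rcases hpar u u1 v hd1 with h | h <;> omega
        omega
  refine ⟨T.dst_zero, T.dst_symm, hpar, ?_⟩
  intro v w hvw
  obtain ⟨u, e, hpe, hpu, hd1, hd2⟩ := T.exists_first v w hvw
  refine ⟨u, ⟨hd1, hd2⟩, fun u' h1 h2 => ?_⟩
  by_contra hne
  obtain ⟨e', he'⟩ := T.dst_one v u' h1
  have hb := T.path_bd v u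
  rw [hpu] at hb
  have hb' := T.path_bd v u'
  rw [he'] at hb'
  have hee : e ≠ e' := by
    rintro rfl
    rw [hb] at hb'
    have h3 := add_left_cancel hb'
    exact hne (Subtype.ext (Finsupp.single_left_injective (one_ne_zero) h3).symm)
  -- `e'` lies on the path from `v` to `w`
  have hv' : T.path v w e' = 1 := by
    rcases hz (T.path v w e') with h3 | h3
    · exfalso
      have h4 : T.path u' w = Finsupp.single e' 1 + T.path v w := by
        have h5 := T.path_add u' v w
        have h6 : T.path u' v = T.path v u' :=
          T.path_unique _ _ _ (T.path_supp _ _) (by rw [T.path_bd, add_comm])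
        rw [h5, h6, he']
      have h7 := (card_single_add e' (T.path v w)).1 h3
      rw [← h4] at h7
      have h8 : T.dst u' w = T.dst v w + 1 := h7
      omega
    · exact h3
  have hu' : T.path u w e' = 1 := by
    have h5 := T.path_add u v w
    have h6 : T.path u v = T.path v u :=
      T.path_unique _ _ _ (T.path_supp _ _) (by rw [T.path_bd, add_comm])
    rw [h5, h6, hpu, Finsupp.add_apply, Finsupp.single_apply, if_neg hee, zero_add, hv']
  have hinc : d1 (Finsupp.single e' 1) (v : V0) ≠ 0 := by
    rw [hb', Finsupp.add_apply, Finsupp.single_eq_same, Finsupp.single_apply, if_neg, add_zero]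
    · exact one_ne_zero
    · intro h
      have h9 : u' = v := Subtype.ext h
      rw [h9, (T.dst_zero v v).2 rfl] at h1
      omega
  have := hbet _ u w v rfl ⟨e', hu', hinc⟩
  omega

end

end Vale.Agent.P192.H626
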