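import Vale.Agent.P192.H626.Exp3
import Vale.Agent.P192.H626.Red3
import Vale.Agent.P192.H626.Assembly

/-!
# Elements of order nine and of prime order at least five
-/

namespace Vale.Agent.P192.H626

open Module

theorem exists_pow_order {G : Type*} [Group G] (x : G) (hpos : 0 < orderOf x) (c : ℕ)
    (hc : c ∣ orderOf x) : ∃ e : ℕ, orderOf (x ^ e) = c := by
  obtain ⟨e, he⟩ := hc
  have he0 : e ≠ 0 := by
    rintro rfl
    rw [mul_zero] at he
    exact hpos.ne' he
  refine ⟨e, ?_⟩
  rw [orderOf_pow_of_dvd he0 ⟨c, by rw [he, mul_comm]⟩, he]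
  exact Nat.mul_div_cancel _ (Nat.pos_of_ne_zero he0)

/-- The order of an element without powers of order nine or of prime order at least five. -/
theorem form_of_orders {G : Type*} [Group G] (x : G) (hx : IsOfFinOrder x)
    (h : ∀ e : ℕ, ¬ (orderOf (x ^ e) = 9 ∨ (orderOf (x ^ e)).Prime ∧ 5 ≤ orderOf (x ^ e))) :
    ∃ k : ℕ, x ^ (3 * 2 ^ k) = 1 := by
  have hpos : 0 < orderOf x := hx.orderOf_pos
  have h9 : ¬ 9 ∣ orderOf x := by
    intro h1
    obtain ⟨e, he⟩ := exists_pow_order x hpos 9 h1
    exact h e (Or.inl he)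
  have h5 : ∀ p : ℕ, p.Prime → p ∣ orderOf x → p = 2 ∨ p = 3 := by
    intro p hp hpd
    obtain ⟨e, he⟩ := exists_pow_order x hpos p hpd
    by_contra hcon
    push Not at hcon
    have h4 : p ≠ 4 := by
      rintro rfl
      exact absurd hp (by decide)
    have h6 := hp.two_le
    exact h e (Or.inr ⟨by rw [he]; exact hp, by rw [he]; omega⟩)
  obtain ⟨a, c, hc, hac⟩ := Nat.exists_eq_two_pow_mul_odd hpos.ne'
  have hc0 : c ≠ 0 := hc.pos.ne'
  have hc3 : c = 3 ^ c.primeFactorsList.length := by
    refine Nat.eq_prime_pow_of_unique_prime_dvd hc0 ?_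
    intro p hp hpc
    rcases h5 p hp (hac ▸ Dvd.dvd.mul_left hpc _) with h | h
    · exfalso
      rw [h] at hpc
      exact (Nat.not_even_iff_odd.2 hc) (even_iff_two_dvd.2 hpc)
    · exact h
  have hlt : c.primeFactorsList.length < 2 := by
    by_contra hge
    push Not at hge
    apply h9
    rw [hac, hc3]
    exact Dvd.dvd.mul_left (pow_dvd_pow 3 hge) _
  have hcd : c ∣ 3 := by
    rw [hc3]
    exact (pow_dvd_pow 3 (by omega : c.primeFactorsList.length ≤ 1)).trans (by norm_num)
  refine ⟨a, orderOf_dvd_iff_pow_eq_one.1 ?_⟩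
  rw [hac, mul_comm]
  exact Nat.mul_dvd_mul hcd dvd_rfl

/-- A periodic group whose finite subgroups have bounded order, without elements of order nine or
of prime order at least five, is finite. -/
theorem finite_of_orders {G : Type*} [Group G] (ht : ∀ g : G, IsOfFinOrder g) (B : ℕ)
    (hB : ∀ P : Subgroup G, Finite P → Nat.card P ≤ B)
    (h : ∀ x : G, ¬ (orderOf x = 9 ∨ (orderOf x).Prime ∧ 5 ≤ orderOf x)) : Finite G :=
  finite_of_exponent B hB fun x => form_of_orders x (ht x) fun e => h (x ^ e)

/-- An element of order nine or of prime order fixes a cell. -/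
theorem fixes_of_order {G : Type} [Group G] {n : ℕ} (X : AcyclicComplex G n)
    (hX : X.Regular) (x : G) (h : orderOf x = 9 ∨ (orderOf x).Prime) :
    ∃ i, ∃ ω : X.cell i, x • ω = ω := by
  rcases h with h | h
  · have h9 : 3 ^ 2 = orderOf x := by
      rw [h]
      norm_num
    obtain ⟨v, hv⟩ := S3.exists_fixed X hX 2 x (by
      rw [h9]
      exact pow_orderOf_eq_one x)
    exact ⟨0, v, hv⟩
  · by_contra hcon
    push Not at hcon
    have hfin : IsOfFinOrder x := orderOf_pos_iff.1 h.pos
    have h3 := card_dvd_of_acyclic X (Subgroup.zpowers x)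
      (finite_zpowers.2 hfin).to_subtype 1 (fun i ω => by
        set Q : Subgroup G := Subgroup.zpowers x ⊓ MulAction.stabilizer G ω with hQ
        have h4 : Nat.card Q ∣ orderOf x := by
          rw [← Nat.card_zpowers]
          exact Subgroup.card_dvd_of_le inf_le_left
        rcases (Nat.dvd_prime h).1 h4 with h5 | h5
        · rw [h5]
        · exfalso
          have h6 : Nat.card Q = Nat.card (Subgroup.zpowers x) := by
            rw [h5, Nat.card_zpowers]
          have hf : Finite (Subgroup.zpowers x) := (finite_zpowers.2 hfin).to_subtype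
          have h7 : Q = Subgroup.zpowers x :=
            Subgroup.eq_of_le_of_card_ge inf_le_left h6.ge
          have h8 : x ∈ Q := by
            rw [h7]
            exact Subgroup.mem_zpowers x
          exact hcon i ω h8.2)
    rw [Nat.card_zpowers, one_pow] at h3
    exact h.one_lt.ne' (Nat.dvd_one.1 h3)

theorem finite_of_bound_orders {G : Type} [Group G] {n : ℕ} (X : AcyclicComplex G n)
    (hX : X.Regular) (H : Subgroup G) (hH : ∀ x ∈ H, IsOfFinOrder x)
    (h23 : ∀ x ∈ H, (orderOf x = 9 ∨ (orderOf x).Prime ∧ 5 ≤ orderOf x) →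
      ∀ i (ω : X.cell i), x • ω ≠ ω) (B : ℕ)
    (hB : ∀ P : Subgroup G, Finite P → P ≤ H → Nat.card P ≤ B) : Finite H := by
  refine finite_of_orders (fun x => ?_) B (fun P hP => ?_) fun x hx => ?_
  · exact (Submonoid.isOfFinOrder_coe (H := H.toSubmonoid) (x := x)).1 (hH x x.2)
  · have h4 : Nat.card P = Nat.card (P.map H.subtype) :=
      Nat.card_congr (P.equivMapOfInjective _ H.subtype_injective).toEquiv
    have h5 : P.map H.subtype ≤ H := by
      rintro _ ⟨x, -, rfl⟩
      exact x.2
    have h6 : Finite (P.map H.subtype) :=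
      Finite.of_equiv P (P.equivMapOfInjective _ H.subtype_injective).toEquiv
    rw [h4]
    exact hB _ h6 h5
  · rw [← Subgroup.orderOf_coe] at hx
    obtain ⟨i, ω, hω⟩ := fixes_of_order X hX (x : G) (hx.imp id fun h => h.1)
    exact h23 x x.2 hx i ω hω

/-- A periodic group acting on a regular acyclic complex of finite dimension is finite if its
finite subgroups fixing a cell have bounded order and no element of order nine or of prime order
at least five fixes a cell. -/
theorem finite_of_acyclic_orders {G : Type} [Group G] {n : ℕ} (X : AcyclicComplex G n)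
    (hX : X.Regular) (H : Subgroup G) (hH : ∀ x ∈ H, IsOfFinOrder x) (B : ℕ)
    (hB : ∀ P : Subgroup G, Finite P → P ≤ H → ∀ i (ω : X.cell i),
      P ≤ MulAction.stabilizer G ω → Nat.card P ≤ B)
    (h23 : ∀ x ∈ H, (orderOf x = 9 ∨ (orderOf x).Prime ∧ 5 ≤ orderOf x) →
      ∀ i (ω : X.cell i), x • ω ≠ ω) : Finite H := by
  refine finite_of_bound_orders X hX H hH h23 (B.factorial ^ (n + 1)) fun P hP hPH => ?_
  refine Nat.le_of_dvd (pow_pos (Nat.factorial_pos _) _)
    (card_dvd_of_acyclic X P hP B.factorial fun i ω => ?_)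
  have hf : Finite (P ⊓ MulAction.stabilizer G ω : Subgroup G) :=
    Finite.of_injective _ (Subgroup.inclusion_injective (inf_le_left : _ ≤ P))
  exact Nat.dvd_factorial Nat.card_pos (hB _ hf (inf_le_left.trans hPH) i ω inf_le_right)

/-- Images of finitely presented periodic groups. -/
theorem finite_of_acyclic_two_orders {Γ G : Type} [Group Γ] [Group G] (X : AcyclicComplex G 2)
    (hX : X.Regular) (hfp : Group.IsFinitelyPresented Γ) (hper : ∀ x : Γ, IsOfFinOrder x)
    (f : Γ →* G)
    (hst : ∀ i (ω : X.cell i), ∃ B : ℕ, ∀ P : Subgroup G, Finite P → P ≤ f.range →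
      P ≤ MulAction.stabilizer G ω → Nat.card P ≤ B)
    (h23 : ∀ x ∈ f.range, (orderOf x = 9 ∨ (orderOf x).Prime ∧ 5 ≤ orderOf x) →
      ∀ i (ω : X.cell i), x • ω ≠ ω) : Finite f.range := by
  obtain ⟨B, hB⟩ := bounded_of_acyclic X hfp hper f hst
  have hper' : ∀ x ∈ f.range, IsOfFinOrder x := by
    rintro _ ⟨y, rfl⟩
    exact MonoidHom.isOfFinOrder f (hper y)
  exact finite_of_bound_orders X hX f.range hper' h23 B hB

end Vale.Agent.P192.H626
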